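import Vale.Agent.P002.Bricks

/-!
# P002: abelian fundamental groups

A semisimple family of commuting matrices is simultaneously diagonalisable, and families of diagonal
matrices with entries units of `ℤ[√2]` are dense in the product of copies of the torus.
-/

namespace Vale.Agent.P002

open Matrix

variable {r : ℕ}

/-- The ring `ℤ[√2]` inside the complex numbers. -/
noncomputable def ZSqrtTwo : Subring ℂ := Subring.closure {((Real.sqrt 2 : ℝ) : ℂ)}

/-- The fundamental unit `1 + √2`. -/
noncomputable def unitP : ℂ := 1 + ((Real.sqrt 2 : ℝ) : ℂ)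

/-- Its inverse `√2 - 1`. -/
noncomputable def unitQ : ℂ := ((Real.sqrt 2 : ℝ) : ℂ) - 1

theorem unitP_mem : unitP ∈ ZSqrtTwo :=
  add_mem (one_mem _) (Subring.subset_closure rfl)

theorem unitQ_mem : unitQ ∈ ZSqrtTwo :=
  sub_mem (Subring.subset_closure rfl) (one_mem _)

theorem unitP_mul_unitQ : unitP * unitQ = 1 := by
  have h : ((Real.sqrt 2 : ℝ) : ℂ) * ((Real.sqrt 2 : ℝ) : ℂ) = 2 := by
    rw [← Complex.ofReal_mul, Real.mul_self_sqrt (by norm_num)]; norm_num
  simp only [unitP, unitQ]
  linear_combination h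

theorem unitP_pow_injective {a b : ℕ} (h : unitP ^ a = unitP ^ b) : a = b := by
  have hn : ‖unitP‖ = 1 + Real.sqrt 2 := by
    rw [unitP, ← Complex.ofReal_one, ← Complex.ofReal_add, Complex.norm_real, Real.norm_eq_abs,
      abs_of_pos (by positivity)]
  have h1 := congrArg (fun z : ℂ => ‖z‖) h
  simp only [norm_pow, hn] at h1
  have hs : (0 : ℝ) < Real.sqrt 2 := by positivity
  exact pow_right_injective₀ (by positivity) (by linarith) h1

/-- For every degree there is a diagonal matrix of units without small multiplicative relations. -/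
theorem exists_unit_point (r d : ℕ) : ∃ w : Fin r → ℂ, (∀ a, w a ∈ ZSqrtTwo) ∧ ∏ a, w a = 1 ∧
    ∀ m m' : Fin r → ℕ, (∀ a, m a ≤ d) → (∀ a, m' a ≤ d) →
      ∏ a, w a ^ m a = ∏ a, w a ^ m' a → DiffConst m m' := by
  rcases r with _ | n
  · exact ⟨fun a => a.elim0, fun a => a.elim0, by simp, fun m m' _ _ _ a => a.elim0⟩
  set K := 2 * d + 1 with hK
  set S := ∑ i : Fin n, K ^ (i : ℕ) with hS
  refine ⟨Fin.lastCases (unitQ ^ S) (fun i => unitP ^ (K ^ (i : ℕ))), fun a => ?_, ?_, ?_⟩
  · refine Fin.lastCases ?_ (fun i => ?_) a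
    · simp only [Fin.lastCases_last]; exact pow_mem unitQ_mem _
    · simp only [Fin.lastCases_castSucc]; exact pow_mem unitP_mem _
  · rw [Fin.prod_univ_castSucc]
    simp only [Fin.lastCases_castSucc, Fin.lastCases_last, Finset.prod_pow_eq_pow_sum]
    rw [← hS, ← mul_pow, unitP_mul_unitQ, one_pow]
  intro m m' hm hm' he
  simp only [Fin.prod_univ_castSucc, Fin.lastCases_castSucc, Fin.lastCases_last, ← pow_mul,
    Finset.prod_pow_eq_pow_sum] at he
  set p := m (Fin.last n) with hp
  set p' := m' (Fin.last n) with hp'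
  have h1 := congrArg (fun z => z * (unitP ^ (S * p) * unitP ^ (S * p'))) he
  have e : ∀ (A : ℕ) (q q' : ℕ), unitP ^ A * unitQ ^ q * (unitP ^ q * unitP ^ q') =
      unitP ^ (A + q') := fun A q q' => by
    rw [pow_add]
    calc unitP ^ A * unitQ ^ q * (unitP ^ q * unitP ^ q')
        = unitP ^ A * unitP ^ q' * (unitP * unitQ) ^ q := by rw [mul_pow]; ring
      _ = unitP ^ A * unitP ^ q' := by rw [unitP_mul_unitQ, one_pow, mul_one]
  simp only [e] at h1
  rw [mul_comm (unitP ^ (S * p)) (unitP ^ (S * p')), e] at h1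
  have h2 := unitP_pow_injective h1
  have h3 : ∑ i : Fin n, (m i.castSucc + p') * K ^ (i : ℕ) =
      ∑ i : Fin n, (m' i.castSucc + p) * K ^ (i : ℕ) := by
    simp only [add_mul, Finset.sum_add_distrib, ← Finset.mul_sum, ← hS]
    simpa only [mul_comm (K ^ _), mul_comm S] using h2
  let F : Fin n → Fin K := fun i => ⟨m i.castSucc + p', by
    have := hm i.castSucc; have := hm' (Fin.last n); omega⟩
  let F' : Fin n → Fin K := fun i => ⟨m' i.castSucc + p, by
    have := hm' i.castSucc; have := hm (Fin.last n); omega⟩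
  have hF : F = F' := finFunctionFinEquiv.injective (Fin.ext (by
    simpa [finFunctionFinEquiv_apply, F, F'] using h3))
  have key : ∀ a, m a + p' = m' a + p := by
    intro a
    refine Fin.lastCases ?_ (fun i => ?_) a
    · rw [← hp, ← hp']; omega
    · exact congrArg Fin.val (congrFun hF i)
  intro a b
  have := key a
  have := key b
  omega

/-- A polynomial in the entries vanishing at all diagonal determinant one matrices with entries in
`ℤ[√2]` vanishes at all diagonal determinant one matrices. -/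
theorem eval_torus {p : MvPolynomial (Fin r) ℂ}
    (h : ∀ w : Fin r → ℂ, (∀ a, w a ∈ ZSqrtTwo) → ∏ a, w a = 1 → MvPolynomial.eval w p = 0)
    {y : Fin r → ℂ} (hy : ∏ a, y a = 1) : MvPolynomial.eval y p = 0 := by
  obtain ⟨w, hw, hw1, hrel⟩ := exists_unit_point r p.totalDegree
  have hb : ∀ e ∈ p.support, ∀ a, e a ≤ p.totalDegree := by
    intro e he a
    refine le_trans ?_ (MvPolynomial.le_totalDegree he)
    by_cases h : a ∈ e.support
    · exact Finset.single_le_sum (f := fun x => e x) (fun x _ => Nat.zero_le _) h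
    · simp [Finsupp.notMem_support_iff.1 h]
  refine eval_eq_zero_of_pow (w := w) (fun n => h _ (fun a => pow_mem (hw a) n) ?_)
    (fun m hm m' hm' he => hrel _ _ (hb m hm) (hb m' hm') he) hy
  rw [Finset.prod_pow, hw1, one_pow]

/-- A family of diagonal matrices. -/
def diagTup {n : ℕ} (x : Fin n → Fin r → ℂ) : Fin n → Matrix (Fin r) (Fin r) ℂ :=
  fun k => diagonal (x k)

theorem diagTup_vanish {n : ℕ} {f : MvPolynomial (Fin n × Fin r × Fin r) ℂ}
    (hf : ∀ x : Fin n → Fin r → ℂ, (∀ k a, x k a ∈ ZSqrtTwo) → (∀ k, ∏ a, x k a = 1) →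
      MvPolynomial.eval (fun v => diagTup x v.1 v.2.1 v.2.2) f = 0)
    {x : Fin n → Fin r → ℂ} (hx : ∀ k, ∏ a, x k a = 1) :
    MvPolynomial.eval (fun v => diagTup x v.1 v.2.1 v.2.2) f = 0 := by
  classical
  suffices H : ∀ (s : Finset (Fin n)) (x : Fin n → Fin r → ℂ), (∀ k ∉ s, ∀ a, x k a ∈ ZSqrtTwo) →
      (∀ k, ∏ a, x k a = 1) → MvPolynomial.eval (fun v => diagTup x v.1 v.2.1 v.2.2) f = 0 from
    H Finset.univ x (fun k hk => absurd (Finset.mem_univ k) hk) hx
  intro s
  induction s using Finset.induction_on with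
  | empty => exact fun x hm h1 => hf x (fun k => hm k (Finset.notMem_empty k)) h1
  | insert i s hi ih =>
    intro x hm h1
    let T : Fin n × Fin r × Fin r → MvPolynomial (Fin r) ℂ := fun v =>
      if v.2.1 = v.2.2 then (if v.1 = i then MvPolynomial.X v.2.1 else MvPolynomial.C (x v.1 v.2.1))
      else 0
    have e : ∀ z, MvPolynomial.eval z (MvPolynomial.bind₁ T f) =
        MvPolynomial.eval (fun v => diagTup (Function.update x i z) v.1 v.2.1 v.2.2) f := by
      intro z
      change MvPolynomial.eval₂Hom (RingHom.id ℂ) z _ = MvPolynomial.eval₂Hom _ _ f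
      rw [MvPolynomial.eval₂Hom_bind₁]
      congr 2
      funext ⟨k, a, b⟩
      by_cases hab : a = b
      · subst hab
        by_cases hk : k = i
        · subst hk; simp [T, diagTup]
        · simp [T, diagTup, hk]
      · simp [T, diagTup, hab]
    have h := eval_torus (p := MvPolynomial.bind₁ T f) (fun w hw hw1 => ?_) (h1 i)
    · rwa [e, Function.update_eq_self] at h
    rw [e]
    refine ih _ (fun k hk => ?_) (fun k => ?_)
    · by_cases hki : k = i
      · subst hki; simpa using hw
      · rw [Function.update_of_ne hki]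
        exact hm k (by simp [hki, hk])
    · by_cases hki : k = i
      · subst hki; simpa using hw1
      · rw [Function.update_of_ne hki]; exact h1 k

/-- A semisimple family of commuting matrices is simultaneously diagonalisable. -/
theorem exists_diag_conj (hr : r ≠ 0) {n : ℕ} {τ : Fin n → Matrix (Fin r) (Fin r) ℂ}
    (hcomm : ∀ i j, τ i * τ j = τ j * τ i)
    (hs : ∀ U : Submodule ℂ (Fin r → ℂ), (∀ k, ∀ x ∈ U, τ k *ᵥ x ∈ U) →
      ∃ V : Submodule ℂ (Fin r → ℂ), (∀ k, ∀ x ∈ V, τ k *ᵥ x ∈ V) ∧ IsCompl U V) :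
    ∃ (P P' : Matrix (Fin r) (Fin r) ℂ) (x : Fin n → Fin r → ℂ), P * P' = 1 ∧ P' * P = 1 ∧
      ∀ k, P' * τ k * P = diagTup x k := by
  let σ : Tup n r ℂ := fun k => bif k.2 then 1 else τ k.1
  have hs' : IsSemisimpleRep σ := by
    intro U hU
    obtain ⟨V, hV, hc⟩ := hs U (fun k x hx => hU (k, false) x hx)
    refine ⟨V, fun k x hx => ?_, hc⟩
    obtain ⟨i, c⟩ := k
    cases c
    · exact hV i x hx
    · show (1 : Matrix (Fin r) (Fin r) ℂ) *ᵥ x ∈ V
      rwa [one_mulVec]
  obtain ⟨N, e, he⟩ := exists_bricks hr hs'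
  have hab : ∀ k l, σ k * σ l = σ l * σ k := by
    rintro ⟨i, b⟩ ⟨j, b'⟩
    cases b <;> cases b' <;> simp [σ, hcomm i j]
  choose lam hlam using fun k : Fin n × Bool => he.corner (σ k) (fun l => hab k l)
  have hcorner : ∀ X i, ∃ z : ℂ, e i * X * e i = z • e i := by
    intro X i
    have hmove : ∀ k, e i * σ k = lam k i • e i := fun k => by
      rw [← hlam, mul_assoc, ← he.comm i k, ← mul_assoc, he.idem]
    obtain ⟨z, hz⟩ := he.corner (e i * X * e i) (fun k => by
      calc e i * X * e i * σ k = lam k i • (e i * X * e i) := by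
            rw [mul_assoc, hmove, Matrix.mul_smul]
        _ = σ k * (e i * X * e i) := by
            rw [← mul_assoc, ← mul_assoc, ← he.comm i k, hmove, Matrix.smul_mul, Matrix.smul_mul]) i
    refine ⟨z, ?_⟩
    rw [← hz]
    simp only [mul_assoc, he.idem]
    simp only [← mul_assoc, he.idem]
  have hrank : ∀ i, ∃ v w : Fin r → ℂ, (∀ a b, e i a b = v a * w b) ∧ ∑ a, w a * v a = 1 := by
    intro i
    obtain ⟨a0, b0, h0⟩ : ∃ a b, e i a b ≠ 0 := by
      by_contra hno
      push Not at hno
      exact he.ne i (Matrix.ext hno)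
    obtain ⟨z, hz⟩ := hcorner (Matrix.single b0 a0 1) i
    have hent : ∀ a b, e i a b0 * e i a0 b = z * e i a b := fun a b => by
      have h1 := congrFun (congrFun hz a) b
      rw [Matrix.mul_apply, Finset.sum_eq_single a0
        (fun x _ hx => by rw [Matrix.mul_apply, Finset.sum_eq_zero (fun c _ => by
          simp [Matrix.single_apply, Ne.symm hx]), zero_mul])
        (fun h' => absurd (Finset.mem_univ a0) h'), Matrix.mul_single_apply_same, mul_one,
        Matrix.smul_apply, smul_eq_mul] at h1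
      exact h1
    have hz0 : z ≠ 0 := fun h => by
      have := hent a0 b0
      rw [h, zero_mul, mul_self_eq_zero] at this
      exact h0 this
    refine ⟨fun a => e i a b0 / z, fun b => e i a0 b, fun a b => ?_, ?_⟩
    · rw [div_mul_eq_mul_div, hent, mul_div_assoc, mul_comm, div_mul_cancel₀ _ hz0]
    · have h2 : e i a0 b0 = ∑ c, e i a0 c * e i c b0 := by
        conv_lhs => rw [← he.idem i]
        exact Matrix.mul_apply
      have h3 : z = e i a0 b0 := by
        have := hent a0 b0
        exact (mul_right_cancel₀ h0 this).symm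
      calc ∑ a, e i a0 a * (e i a b0 / z) = (∑ a, e i a0 a * e i a b0) / z := by
            rw [Finset.sum_div]; exact Finset.sum_congr rfl fun a _ => (mul_div_assoc _ _ _).symm
        _ = 1 := by rw [← h2, ← h3, div_self hz0]
  choose v w hvw hdot using hrank
  have hN : N = r := by
    have h1 := congrArg Matrix.trace he.sum
    rw [trace_sum, trace_one, Fintype.card_fin] at h1
    have h2 : ∀ i, trace (e i) = 1 := fun i => by
      rw [← hdot i]
      simp only [Matrix.trace, diag_apply, hvw, mul_comm]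
    simp only [h2, Finset.sum_const, Finset.card_univ, Fintype.card_fin, nsmul_eq_mul, mul_one] at h1
    exact Nat.cast_injective h1
  subst hN
  let P : Matrix (Fin N) (Fin N) ℂ := Matrix.of fun a j => v j a
  let P' : Matrix (Fin N) (Fin N) ℂ := Matrix.of fun j b => w j b
  have hPP' : P * P' = 1 := by
    rw [← he.sum]
    ext a b
    rw [Matrix.mul_apply, Matrix.sum_apply]
    simp only [P, P', of_apply, hvw]
  refine ⟨P, P', fun k i => lam (k, false) i, hPP', mul_eq_one_comm.1 hPP', fun i₀ => ?_⟩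
  show P' * σ (i₀, false) * P = _
  generalize hk : ((i₀, false) : Fin n × Bool) = k
  have hσ : σ k = P * diagonal (fun i => lam k i) * P' := by
    have h1 : σ k = ∑ i, lam k i • e i := by
      calc σ k = ∑ i, e i * σ k := by rw [← Finset.sum_mul, he.sum, one_mul]
        _ = ∑ i, lam k i • e i := Finset.sum_congr rfl fun i _ => by
            rw [← hlam, mul_assoc, ← he.comm i k, ← mul_assoc, he.idem]
    rw [h1]
    ext a b
    rw [Matrix.mul_apply, Matrix.sum_apply]
    simp only [mul_diagonal, Matrix.smul_apply, smul_eq_mul, P, P', of_apply, hvw]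
    exact Finset.sum_congr rfl fun i _ => by ring
  rw [hσ, ← mul_assoc P', ← mul_assoc P', mul_eq_one_comm.1 hPP', one_mul, mul_assoc,
    mul_eq_one_comm.1 hPP', mul_one, ← hk]
  rfl

/-- Abelian fundamental groups: an invariant polynomial vanishing at the `ℤ[√2]`-points vanishes at
every semisimple commuting family. -/
theorem vanish_abelian (hr : r ≠ 0) {n : ℕ} {τ : Fin n → Matrix (Fin r) (Fin r) ℂ}
    (hdet : ∀ k, (τ k).det = 1) (hcomm : ∀ i j, τ i * τ j = τ j * τ i)
    (hs : ∀ U : Submodule ℂ (Fin r → ℂ), (∀ k, ∀ x ∈ U, τ k *ᵥ x ∈ U) →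
      ∃ V : Submodule ℂ (Fin r → ℂ), (∀ k, ∀ x ∈ V, τ k *ᵥ x ∈ V) ∧ IsCompl U V)
    {f : MvPolynomial (Fin n × Fin r × Fin r) ℂ}
    (hinv : ∀ (P P' : Matrix (Fin r) (Fin r) ℂ) (ρ : Fin n → Matrix (Fin r) (Fin r) ℂ), P * P' = 1 →
      MvPolynomial.eval (fun v => (P * ρ v.1 * P') v.2.1 v.2.2) f =
        MvPolynomial.eval (fun v => ρ v.1 v.2.1 v.2.2) f)
    (hf : ∀ ρ : Fin n → Matrix (Fin r) (Fin r) ℂ, (∀ k a b, ρ k a b ∈ ZSqrtTwo) →
      (∀ k, (ρ k).det = 1) → (∀ i j, ρ i * ρ j = ρ j * ρ i) →
      MvPolynomial.eval (fun v => ρ v.1 v.2.1 v.2.2) f = 0) :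
    MvPolynomial.eval (fun v => τ v.1 v.2.1 v.2.2) f = 0 := by
  obtain ⟨P, P', x, h1, h2, h⟩ := exists_diag_conj hr hcomm hs
  have hd : P'.det * P.det = 1 := by rw [← det_mul, h2, det_one]
  rw [← hinv P' P τ h2]
  simp only [h]
  refine diagTup_vanish (fun x hx hx1 => hf _ (fun k a b => ?_) (fun k => ?_) (fun i j => ?_))
    (fun k => ?_)
  · simp only [diagTup, diagonal_apply]
    split_ifs
    exacts [hx k a, zero_mem _]
  · simp [diagTup, det_diagonal, hx1]
  · simp [diagTup, diagonal_mul_diagonal, mul_comm]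
  · have := congrArg Matrix.det (h k)
    rw [det_mul, det_mul, hdet, mul_one, hd, diagTup, det_diagonal] at this
    exact this.symm

end Vale.Agent.P002
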