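import Mathlib

/-!
# P002: centralisers, and kernels of families of linear maps
-/

namespace Vale.Agent.P002

open Matrix Filter Topology

variable {r : ℕ}

/-- The centraliser of a matrix. -/
def Cen (a : Matrix (Fin r) (Fin r) ℂ) : Submodule ℂ (Matrix (Fin r) (Fin r) ℂ) :=
  LinearMap.ker (LinearMap.mulRight ℂ a - LinearMap.mulLeft ℂ a)

theorem mem_Cen {a c : Matrix (Fin r) (Fin r) ℂ} : c ∈ Cen a ↔ c * a = a * c := by
  simp [Cen, sub_eq_zero]

/-- The span of the commutators of the centraliser. -/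
def CenComm (a : Matrix (Fin r) (Fin r) ℂ) : Submodule ℂ (Matrix (Fin r) (Fin r) ℂ) :=
  Submodule.span ℂ {x | ∃ c ∈ Cen a, ∃ c' ∈ Cen a, x = c * c' - c' * c}

theorem exists_cyclic_decomp (a : Matrix (Fin r) (Fin r) ℂ) :
    ∃ (ι : Type) (_ : Fintype ι) (π : ι → Matrix (Fin r) (Fin r) ℂ) (v : ι → Fin r → ℂ),
      (∀ i, π i * a = a * π i) ∧ (∀ i, π i * π i = π i) ∧ (∀ i j, i ≠ j → π i * π j = 0) ∧
      ∑ i, π i = 1 ∧
      ∀ i x, ∃ p : Polynomial ℂ, π i *ᵥ x = Polynomial.aeval a p *ᵥ v i := by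
  classical
  let f : Module.End ℂ (Fin r → ℂ) := Matrix.toLinAlgEquiv' a
  obtain ⟨ι, _, p, _, e, ⟨E⟩⟩ := Module.equiv_directSum_of_isTorsion
    (R := Polynomial ℂ) (M := Module.AEval' f)
    (Module.AEval.isTorsion_of_finiteDimensional ℂ (Fin r → ℂ) f)
  let of := Module.AEval'.of f
  let C : ι → Module.AEval' f →ₗ[Polynomial ℂ] Module.AEval' f := fun i =>
    (E.symm.toLinearMap.comp (DirectSum.lof (Polynomial ℂ) ι _ i)).comp
      ((DirectSum.component (Polynomial ℂ) ι _ i).comp E.toLinearMap)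
  let P : ι → Module.End ℂ (Fin r → ℂ) := fun i =>
    of.symm.toLinearMap.comp (((C i).restrictScalars ℂ).comp of.toLinearMap)
  let π : ι → Matrix (Fin r) (Fin r) ℂ := fun i => Matrix.toLinAlgEquiv'.symm (P i)
  have hπ : ∀ i x, π i *ᵥ x = of.symm (C i (of x)) := fun i x => by
    have : Matrix.toLinAlgEquiv' (π i) = P i := AlgEquiv.apply_symm_apply _ _
    rw [← Matrix.toLinAlgEquiv'_apply, this]; rfl
  have ha : ∀ x, a *ᵥ x = of.symm ((Polynomial.X : Polynomial ℂ) • of x) := fun x => by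
    rw [Module.AEval'.X_smul_of, LinearEquiv.symm_apply_apply]; rfl
  have hp : ∀ (q : Polynomial ℂ) x,
      Polynomial.aeval a q *ᵥ x = of.symm (q • of x) := fun q x => by
    have h1 : Polynomial.aeval f q = Matrix.toLinAlgEquiv' (Polynomial.aeval a q) :=
      Polynomial.aeval_algHom_apply Matrix.toLinAlgEquiv'.toAlgHom a q
    rw [show q • of x = of (Polynomial.aeval f q • x) from (Module.AEval.of_aeval_smul f q x).symm,
      LinearEquiv.symm_apply_apply, h1]
    rfl
  have hC : ∀ i j y, C i (C j y) = if i = j then C i y else 0 := by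
    intro i j y
    simp only [C, LinearMap.comp_apply, LinearEquiv.coe_coe, LinearEquiv.apply_symm_apply]
    split_ifs with h
    · subst h; rw [DirectSum.component.lof_self]
    · rw [DirectSum.component.of, dif_neg (fun hh => h hh.symm), map_zero, map_zero]
  refine ⟨ι, inferInstance, π,
    fun i => of.symm (E.symm (DirectSum.lof (Polynomial ℂ) ι _ i (Submodule.Quotient.mk 1))),
    fun i => ?_, fun i => ?_, fun i j hij => ?_, ?_, fun i x => ?_⟩
  · refine Matrix.ext_of_mulVec_single fun k => ?_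
    simp only [← mulVec_mulVec, hπ, ha, LinearEquiv.apply_symm_apply, map_smul]
  · refine Matrix.ext_of_mulVec_single fun k => ?_
    simp only [← mulVec_mulVec, hπ, LinearEquiv.apply_symm_apply, hC, if_true]
  · refine Matrix.ext_of_mulVec_single fun k => ?_
    simp only [← mulVec_mulVec, hπ, LinearEquiv.apply_symm_apply, hC, if_neg hij, zero_mulVec,
      map_zero]
  · refine Matrix.ext_of_mulVec_single fun k => ?_
    rw [Matrix.sum_mulVec]
    simp only [hπ, one_mulVec, ← map_sum]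
    apply of.injective
    rw [LinearEquiv.apply_symm_apply]
    apply E.injective
    ext i
    simp only [C, map_sum, LinearMap.comp_apply, LinearEquiv.coe_coe, LinearEquiv.apply_symm_apply]
    rw [DFinsupp.finsetSum_apply, Finset.sum_eq_single i]
    · exact DirectSum.component.lof_self (Polynomial ℂ) i _
    · intro j _ hj
      exact DFinsupp.single_eq_of_ne (Ne.symm hj)
    · simp
  · obtain ⟨q, hq⟩ := Submodule.Quotient.mk_surjective _
      (DirectSum.component (Polynomial ℂ) ι _ i (E (of x)))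
    refine ⟨q, ?_⟩
    rw [hp, hπ, LinearEquiv.apply_symm_apply]
    congr 1
    simp only [C, LinearMap.comp_apply, LinearEquiv.coe_coe, ← map_smul]
    rw [← hq]
    congr 2
    rw [← Submodule.Quotient.mk_smul, smul_eq_mul, mul_one]

theorem commute_aeval {a c : Matrix (Fin r) (Fin r) ℂ} (h : c * a = a * c) (p : Polynomial ℂ) :
    c * Polynomial.aeval a p = Polynomial.aeval a p * c := by
  induction p using Polynomial.induction_on' with
  | add p q hp hq => rw [map_add, mul_add, add_mul, hp, hq]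
  | monomial n z =>
    rw [Polynomial.aeval_monomial, ← Algebra.smul_def, Matrix.mul_smul, Matrix.smul_mul,
      (show Commute c a from h).pow_right n]

/-- The abelianisation of a centraliser has dimension at most `r`. -/
theorem finrank_Cen_le (a : Matrix (Fin r) (Fin r) ℂ) :
    Module.finrank ℂ (Cen a) ≤ Module.finrank ℂ (CenComm a) + r := by
  obtain ⟨ι, _, π, v, hπa, hidem, horth, hsum, hcyc⟩ := exists_cyclic_decomp a
  let Φ : Cen a →ₗ[ℂ] (Fin r → ℂ) :=
    { toFun := fun c => ∑ i, π i *ᵥ ((c : Matrix (Fin r) (Fin r) ℂ) *ᵥ v i)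
      map_add' := fun c d => by simp [add_mulVec, mulVec_add, Finset.sum_add_distrib]
      map_smul' := fun z c => by simp [smul_mulVec, mulVec_smul, Finset.smul_sum] }
  have h1 := LinearMap.finrank_range_add_finrank_ker Φ
  have h2 : Module.finrank ℂ (LinearMap.range Φ) ≤ r := by
    simpa using Submodule.finrank_le (LinearMap.range Φ)
  suffices h3 : Module.finrank ℂ (LinearMap.ker Φ) ≤ Module.finrank ℂ (CenComm a) by omega
  rw [← Submodule.finrank_map_subtype_eq]
  refine Submodule.finrank_mono ?_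
  rintro x ⟨⟨c, hc⟩, hker, rfl⟩
  show c ∈ CenComm a
  have hi : ∀ i, π i *ᵥ (c *ᵥ v i) = 0 := by
    intro i
    have h := congrArg (fun y => π i *ᵥ y) (LinearMap.mem_ker.1 hker)
    simp only [Φ, LinearMap.coe_mk, AddHom.coe_mk, mulVec_sum, mulVec_zero, mulVec_mulVec] at h
    rw [Finset.sum_eq_single i (fun j _ hj => by rw [← mul_assoc, horth i j (Ne.symm hj), zero_mul,
      zero_mulVec]) (by simp), ← mul_assoc, hidem, ← mulVec_mulVec] at h
    exact h
  have hca := mem_Cen.1 hc
  have hzero : ∀ i, π i * c * π i = 0 := by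
    intro i
    refine Matrix.ext_of_mulVec_single fun k => ?_
    obtain ⟨p, hp⟩ := hcyc i (Pi.single k 1)
    rw [← mulVec_mulVec, hp, mulVec_mulVec, zero_mulVec,
      commute_aeval (a := a) (c := π i * c) (by rw [mul_assoc, hca, ← mul_assoc, hπa, mul_assoc]) p,
      ← mulVec_mulVec, ← mulVec_mulVec, hi, mulVec_zero]
  have hc' : c = ∑ i, ∑ j, π i * c * π j := by
    simp only [← Finset.mul_sum, hsum, mul_one, ← Finset.sum_mul, one_mul]
  rw [hc']
  refine Submodule.sum_mem _ fun i _ => Submodule.sum_mem _ fun j _ => ?_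
  by_cases hij : i = j
  · subst hij; rw [hzero]; exact zero_mem _
  · refine Submodule.subset_span ⟨π i, mem_Cen.2 (hπa i), π i * c * π j, mem_Cen.2 ?_, ?_⟩
    · rw [mul_assoc, hπa, ← mul_assoc, mul_assoc (π i) c a, hca, ← mul_assoc, hπa]
      simp only [mul_assoc]
    · rw [← mul_assoc, ← mul_assoc, hidem, mul_assoc (π i * c) (π j) (π i), horth j i (Ne.symm hij),
        mul_zero, sub_zero]

/-- A matrix that is not scalar has a centraliser of codimension at least `r`. -/
theorem finrank_Cen_add_le {c : Matrix (Fin r) (Fin r) ℂ} (hc : ∀ z : ℂ, c ≠ z • 1) :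
    Module.finrank ℂ (Cen c) + r ≤ r * r := by
  obtain ⟨v, φ, hφ1, hφ0⟩ : ∃ (v : Fin r → ℂ) (φ : (Fin r → ℂ) →ₗ[ℂ] ℂ),
      φ (c *ᵥ v) = 1 ∧ φ v = 0 := by
    by_cases hoff : ∃ i j, i ≠ j ∧ c i j ≠ 0
    · obtain ⟨i, j, hij, h⟩ := hoff
      refine ⟨Pi.single j 1, (c i j)⁻¹ • (LinearMap.proj i : (Fin r → ℂ) →ₗ[ℂ] ℂ), ?_, ?_⟩
      · simp [mulVec_single_one, h]
      · simp [Pi.single_eq_of_ne hij]
    · push Not at hoff
      obtain ⟨i, j, hij⟩ : ∃ i j, c i i ≠ c j j := by
        by_contra h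
        push Not at h
        rcases Nat.eq_zero_or_pos r with hr | hr
        · subst hr; exact hc 0 (Subsingleton.elim _ _)
        · refine hc (c ⟨0, hr⟩ ⟨0, hr⟩) ?_
          ext a b
          by_cases hab : a = b
          · subst hab; simp [h a ⟨0, hr⟩]
          · simp [hoff a b hab, hab]
      have hne : i ≠ j := fun e => hij (by rw [e])
      refine ⟨Pi.single i 1 + Pi.single j 1,
        (c i i - c j j)⁻¹ • ((LinearMap.proj i : (Fin r → ℂ) →ₗ[ℂ] ℂ) - LinearMap.proj j), ?_, ?_⟩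
      · simp only [mulVec_add, mulVec_single_one, LinearMap.smul_apply, LinearMap.sub_apply,
          LinearMap.proj_apply, Pi.add_apply, Matrix.col_apply, hoff i j hne,
          hoff j i (Ne.symm hne), smul_eq_mul, add_zero, zero_add]
        exact inv_mul_cancel₀ (sub_ne_zero.2 hij)
      · simp [Pi.single_eq_of_ne hne, Pi.single_eq_of_ne (Ne.symm hne)]
  let Ψ : Cen c →ₗ[ℂ] (LinearMap.ker φ →ₗ[ℂ] (Fin r → ℂ)) :=
    { toFun := fun x => (Matrix.mulVecLin (x : Matrix (Fin r) (Fin r) ℂ)).comp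
        (LinearMap.ker φ).subtype
      map_add' := fun x y => by ext; simp [add_mulVec]
      map_smul' := fun z x => by ext; simp [smul_mulVec] }
  have hinj : Function.Injective Ψ := by
    rw [← LinearMap.ker_eq_bot, LinearMap.ker_eq_bot']
    intro ⟨x, hx⟩ hx0
    have hk : ∀ u, φ u = 0 → x *ᵥ u = 0 := fun u hu =>
      LinearMap.congr_fun hx0 (⟨u, hu⟩ : LinearMap.ker φ)
    apply Subtype.ext
    refine Matrix.ext_of_mulVec_single fun k => ?_
    show x *ᵥ _ = (0 : Matrix (Fin r) (Fin r) ℂ) *ᵥ _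
    rw [zero_mulVec]
    set u := (Pi.single k 1 : Fin r → ℂ)
    have h1 := hk (u - φ u • (c *ᵥ v)) (by simp [hφ1])
    rw [mulVec_sub, mulVec_smul, mulVec_mulVec, mem_Cen.1 hx, ← mulVec_mulVec, hk v hφ0,
      mulVec_zero, smul_zero, sub_zero] at h1
    exact h1
  have h1 := LinearMap.finrank_le_finrank_of_injective hinj
  have h2 : Module.finrank ℂ (LinearMap.ker φ) + 1 = r := by
    have := LinearMap.finrank_range_add_finrank_ker φ
    rw [LinearMap.range_eq_top.2 fun z => ⟨z • (c *ᵥ v), by simp [hφ1]⟩, finrank_top,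
      Module.finrank_self, Module.finrank_fin_fun] at this
    omega
  rw [Module.finrank_linearMap, Module.finrank_fin_fun] at h1
  calc Module.finrank ℂ (Cen c) + r ≤ Module.finrank ℂ (LinearMap.ker φ) * r + r := by omega
    _ = (Module.finrank ℂ (LinearMap.ker φ) + 1) * r := by ring
    _ = r * r := by rw [h2]

section family

variable {E F G : Type*} [NormedAddCommGroup E] [NormedSpace ℂ E] [FiniteDimensional ℂ E]
  [NormedAddCommGroup F] [NormedSpace ℂ F] [FiniteDimensional ℂ F]
  [NormedAddCommGroup G] [NormedSpace ℂ G]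

/-- Semicontinuity of the kernel dimension, and local kernel sections where it is constant. -/
theorem ker_family {L : G → E →L[ℂ] F} (t₀ : G) (hL : ContDiffAt ℂ 1 L t₀) :
    (∀ᶠ t in 𝓝 t₀, Module.finrank ℂ (LinearMap.ker (L t).toLinearMap) ≤
      Module.finrank ℂ (LinearMap.ker (L t₀).toLinearMap)) ∧
    ∀ c₀, L t₀ c₀ = 0 → ∃ c : G → E, ContDiffAt ℂ 1 c t₀ ∧ c t₀ = c₀ ∧ ∀ᶠ t in 𝓝 t₀,
      Module.finrank ℂ (LinearMap.ker (L t).toLinearMap) =
        Module.finrank ℂ (LinearMap.ker (L t₀).toLinearMap) → L t (c t) = 0 := by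
  have : CompleteSpace E := FiniteDimensional.complete ℂ E
  obtain ⟨Q, hQ⟩ := Submodule.exists_isCompl (LinearMap.ker (L t₀).toLinearMap)
  have hinj : LinearMap.ker ((L t₀).toLinearMap.comp Q.subtype) = ⊥ := by
    rw [LinearMap.ker_eq_bot']
    intro q hq
    have : (q : E) ∈ LinearMap.ker (L t₀).toLinearMap ⊓ Q := ⟨hq, q.2⟩
    rw [hQ.inf_eq_bot] at this
    exact Subtype.ext this
  obtain ⟨P, hP⟩ := ((L t₀).toLinearMap.comp Q.subtype).exists_leftInverse_of_injective hinj
  let PC : F →L[ℂ] Q := LinearMap.toContinuousLinearMap P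
  let T : G → (Q →L[ℂ] Q) := fun t => PC.comp ((L t).comp Q.subtypeL)
  have hT : ContDiffAt ℂ 1 T t₀ := contDiffAt_const.clm_comp (hL.clm_comp contDiffAt_const)
  have hT0 : T t₀ = 1 := by
    ext q
    have := LinearMap.congr_fun hP q
    exact congrArg Subtype.val this
  have : CompleteSpace Q := FiniteDimensional.complete ℂ Q
  have hunit : ∀ᶠ t in 𝓝 t₀, IsUnit (T t) := by
    have : ∀ᶠ A in 𝓝 (1 : Q →L[ℂ] Q), IsUnit A :=
      eventually_of_mem ((Units.isOpen (R := Q →L[ℂ] Q)).mem_nhds isUnit_one) fun _ h => h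
    have h2 := hT.continuousAt.tendsto
    rw [hT0] at h2
    exact h2.eventually this
  have hsmall : ∀ t, IsUnit (T t) →
      Module.finrank ℂ (LinearMap.ker ((PC.comp (L t)).toLinearMap)) ≤
        Module.finrank ℂ (LinearMap.ker (L t₀).toLinearMap) := by
    intro t ht
    have hdis : LinearMap.ker ((PC.comp (L t)).toLinearMap) ⊓ Q = ⊥ := by
      rw [eq_bot_iff]
      intro e he
      obtain ⟨u, hu⟩ := ht
      have h0 : T t ⟨e, he.2⟩ = 0 := he.1
      rw [Submodule.mem_bot]
      have h1 : (↑u⁻¹ * T t : Q →L[ℂ] Q) ⟨e, he.2⟩ = 0 := by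
        show (↑u⁻¹ : Q →L[ℂ] Q) (T t ⟨e, he.2⟩) = 0
        rw [h0, map_zero]
      rw [← hu, Units.inv_mul] at h1
      exact congrArg Subtype.val h1
    have h1 := Submodule.finrank_sup_add_finrank_inf_eq
      (LinearMap.ker ((PC.comp (L t)).toLinearMap)) Q
    rw [hdis, finrank_bot] at h1
    have h2 := Submodule.finrank_le (LinearMap.ker ((PC.comp (L t)).toLinearMap) ⊔ Q)
    have h3 := Submodule.finrank_add_eq_of_isCompl hQ
    omega
  have hle : ∀ t, LinearMap.ker (L t).toLinearMap ≤ LinearMap.ker ((PC.comp (L t)).toLinearMap) := by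
    intro t e he
    show PC (L t e) = 0
    rw [show L t e = 0 from he, map_zero]
  refine ⟨hunit.mono fun t ht => (Submodule.finrank_mono (hle t)).trans (hsmall t ht),
    fun c₀ hc₀ => ?_⟩
  let c : G → E := fun t => c₀ - Q.subtypeL (Ring.inverse (T t) (PC (L t c₀)))
  refine ⟨c, ?_, ?_, ?_⟩
  · have h0 : ContDiffAt ℂ 1 (Ring.inverse : (Q →L[ℂ] Q) → (Q →L[ℂ] Q)) (T t₀) := by
      rw [hT0]
      exact contDiffAt_ringInverse ℂ (R := Q →L[ℂ] Q) 1
    have h1 : ContDiffAt ℂ 1 (fun t => Ring.inverse (T t)) t₀ := h0.comp t₀ hT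
    exact contDiffAt_const.sub (Q.subtypeL.contDiff.contDiffAt.comp t₀
      (h1.clm_apply (PC.contDiff.contDiffAt.comp t₀ (hL.clm_apply contDiffAt_const))))
  · simp [c, hc₀]
  · filter_upwards [hunit] with t ht hdim
    have heq : LinearMap.ker (L t).toLinearMap = LinearMap.ker ((PC.comp (L t)).toLinearMap) :=
      Submodule.eq_of_le_of_finrank_le (hle t) ((hsmall t ht).trans hdim.ge)
    have hc : c t ∈ LinearMap.ker ((PC.comp (L t)).toLinearMap) := by
      show PC (L t (c₀ - Q.subtypeL (Ring.inverse (T t) (PC (L t c₀))))) = 0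
      rw [map_sub, map_sub]
      show PC (L t c₀) - (T t * Ring.inverse (T t)) (PC (L t c₀)) = 0
      rw [Ring.mul_inverse_cancel _ ht, ContinuousLinearMap.one_apply, sub_self]
    rw [← heq] at hc
    exact hc

end family

end Vale.Agent.P002
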