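import Vale.Agent.P002.Main
import Vale.Agent.P002.Rank

/-!
# P002: the representation variety near a representation with scalar commutant
-/

namespace Vale.Agent.P002

open Matrix Filter Topology
open scoped Matrix.Norms.Operator

variable {r g : ℕ}

/-- Only scalars commute with all the members of the tuple. -/
def IsSchur (σ : Tup g r ℂ) : Prop :=
  ∀ c, (∀ k, c * σ k = σ k * c) → ∃ z : ℂ, c = z • (1 : Matrix (Fin r) (Fin r) ℂ)

theorem commute_adj {x u : Matrix (Fin r) (Fin r) ℂ} (hx : x.det = 1) (h : Commute u x) :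
    Commute u (adjugate x) := by
  obtain ⟨e1, e2⟩ := mul_adj_cancel hx
  show u * adjugate x = adjugate x * u
  calc u * adjugate x = adjugate x * x * (u * adjugate x) := by rw [e2, one_mul]
    _ = adjugate x * (x * u) * adjugate x := by simp only [mul_assoc]
    _ = adjugate x * u := by rw [← h.eq, mul_assoc, mul_assoc, e1, mul_one]

theorem det_cm {A B : Matrix (Fin r) (Fin r) ℂ} (hA : A.det = 1) (hB : B.det = 1) :
    (cm adjugate A B).det = 1 := by
  simp [cm, det_adjugate, hA, hB]

theorem Dif.cm_gen {a b : ℂ → Matrix (Fin r) (Fin r) ℂ} {A B Ya Yb : Matrix (Fin r) (Fin r) ℂ}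
    (ha : Dif a A Ya) (hb : Dif b B Yb) :
    Dif (fun s => Vale.Agent.P002.cm adjugate (a s) (b s)) (Vale.Agent.P002.cm adjugate A B)
      (Ya + A * Yb * adjugate A - A * B * adjugate A * Ya * (A * adjugate B * adjugate A) -
        Vale.Agent.P002.cm adjugate A B * Yb * adjugate (Vale.Agent.P002.cm adjugate A B)) := by
  have h := ((ha.mul hb).mul ha.adj).mul hb.adj
  obtain ⟨a1, a2⟩ := mul_adj_cancel ha.det
  obtain ⟨b1, b2⟩ := mul_adj_cancel hb.det
  have aaA : adjugate (adjugate A) = A := by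
    have := mul_adj_cancel (show (adjugate A).det = 1 by simp [det_adjugate, ha.det])
    calc adjugate (adjugate A) = A * adjugate A * adjugate (adjugate A) := by rw [a1, one_mul]
      _ = A := by rw [mul_assoc, this.1, mul_one]
  have aaB : adjugate (adjugate B) = B := by
    have := mul_adj_cancel (show (adjugate B).det = 1 by simp [det_adjugate, hb.det])
    calc adjugate (adjugate B) = B * adjugate B * adjugate (adjugate B) := by rw [b1, one_mul]
      _ = B := by rw [mul_assoc, this.1, mul_one]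
  simp only [Vale.Agent.P002.cm]
  convert h using 1
  simp only [adjugate_mul_distrib, aaA, aaB, mul_neg, neg_mul, sub_eq_add_neg, mul_assoc]

theorem Dif.exists_prod_map {ι : Type*} {F : ℂ → ι → Matrix (Fin r) (Fin r) ℂ}
    {x : ι → Matrix (Fin r) (Fin r) ℂ} : ∀ l : List ι,
    (∀ i ∈ l, ∃ Y, Dif (fun s => F s i) (x i) Y) →
      ∃ Y, Dif (fun s => (l.map (F s)).prod) (l.map x).prod Y
  | [], _ => ⟨0, by simpa using Dif.const (det_one (R := ℂ) (n := Fin r))⟩
  | i :: l, h => by
    obtain ⟨Y, hY⟩ := h i (by simp)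
    obtain ⟨Z, hZ⟩ := Dif.exists_prod_map l fun j hj => h j (by simp [hj])
    exact ⟨_, by simpa using hY.mul hZ⟩

/-- The product of the commutators before position `n`. -/
noncomputable def pre (n : ℕ) (σ : Tup g r ℂ) : Matrix (Fin r) (Fin r) ℂ :=
  ((cmList adjugate σ).take n).prod

/-- The product of the commutators from position `n` on. -/
noncomputable def post (n : ℕ) (σ : Tup g r ℂ) : Matrix (Fin r) (Fin r) ℂ :=
  ((cmList adjugate σ).drop n).prod

theorem pre_zero (σ : Tup g r ℂ) : pre 0 σ = 1 := rfl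

theorem pre_succ (σ : Tup g r ℂ) (i : Fin g) :
    pre (i.1 + 1) σ = pre i σ * cm adjugate (σ (i, false)) (σ (i, true)) := by
  have hi : i.1 < (cmList adjugate σ).length := by simp [cmList]
  unfold pre
  rw [List.prod_take_succ _ _ hi]
  simp [cmList]

theorem rel_split (σ : Tup g r ℂ) (i : Fin g) :
    rel adjugate σ = pre i σ * cm adjugate (σ (i, false)) (σ (i, true)) * post (i.1 + 1) σ := by
  rw [← pre_succ]
  exact (List.prod_take_mul_prod_drop _ _).symm

theorem pre_congr {σ τ : Tup g r ℂ} (m : ℕ)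
    (h : ∀ k : Fin g, k.1 < m → ∀ c, σ (k, c) = τ (k, c)) : pre m σ = pre m τ := by
  unfold pre
  congr 1
  apply List.ext_getElem
  · simp [cmList]
  · intro n h1 h2
    simp only [List.length_take, cmList, List.length_ofFn] at h1
    simp only [List.getElem_take, cmList, List.getElem_ofFn]
    rw [h ⟨n, by omega⟩ (by simp; omega) false, h ⟨n, by omega⟩ (by simp; omega) true]

theorem post_congr {σ τ : Tup g r ℂ} (m : ℕ)
    (h : ∀ k : Fin g, m ≤ k.1 → ∀ c, σ (k, c) = τ (k, c)) : post m σ = post m τ := by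
  unfold post
  congr 1
  apply List.ext_getElem
  · simp [cmList]
  · intro n h1 h2
    simp only [List.length_drop, cmList, List.length_ofFn] at h1
    simp only [List.getElem_drop, cmList, List.getElem_ofFn]
    rw [h ⟨m + n, by omega⟩ (by simp) false, h ⟨m + n, by omega⟩ (by simp) true]

theorem det_pre {σ : Tup g r ℂ} (h : ∀ k, (σ k).det = 1) (n : ℕ) : (pre n σ).det = 1 := by
  unfold pre
  rw [show ((cmList adjugate σ).take n).prod.det =
      ((((cmList adjugate σ).take n)).map Matrix.det).prod from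
    map_list_prod Matrix.detMonoidHom _]
  refine List.prod_eq_one fun x hx => ?_
  obtain ⟨M, hM, rfl⟩ := List.mem_map.1 hx
  obtain ⟨i, rfl⟩ := List.mem_ofFn.1 (List.mem_of_mem_take hM)
  exact det_cm (h _) (h _)

theorem det_rel {σ : Tup g r ℂ} (h : ∀ k, (σ k).det = 1) : (rel adjugate σ).det = 1 := by
  have : rel adjugate σ = pre g σ := by
    unfold pre rel
    rw [List.take_of_length_le (by simp [cmList])]
  rw [this]; exact det_pre h g

/-- The change of the commutator of a handle under a variation of that handle. -/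
noncomputable def cmVar (A B Ya Yb : Matrix (Fin r) (Fin r) ℂ) : Matrix (Fin r) (Fin r) ℂ :=
  Ya + A * Yb * adjugate A - A * B * adjugate A * Ya * (A * adjugate B * adjugate A) -
    cm adjugate A B * Yb * adjugate (cm adjugate A B)

/-- The variation of a single handle. -/
noncomputable def single1 (i : Fin g) (u v : Matrix (Fin r) (Fin r) ℂ) : Tup g r ℂ :=
  Pi.single (i, false) u + Pi.single (i, true) v

theorem single1_false (i : Fin g) (u v : Matrix (Fin r) (Fin r) ℂ) :
    single1 i u v (i, false) = u := by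
  simp [single1]

theorem single1_true (i : Fin g) (u v : Matrix (Fin r) (Fin r) ℂ) :
    single1 i u v (i, true) = v := by
  simp [single1]

theorem single1_ne {i : Fin g} (u v : Matrix (Fin r) (Fin r) ℂ) {k : Fin g × Bool} (h : k.1 ≠ i) :
    single1 i u v k = 0 := by
  have h1 : k ≠ (i, false) := fun e => h (by rw [e])
  have h2 : k ≠ (i, true) := fun e => h (by rw [e])
  simp [single1, h1, h2]

theorem eq_single1 {i : Fin g} {v : Tup g r ℂ} (h : ∀ k, k.1 ≠ i → v k = 0) :
    v = single1 i (v (i, false)) (v (i, true)) := by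
  funext k
  by_cases hk : k.1 = i
  · obtain ⟨k1, c⟩ := k
    simp only at hk
    subst hk
    cases c
    · exact (single1_false _ _ _).symm
    · exact (single1_true _ _ _).symm
  · rw [h k hk, single1_ne _ _ hk]

theorem hasDerivAt_line {E : Type*} [NormedAddCommGroup E] [NormedSpace ℂ E] (x v : E) :
    HasDerivAt (fun s : ℂ => x + s • v) v 0 :=
  (((hasDerivAt_id (0 : ℂ)).smul_const v).const_add x).congr_deriv (one_smul _ _)

/-- The derivative of the determinant equations. -/
theorem fderiv_Requ_fst {σ : Tup g r ℂ} (hσ : IsRep σ) (v : Tup g r ℂ) :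
    (fderiv ℂ Requ σ v).1 = fun k => trace (adjugate (σ k) * v k) := by
  have h0 : σ = (fun s : ℂ => σ + s • v) 0 := by
    show σ = σ + (0 : ℂ) • v
    rw [zero_smul, add_zero]
  have hR := ((contDiff_Requ (r := r) (g := g)).differentiable one_ne_zero
    σ).hasFDerivAt.comp_hasDerivAt_of_eq (0 : ℂ) (hasDerivAt_line σ v) h0
  funext k
  exact (hasDerivAt_pi.1 hR.fst k).unique
    (hasDerivAt_det (γ := fun s : ℂ => σ k + s • v k) (by simp) (hσ.1 k) (hasDerivAt_line _ _))

theorem fderiv_Requ_snd_trace {σ : Tup g r ℂ} (hσ : IsRep σ) {v : Tup g r ℂ}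
    (hv : ∀ k, trace (adjugate (σ k) * v k) = 0) : trace (fderiv ℂ Requ σ v).2 = 0 := by
  have h0 : σ = (fun s : ℂ => σ + s • v) 0 := by
    show σ = σ + (0 : ℂ) • v
    rw [zero_smul, add_zero]
  have hR := ((contDiff_Requ (r := r) (g := g)).differentiable one_ne_zero
    σ).hasFDerivAt.comp_hasDerivAt_of_eq (0 : ℂ) (hasDerivAt_line σ v) h0
  have hd : ∀ k, Dif (fun s : ℂ => σ k + s • v k) (σ k) (v k * adjugate (σ k)) := fun k =>
    ⟨by simp, hσ.1 k, by rw [trace_mul_comm]; exact hv k,
      (hasDerivAt_line _ _).congr_deriv (by rw [mul_assoc, (mul_adj_cancel (hσ.1 k)).2, mul_one])⟩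
  obtain ⟨Y, hY⟩ := Dif.exists_prod_map
    (F := fun s i => cm adjugate (σ (i, false) + s • v (i, false)) (σ (i, true) + s • v (i, true)))
    (x := fun i => cm adjugate (σ (i, false)) (σ (i, true))) (List.finRange g)
    (fun i _ => ⟨_, (hd (i, false)).cm_gen (hd (i, true))⟩)
  have e : ((List.finRange g).map fun i => cm adjugate (σ (i, false)) (σ (i, true))).prod = 1 := by
    rw [← List.ofFn_eq_map]; exact hσ.2
  rw [e] at hY
  have e2 : (fun s : ℂ => ((List.finRange g).map fun i =>
      cm adjugate (σ (i, false) + s • v (i, false)) (σ (i, true) + s • v (i, true))).prod) =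
      fun s : ℂ => rel adjugate (σ + s • v) := by
    funext s; rw [← List.ofFn_eq_map]; rfl
  rw [e2] at hY
  have hR2 : HasDerivAt (fun s : ℂ => rel adjugate (σ + s • v)) (fderiv ℂ Requ σ v).2 0 :=
    (ContinuousLinearMap.snd ℂ (Fin g × Bool → ℂ)
      (Matrix (Fin r) (Fin r) ℂ)).hasFDerivAt.comp_hasDerivAt (0 : ℂ) hR
  rw [show (fderiv ℂ Requ σ v).2 = Y * 1 from hR2.unique hY.der, mul_one]
  exact hY.tr

theorem fderiv_Requ_single {σ : Tup g r ℂ} (hσ : IsRep σ) (i : Fin g)
    {u v : Matrix (Fin r) (Fin r) ℂ} (hu : trace (adjugate (σ (i, false)) * u) = 0)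
    (hv : trace (adjugate (σ (i, true)) * v) = 0) :
    (fderiv ℂ Requ σ (single1 i u v)).2 = pre i σ *
      cmVar (σ (i, false)) (σ (i, true)) (u * adjugate (σ (i, false)))
        (v * adjugate (σ (i, true))) * adjugate (pre i σ) := by
  set w := single1 i u v with hw
  have h0 : σ = (fun s : ℂ => σ + s • w) 0 := by
    show σ = σ + (0 : ℂ) • w
    rw [zero_smul, add_zero]
  have hR := ((contDiff_Requ (r := r) (g := g)).differentiable one_ne_zero
    σ).hasFDerivAt.comp_hasDerivAt_of_eq (0 : ℂ) (hasDerivAt_line σ w) h0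
  have ha : Dif (fun s : ℂ => σ (i, false) + s • u) (σ (i, false))
      (u * adjugate (σ (i, false))) :=
    ⟨by simp, hσ.1 _, by rw [trace_mul_comm]; exact hu,
      (hasDerivAt_line _ _).congr_deriv (by rw [mul_assoc, (mul_adj_cancel (hσ.1 _)).2, mul_one])⟩
  have hb : Dif (fun s : ℂ => σ (i, true) + s • v) (σ (i, true))
      (v * adjugate (σ (i, true))) :=
    ⟨by simp, hσ.1 _, by rw [trace_mul_comm]; exact hv,
      (hasDerivAt_line _ _).congr_deriv (by rw [mul_assoc, (mul_adj_cancel (hσ.1 _)).2, mul_one])⟩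
  have hP := det_pre hσ.1 i
  have hQ : (post (i.1 + 1) σ).det = 1 := by
    have h1 := congrArg Matrix.det (rel_split σ i)
    rw [hσ.2, det_one, det_mul, det_mul, hP, det_cm (hσ.1 _) (hσ.1 _), one_mul, one_mul] at h1
    exact h1.symm
  have hD := ((Dif.const hP).mul (ha.cm_gen hb)).mul (Dif.const hQ)
  rw [← rel_split, hσ.2] at hD
  have e : (fun s : ℂ => pre i σ * cm adjugate (σ (i, false) + s • u) (σ (i, true) + s • v) *
      post (i.1 + 1) σ) = fun s : ℂ => rel adjugate (σ + s • w) := by
    funext s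
    rw [rel_split (σ + s • w) i]
    have hne : ∀ k : Fin g, k ≠ i → ∀ c, (σ + s • w) (k, c) = σ (k, c) := fun k hk c => by
      rw [Pi.add_apply, Pi.smul_apply, hw, single1_ne u v (k := (k, c)) hk, smul_zero, add_zero]
    rw [pre_congr (τ := σ) i.1 (fun k hk => hne k (fun e => by subst e; omega)),
      post_congr (τ := σ) (i.1 + 1) (fun k hk => hne k (fun e => by subst e; omega)),
      Pi.add_apply, Pi.add_apply, Pi.smul_apply, Pi.smul_apply, hw, single1_false, single1_true]
  rw [e] at hD
  have hR2 : HasDerivAt (fun s : ℂ => rel adjugate (σ + s • w)) (fderiv ℂ Requ σ w).2 0 :=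
    (ContinuousLinearMap.snd ℂ (Fin g × Bool → ℂ)
      (Matrix (Fin r) (Fin r) ℂ)).hasFDerivAt.comp_hasDerivAt (0 : ℂ) hR
  rw [show (fderiv ℂ Requ σ w).2 = _ from hR2.unique hD.der]
  simp [cmVar]

theorem eq_zero_of_trace_mul {u : Matrix (Fin r) (Fin r) ℂ}
    (h : ∀ Y, trace Y = 0 → trace (u * Y) = 0) : ∃ z : ℂ, u = z • 1 := by
  rcases Nat.eq_zero_or_pos r with hr | hr
  · subst hr; exact ⟨0, Subsingleton.elim _ _⟩
  · refine ⟨trace u / (r : ℂ), ?_⟩
    have hr0 : r ≠ 0 := hr.ne'
    have key : ∀ Y, trace (tl u * Y) = 0 := by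
      intro Y
      have h1 := h (tl Y) (trace_tl hr0 Y)
      simp only [tl, mul_sub, sub_mul, trace_sub, Matrix.mul_smul, Matrix.smul_mul, mul_one,
        one_mul, trace_smul, smul_eq_mul] at h1 ⊢
      linear_combination h1
    have h0 : tl u = 0 := by
      ext a b
      simpa [trace_mul_single] using key (Matrix.single b a 1)
    exact sub_eq_zero.1 h0

/-- A traceless functional killing all variations of the first handles commutes with them. -/
theorem comm_of_ann {σ : Tup g r ℂ} (hσ : ∀ k, (σ k).det = 1) {u : Matrix (Fin r) (Fin r) ℂ} (n : ℕ)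
    (h : ∀ i : Fin g, i.1 < n → ∀ Ya Yb, trace Ya = 0 → trace Yb = 0 →
      trace (u * (pre i σ * cmVar (σ (i, false)) (σ (i, true)) Ya Yb * adjugate (pre i σ))) = 0) :
    ∀ i : Fin g, i.1 < n → ∀ c, Commute u (σ (i, c)) := by
  rcases Nat.eq_zero_or_pos r with hr | hr
  · subst hr; intro i _ c; exact Subsingleton.elim _ _
  have hr0 : (r : ℂ) ≠ 0 := Nat.cast_ne_zero.2 hr.ne'
  have step : ∀ i : Fin g, i.1 < n → Commute u (pre i σ) →
      Commute u (σ (i, false)) ∧ Commute u (σ (i, true)) := by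
    intro i hi hP
    set A := σ (i, false) with hAdef
    set B := σ (i, true) with hBdef
    set P := pre i σ with hPdef
    obtain ⟨a1, a2⟩ := mul_adj_cancel (hσ (i, false))
    obtain ⟨b1, b2⟩ := mul_adj_cancel (hσ (i, true))
    obtain ⟨p1, p2⟩ := mul_adj_cancel (det_pre hσ i.1)
    rw [← hAdef] at a1 a2
    rw [← hBdef] at b1 b2
    rw [← hPdef] at p1 p2
    have hu : ∀ X, trace (u * (P * X * adjugate P)) = trace (u * X) := fun X => by
      rw [← mul_assoc, ← mul_assoc, trace_mul_comm, ← mul_assoc, ← mul_assoc,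
        ← (commute_adj (det_pre hσ i.1) hP).eq, mul_assoc u, p2, mul_one]
    have h1 : u - A * adjugate B * adjugate A * u * (A * B * adjugate A) = 0 := by
      obtain ⟨z, hz⟩ := eq_zero_of_trace_mul
        (u := u - A * adjugate B * adjugate A * u * (A * B * adjugate A)) fun Y hY => by
          have := h i hi Y 0 hY (trace_zero _ _)
          rw [hu, cmVar, ← hAdef, ← hBdef] at this
          simp only [mul_zero, zero_mul, add_zero, sub_zero, mul_sub, trace_sub] at this
          rw [sub_mul, trace_sub]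
          rw [mul_assoc (_ * u), trace_mul_comm (A * adjugate B * adjugate A * u)] at *
          rw [← mul_assoc u (A * B * adjugate A * Y), trace_mul_comm _ (A * adjugate B * adjugate A)]
            at this
          rw [trace_mul_comm (A * B * adjugate A * Y)]
          simpa only [mul_assoc] using this
      have ht : trace (A * adjugate B * adjugate A * u * (A * B * adjugate A)) = trace u := by
        rw [trace_mul_comm, ← mul_assoc]
        have : A * B * adjugate A * (A * adjugate B * adjugate A) = 1 := by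
          rw [show A * B * adjugate A * (A * adjugate B * adjugate A) =
            A * (B * ((adjugate A * A) * adjugate B)) * adjugate A by simp only [mul_assoc],
            a2, one_mul, b1, mul_one, a1]
        rw [this, one_mul]
      have := congrArg trace hz
      rw [trace_sub, ht, sub_self, trace_smul, trace_one, Fintype.card_fin, smul_eq_mul] at this
      rw [hz, (mul_eq_zero.1 this.symm).resolve_right hr0, zero_smul]
    have h2 : adjugate A * u * A -
        adjugate (cm adjugate A B) * u * cm adjugate A B = 0 := by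
      obtain ⟨z, hz⟩ := eq_zero_of_trace_mul
        (u := adjugate A * u * A - adjugate (cm adjugate A B) * u * cm adjugate A B) fun Y hY => by
          have := h i hi 0 Y (trace_zero _ _) hY
          rw [hu, cmVar, ← hAdef, ← hBdef] at this
          simp only [mul_zero, zero_mul, sub_zero, zero_add, mul_sub, trace_sub] at this
          rw [sub_mul, trace_sub]
          rw [← mul_assoc u (A * Y), trace_mul_comm _ (adjugate A),
            ← mul_assoc u (cm adjugate A B * Y), trace_mul_comm _ (adjugate (cm adjugate A B))]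
            at this
          simpa only [mul_assoc] using this
      have hw := det_cm (hσ (i, false)) (hσ (i, true))
      rw [← hAdef, ← hBdef] at hw
      have := congrArg trace hz
      rw [trace_sub, (trace_conj (hσ (i, false)) u).2, (trace_conj hw u).2, sub_self, trace_smul,
        trace_one, Fintype.card_fin, smul_eq_mul] at this
      rw [hz, (mul_eq_zero.1 this.symm).resolve_right hr0, zero_smul]
    have hdA : A.det = 1 := hσ _
    have hdB : B.det = 1 := hσ _
    have c1 : Commute u (A * B * adjugate A) := by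
      show u * (A * B * adjugate A) = A * B * adjugate A * u
      have e : A * B * adjugate A * (A * adjugate B * adjugate A) = 1 := by
        rw [show A * B * adjugate A * (A * adjugate B * adjugate A) =
          A * (B * ((adjugate A * A) * adjugate B)) * adjugate A by simp only [mul_assoc],
          a2, one_mul, b1, mul_one, a1]
      conv_rhs => rw [sub_eq_zero.1 h1]
      rw [← mul_assoc (A * B * adjugate A), ← mul_assoc (A * B * adjugate A), e, one_mul]
    have c2 : Commute u (cm adjugate A B * adjugate A) := by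
      show u * (cm adjugate A B * adjugate A) = cm adjugate A B * adjugate A * u
      have e := mul_adj_cancel (det_cm hdA hdB)
      have h2' := sub_eq_zero.1 h2
      calc u * (cm adjugate A B * adjugate A)
          = cm adjugate A B * (adjugate (cm adjugate A B) * u * cm adjugate A B) * adjugate A := by
            simp only [mul_assoc]
            rw [← mul_assoc (cm adjugate A B) (adjugate (cm adjugate A B)), e.1, one_mul]
        _ = cm adjugate A B * adjugate A * u := by
            rw [← h2']; simp only [mul_assoc]; rw [a1, mul_one]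
    have c3 : Commute u (adjugate B * adjugate A) := by
      have e : adjugate (A * B * adjugate A) * (cm adjugate A B * adjugate A) =
          adjugate B * adjugate A := by
        have e := mul_adj_cancel (show (A * B * adjugate A).det = 1 by
          simp [hdA, hdB, det_adjugate])
        rw [show cm adjugate A B = A * B * adjugate A * adjugate B from rfl,
          mul_assoc (A * B * adjugate A), ← mul_assoc, e.2, one_mul]
      rw [← e]
      exact (commute_adj (by simp [hdA, hdB, det_adjugate]) c1).mul_right c2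
    have c4 : Commute u (adjugate A) := by
      have e : adjugate B * adjugate A * (A * B * adjugate A) = adjugate A := by
        rw [show adjugate B * adjugate A * (A * B * adjugate A) =
          adjugate B * ((adjugate A * A) * B) * adjugate A by simp only [mul_assoc], a2, one_mul,
          b2, one_mul]
      rw [← e]
      exact c3.mul_right c1
    have c5 : Commute u A := by
      show u * A = A * u
      calc u * A = A * (adjugate A * u) * A := by rw [← mul_assoc, a1, one_mul]
        _ = A * u := by rw [← c4.eq, mul_assoc, mul_assoc, a2, mul_one]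
    refine ⟨c5, ?_⟩
    have e : adjugate A * (A * B * adjugate A) * A = B := by
      simp only [mul_assoc, a2, mul_one]
      rw [← mul_assoc, a2, one_mul]
    rw [← e]
    exact (c4.mul_right c1).mul_right c5
  have hpre : ∀ m, m ≤ n → m ≤ g → Commute u (pre m σ) := by
    intro m
    induction m with
    | zero => intro _ _; rw [pre_zero]; exact Commute.one_right u
    | succ m ih =>
      intro h1 h2
      have hm := ih (by omega) (by omega)
      obtain ⟨ha, hb⟩ := step ⟨m, by omega⟩ (by simp; omega) hm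
      rw [show m + 1 = ((⟨m, by omega⟩ : Fin g) : ℕ) + 1 from rfl, pre_succ]
      exact hm.mul_right (((ha.mul_right hb).mul_right (commute_adj (hσ _) ha)).mul_right
        (commute_adj (hσ _) hb))
  intro i hi c
  obtain ⟨ha, hb⟩ := step i hi (hpre i.1 hi.le i.2.le)
  cases c
  · exact ha
  · exact hb

theorem exists_matrix_functional {V : Submodule ℂ (Matrix (Fin r) (Fin r) ℂ)} (hV : V ≠ ⊤) :
    ∃ u : Matrix (Fin r) (Fin r) ℂ, u ≠ 0 ∧ ∀ x ∈ V, trace (u * x) = 0 := by
  obtain ⟨x0, -, hx0⟩ := SetLike.exists_of_lt (lt_top_iff_ne_top.2 hV)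
  obtain ⟨f, hf0, hfV⟩ := Submodule.exists_dual_map_eq_bot_of_notMem hx0 inferInstance
  let u : Matrix (Fin r) (Fin r) ℂ := Matrix.of fun a b => f (Matrix.single b a 1)
  have hfu : ∀ X, f X = trace (u * X) := by
    intro X
    conv_lhs => rw [Matrix.matrix_eq_sum_single X]
    simp only [map_sum, trace, diag_apply, Matrix.mul_apply]
    rw [Finset.sum_comm]
    refine Finset.sum_congr rfl fun a _ => Finset.sum_congr rfl fun b _ => ?_
    rw [show Matrix.single b a (X b a) = X b a • Matrix.single b a (1 : ℂ) by simp, map_smul]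
    simp [u, mul_comm]
  refine ⟨u, fun e => hf0 (by rw [hfu, e, zero_mul, trace_zero]), fun x hx => ?_⟩
  rw [← hfu]
  have : f x ∈ Submodule.map f V := Submodule.mem_map_of_mem hx
  rwa [hfV, Submodule.mem_bot] at this

/-- The variations of the handles below `n` fill the traceless matrices when only scalars commute
with those handles. -/
theorem variations_top (hr : r ≠ 0) {σ : Tup g r ℂ} (hσ : ∀ k, (σ k).det = 1) (n : ℕ)
    (hcomm : ∀ u, (∀ i : Fin g, i.1 < n → ∀ c, Commute u (σ (i, c))) →
      ∃ z : ℂ, u = z • (1 : Matrix (Fin r) (Fin r) ℂ)) :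
    Submodule.span ℂ (insert (1 : Matrix (Fin r) (Fin r) ℂ)
      {x | ∃ i : Fin g, i.1 < n ∧ ∃ Ya Yb, trace Ya = 0 ∧ trace Yb = 0 ∧
        x = pre i σ * cmVar (σ (i, false)) (σ (i, true)) Ya Yb * adjugate (pre i σ)}) = ⊤ := by
  by_contra h
  obtain ⟨u, hu0, hu⟩ := exists_matrix_functional h
  obtain ⟨z, hz⟩ := hcomm u (comm_of_ann hσ n fun i hi Ya Yb ha hb =>
    hu _ (Submodule.subset_span (Set.mem_insert_of_mem _ ⟨i, hi, Ya, Yb, ha, hb, rfl⟩)))
  have h1 := hu 1 (Submodule.subset_span (Set.mem_insert _ _))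
  rw [hz, mul_one, trace_smul, trace_one, Fintype.card_fin, smul_eq_mul] at h1
  rcases mul_eq_zero.1 h1 with h2 | h2
  · exact hu0 (by rw [hz, h2, zero_smul])
  · exact Nat.cast_ne_zero.2 hr h2

/-- The equations, with a scalar slack in the relation. -/
noncomputable def Seq (p : Tup g r ℂ × ℂ) : (Fin g × Bool → ℂ) × Matrix (Fin r) (Fin r) ℂ :=
  ((Requ p.1).1, (1 + p.2) • (Requ p.1).2)

theorem contDiff_Seq : ContDiff ℂ 1 (Seq (r := r) (g := g)) := by
  have h := (contDiff_Requ (r := r) (g := g)).comp (contDiff_fst (F := ℂ))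
  exact h.fst.prodMk ((contDiff_const.add contDiff_snd).smul h.snd)

theorem fderiv_Seq {σ : Tup g r ℂ} (hσ : IsRep σ) (v : Tup g r ℂ) (s : ℂ) :
    fderiv ℂ Seq (σ, (0 : ℂ)) (v, s) =
      ((fderiv ℂ Requ σ v).1, (fderiv ℂ Requ σ v).2 + s • 1) := by
  have hR : HasFDerivAt (fun p : Tup g r ℂ × ℂ => Requ p.1)
      ((fderiv ℂ Requ σ).comp (ContinuousLinearMap.fst ℂ _ _)) (σ, (0 : ℂ)) :=
    (show HasFDerivAt Requ (fderiv ℂ Requ σ) (Prod.fst (σ, (0 : ℂ))) from
      ((contDiff_Requ (r := r) (g := g)).differentiable one_ne_zero σ).hasFDerivAt).comp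
      (σ, (0 : ℂ)) (hasFDerivAt_fst (p := (σ, (0 : ℂ))))
  have hS := hR.fst.prodMk
    (((hasFDerivAt_snd (𝕜 := ℂ) (p := (σ, (0 : ℂ)))).const_add (1 : ℂ)).smul hR.snd)
  rw [show fderiv ℂ Seq (σ, (0 : ℂ)) = _ from HasFDerivAt.fderiv (f := Seq) hS]
  have e : (Requ σ).2 = 1 := hσ.2
  simp only [Prod.snd, add_zero, one_smul, e]
  rfl

theorem exists_trace_adj {σ : Tup g r ℂ} (hσ : IsRep σ) (hr : r ≠ 0) (τ : Fin g × Bool → ℂ) :
    ∃ v : Tup g r ℂ, ∀ k, trace (adjugate (σ k) * v k) = τ k :=
  ⟨fun k => (τ k / r) • σ k, fun k => by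
    rw [Matrix.mul_smul, (mul_adj_cancel (hσ.1 k)).2, trace_smul, trace_one, Fintype.card_fin,
      smul_eq_mul, div_mul_cancel₀ _ (Nat.cast_ne_zero.2 hr)]⟩

theorem fderiv_Seq_surjective (hr : r ≠ 0) {σ : Tup g r ℂ} (hσ : IsRep σ) (hS : IsSchur σ) :
    (fderiv ℂ Seq (σ, (0 : ℂ))).range = ⊤ := by
  rw [LinearMap.range_eq_top]
  intro ⟨τ, M⟩
  obtain ⟨v0, hv0⟩ := exists_trace_adj hσ hr τ
  let K : Submodule ℂ (Matrix (Fin r) (Fin r) ℂ) :=
    { carrier := {x | ∃ v, ∃ s : ℂ, (∀ k, trace (adjugate (σ k) * v k) = 0) ∧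
        x = (fderiv ℂ Requ σ v).2 + s • 1}
      zero_mem' := ⟨0, 0, fun k => by simp, by simp⟩
      add_mem' := by
        rintro x y ⟨v, s, hv, rfl⟩ ⟨w, t, hw, rfl⟩
        exact ⟨v + w, s + t, fun k => by simp [mul_add, hv, hw], by
          simp [map_add, add_smul]; abel⟩
      smul_mem' := by
        rintro z x ⟨v, s, hv, rfl⟩
        exact ⟨z • v, z * s, fun k => by simp [hv], by simp [map_smul, smul_add, smul_smul]⟩ }
  have hK : K = ⊤ := by
    rw [eq_top_iff, ← variations_top hr hσ.1 g (fun u hu => hS u fun k => hu k.1 k.1.2 k.2),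
      Submodule.span_le]
    intro x hx
    rcases hx with rfl | ⟨i, -, Ya, Yb, ha, hb, rfl⟩
    · exact ⟨0, 1, fun k => by simp, by simp⟩
    · have e1 : trace (adjugate (σ (i, false)) * (Ya * σ (i, false))) = 0 := by
        rw [← mul_assoc, (trace_conj (hσ.1 _) _).2, ha]
      have e2 : trace (adjugate (σ (i, true)) * (Yb * σ (i, true))) = 0 := by
        rw [← mul_assoc, (trace_conj (hσ.1 _) _).2, hb]
      refine ⟨single1 i (Ya * σ (i, false)) (Yb * σ (i, true)), 0, fun k => ?_, ?_⟩
      · by_cases hk : k.1 = i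
        · obtain ⟨k1, c⟩ := k
          simp only at hk
          subst hk
          cases c
          · rw [single1_false]; exact e1
          · rw [single1_true]; exact e2
        · rw [single1_ne _ _ hk, mul_zero, trace_zero]
      · rw [fderiv_Requ_single hσ i e1 e2, zero_smul, add_zero]
        simp only [mul_assoc, (mul_adj_cancel (hσ.1 _)).1, mul_one]
  obtain ⟨v, s, hv, hM⟩ : M - (fderiv ℂ Requ σ v0).2 ∈ K := by rw [hK]; trivial
  refine ⟨(v0 + v, s), ?_⟩
  show fderiv ℂ Seq (σ, (0 : ℂ)) (v0 + v, s) = _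
  rw [fderiv_Seq hσ]
  refine Prod.ext ?_ ?_
  · show (fderiv ℂ Requ σ (v0 + v)).1 = τ
    rw [fderiv_Requ_fst hσ]
    funext k
    rw [Pi.add_apply, mul_add, trace_add, hv0, hv, add_zero]
  · show (fderiv ℂ Requ σ (v0 + v)).2 + s • 1 = M
    rw [map_add, Prod.snd_add, add_assoc, ← hM]
    abel

/-- Near `0` the slack is forced to vanish. -/
theorem eventually_slack_zero (r : ℕ) (hr : r ≠ 0) :
    ∀ᶠ s in 𝓝 (0 : ℂ), (1 + s) ^ r = 1 → s = 0 := by
  have hfin : ({s : ℂ | (1 + s) ^ r = 1} \ {0}).Finite := by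
    refine Set.Finite.subset ((Polynomial.finite_setOfPred_isRoot
      (p := (1 + Polynomial.X) ^ r - 1) ?_)) ?_
    · intro e
      have := congrArg (Polynomial.eval (-1 : ℂ)) e
      simp [zero_pow hr] at this
    · intro s hs
      simp [sub_eq_zero, hs.1]
  filter_upwards [hfin.isClosed.isOpen_compl.mem_nhds (by simp : (0 : ℂ) ∈ _)] with s hs h
  by_contra hne
  exact hs ⟨h, hne⟩

theorem isRep_of_Seq {p : Tup g r ℂ × ℂ} (hr : r ≠ 0) (h : Seq p = (fun _ => 1, 1))
    (hs : (1 + p.2) ^ r = 1 → p.2 = 0) : IsRep p.1 := by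
  have h1 : ∀ k, (p.1 k).det = 1 := fun k => congrFun (congrArg Prod.fst h) k
  have h2 : (1 + p.2) • rel adjugate p.1 = 1 := congrArg Prod.snd h
  have h3 := congrArg Matrix.det h2
  rw [det_smul, det_rel h1, mul_one, det_one, Fintype.card_fin] at h3
  rw [hs h3, add_zero, one_smul] at h2
  exact ⟨h1, h2⟩

/-- The tangent space of the representation variety. -/
noncomputable def TanR (σ : Tup g r ℂ) : Submodule ℂ (Tup g r ℂ) :=
  LinearMap.ker (fderiv ℂ Requ σ).toLinearMap

theorem finrank_TanR (hr : r ≠ 0) {σ : Tup g r ℂ} (hσ : IsRep σ) (hS : IsSchur σ) :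
    2 * g * (r * r) + 1 ≤ Module.finrank ℂ (TanR σ) + (2 * g + r * r) := by
  set D := (fderiv ℂ Seq (σ, (0 : ℂ))).toLinearMap
  have h1 := LinearMap.finrank_range_add_finrank_ker D
  rw [show LinearMap.range D = ⊤ from fderiv_Seq_surjective hr hσ hS, finrank_top] at h1
  have h2 : ∀ p ∈ LinearMap.ker D, p.2 = 0 ∧ p.1 ∈ TanR σ := by
    rintro ⟨v, s⟩ hp
    have hp' : fderiv ℂ Seq (σ, (0 : ℂ)) (v, s) = 0 := hp
    rw [fderiv_Seq hσ] at hp'
    have e1 : (fderiv ℂ Requ σ v).1 = 0 := congrArg Prod.fst hp'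
    have e2 : (fderiv ℂ Requ σ v).2 + s • 1 = 0 := congrArg Prod.snd hp'
    have e1' := e1
    rw [fderiv_Requ_fst hσ] at e1'
    have := congrArg trace e2
    rw [trace_add, fderiv_Requ_snd_trace hσ (fun k => congrFun e1' k), zero_add, trace_smul,
      trace_one, Fintype.card_fin, trace_zero, smul_eq_mul] at this
    have hs : s = 0 := (mul_eq_zero.1 this).resolve_right (Nat.cast_ne_zero.2 hr)
    rw [hs, zero_smul, add_zero] at e2
    exact ⟨hs, Prod.ext e1 e2⟩
  let ι : LinearMap.ker D →ₗ[ℂ] TanR σ :=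
    { toFun := fun p => ⟨p.1.1, (h2 p.1 p.2).2⟩
      map_add' := fun p q => rfl
      map_smul' := fun z p => rfl }
  have h3 := LinearMap.finrank_le_finrank_of_injective (f := ι) (fun p q e => Subtype.ext
    (Prod.ext (congrArg Subtype.val e) ((h2 p.1 p.2).1.trans (h2 q.1 q.2).1.symm)))
  simp only [Module.finrank_prod, Module.finrank_pi_fintype, Module.finrank_matrix,
    Fintype.card_fin, Module.finrank_self, Finset.sum_const, Finset.card_univ, Fintype.card_prod,
    Fintype.card_bool, smul_eq_mul, mul_one] at h1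
  have e : g * 2 * (r * r) = 2 * g * (r * r) := by ring
  omega

/-- Every tangent vector is the velocity of a curve of representations. -/
theorem exists_curve (hr : r ≠ 0) {σ : Tup g r ℂ} (hσ : IsRep σ) (hS : IsSchur σ)
    {v : Tup g r ℂ} (hv : v ∈ TanR σ) :
    ∃ γ : ℂ → Tup g r ℂ, γ 0 = σ ∧ HasDerivAt γ v 0 ∧ ∀ᶠ s in 𝓝 0, IsRep (γ s) := by
  have hfs : HasStrictFDerivAt Seq (fderiv ℂ Seq (σ, (0 : ℂ))) (σ, (0 : ℂ)) :=
    contDiff_Seq.contDiffAt.hasStrictFDerivAt one_ne_zero
  have hsur := fderiv_Seq_surjective hr hσ hS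
  have hker := (fderiv ℂ Seq (σ, (0 : ℂ))).ker_closedComplemented_of_finiteDimensional_range
  have hv' : ((v, 0) : Tup g r ℂ × ℂ) ∈ (fderiv ℂ Seq (σ, (0 : ℂ))).ker := by
    show fderiv ℂ Seq (σ, (0 : ℂ)) (v, 0) = 0
    rw [fderiv_Seq hσ, zero_smul, add_zero]
    exact hv
  set D := fderiv ℂ Seq (σ, (0 : ℂ)) with hD
  set ψ := hfs.implicitFunctionOfComplemented Seq D hsur hker (Seq (σ, (0 : ℂ))) with hψdef
  have hψ : HasStrictFDerivAt ψ D.ker.subtypeL 0 := hfs.to_implicitFunctionOfComplemented hsur hker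
  have hψ0 : ψ 0 = (σ, (0 : ℂ)) := hfs.implicitFunctionOfComplemented_apply_image hsur hker
  have hl : HasDerivAt (fun s : ℂ => s • (⟨(v, 0), hv'⟩ : D.ker)) ⟨(v, 0), hv'⟩ 0 :=
    ((hasDerivAt_id (0 : ℂ)).smul_const (⟨(v, 0), hv'⟩ : D.ker)).congr_deriv (one_smul _ _)
  have hγ := hψ.hasFDerivAt.comp_hasDerivAt_of_eq (0 : ℂ) hl (zero_smul ℂ _).symm
  refine ⟨fun s => (ψ (s • ⟨(v, 0), hv'⟩)).1, ?_, ?_, ?_⟩
  · show (ψ ((0 : ℂ) • _)).1 = σ
    rw [zero_smul, hψ0]
  · exact hγ.fst
  · have h0 : Seq (σ, (0 : ℂ)) = (fun _ => 1, 1) := by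
      simp [Seq, requ_eq hσ]
    have ht : Tendsto (fun s : ℂ => (Seq (σ, (0 : ℂ)), s • (⟨(v, 0), hv'⟩ : D.ker))) (𝓝 0)
        (𝓝 (Seq (σ, (0 : ℂ)), 0)) := by
      refine tendsto_const_nhds.prodMk_nhds ?_
      have := hl.continuousAt.tendsto
      rwa [zero_smul] at this
    have h1 := ht.eventually (hfs.map_implicitFunctionOfComplemented_eq hsur hker)
    have h2 : Tendsto (fun s : ℂ => (ψ (s • ⟨(v, 0), hv'⟩)).2) (𝓝 0) (𝓝 0) := by
      have := ((ContinuousLinearMap.snd ℂ _ _).hasFDerivAt.comp_hasDerivAt (0 : ℂ) hγ).continuousAt.tendsto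
      have e : (ψ ((0 : ℂ) • (⟨(v, 0), hv'⟩ : D.ker))).2 = 0 := by rw [zero_smul, hψ0]
      exact Filter.Tendsto.mono_right this (le_of_eq (congrArg 𝓝 e))
    filter_upwards [h1, h2.eventually (eventually_slack_zero r hr)] with s hs1 hs2
    exact isRep_of_Seq hr (hs1.trans h0) hs2

end Vale.Agent.P002
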