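import Vale.Agent.P002.Dense

/-!
# P002: semisimple representations are in the closure of the integral ones

A representation cut by orthogonal idempotents into pieces with scalar commutant is first twisted by
a central torus, which kills the homomorphisms between different pieces, and then two pieces are
joined by a non-split extension; both operations are reversed by letting a parameter tend to zero.
-/

namespace Vale.Agent.P002

open Matrix Filter Topology
open scoped Matrix.Norms.Operator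

set_option backward.isDefEq.respectTransparency false

variable {r g : ℕ}

theorem inV_of_eventually {F : ℂ → Tup g r ℂ} {σ : Tup g r ℂ} (hF : ContinuousAt F 0) (h0 : F 0 = σ)
    (h : ∀ᶠ t in 𝓝[≠] (0 : ℂ), InV (F t)) : InV σ := by
  have ht : Tendsto F (𝓝[≠] (0 : ℂ)) (𝓝 σ) := by
    rw [← h0]; exact hF.tendsto.mono_left nhdsWithin_le_nhds
  exact isClosed_inV.mem_of_tendsto ht h

/-- A one parameter group of matrices with traceless generator has determinant one. -/
theorem det_eq_one_of_group {γ : ℂ → Matrix (Fin r) (Fin r) ℂ} {H : Matrix (Fin r) (Fin r) ℂ}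
    (hmul : ∀ s t, γ (s + t) = γ s * γ t) (h0 : γ 0 = 1) (hd : HasDerivAt γ H 0)
    (htr : trace H = 0) (t : ℂ) : (γ t).det = 1 := by
  have hf0 : HasDerivAt (fun s => (γ s).det) 0 0 := by
    have := hasDerivAt_det h0 det_one hd
    rwa [adjugate_one, one_mul, htr] at this
  have hall : ∀ t, HasDerivAt (fun s => (γ s).det) 0 t := by
    intro t
    have h1 := (hf0.comp_of_eq t ((hasDerivAt_id t).sub_const t) (sub_self t).symm).const_mul
      (γ t).det
    rw [zero_mul, mul_zero] at h1
    refine h1.congr_of_eventuallyEq (Eventually.of_forall fun s => ?_)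
    show (γ s).det = (γ t).det * (γ (s - t)).det
    rw [← det_mul, ← hmul, add_sub_cancel]
  have hc := is_const_of_deriv_eq_zero (fun s => (hall s).differentiableAt)
    (fun s => (hall s).deriv) t 0
  simpa [h0] using hc

theorem rel_congr {σ τ : Tup g r ℂ}
    (h : ∀ i, cm adjugate (σ (i, false)) (σ (i, true)) = cm adjugate (τ (i, false)) (τ (i, true))) :
    rel adjugate σ = rel adjugate τ := by
  simp only [rel, cmList, funext h]

/-- Orthogonal idempotents in the commutant, with scalar corners. -/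
structure IsBricks {N : ℕ} (σ : Tup g r ℂ) (e : Fin N → Matrix (Fin r) (Fin r) ℂ) : Prop where
  idem : ∀ i, e i * e i = e i
  orth : ∀ i j, i ≠ j → e i * e j = 0
  sum : ∑ i, e i = 1
  ne : ∀ i, e i ≠ 0
  comm : ∀ i k, e i * σ k = σ k * e i
  corner : ∀ c, (∀ k, c * σ k = σ k * c) → ∀ i, ∃ z : ℂ, e i * c * e i = z • e i

theorem IsBricks.corner_comm {N : ℕ} {σ : Tup g r ℂ} {e : Fin N → Matrix (Fin r) (Fin r) ℂ}
    (h : IsBricks σ e) {c : Matrix (Fin r) (Fin r) ℂ} {k : Fin g × Bool}
    (hc : c * σ k = σ k * c) (i j : Fin N) :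
    e i * c * e j * σ k = σ k * (e i * c * e j) := by
  rw [mul_assoc (e i * c), h.comm j k, ← mul_assoc, mul_assoc (e i) c, hc, ← mul_assoc, h.comm i k]
  simp only [mul_assoc]

/-- The central twist. -/
noncomputable def zc {N : ℕ} (e : Fin N → Matrix (Fin r) (Fin r) ℂ) (μ : Fin N → ℂ) (t : ℂ) :
    Matrix (Fin r) (Fin r) ℂ :=
  ∑ i, Complex.exp (t * μ i) • e i

section zc

variable {N : ℕ} {σ : Tup g r ℂ} {e : Fin N → Matrix (Fin r) (Fin r) ℂ} {μ : Fin N → ℂ}

theorem zc_mul_e (h : IsBricks σ e) (t : ℂ) (i : Fin N) :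
    zc e μ t * e i = Complex.exp (t * μ i) • e i ∧
      e i * zc e μ t = Complex.exp (t * μ i) • e i := by
  constructor
  · rw [zc, Finset.sum_mul, Finset.sum_eq_single i
      (fun j _ hj => by rw [Matrix.smul_mul, h.orth j i hj, smul_zero])
      (fun h' => absurd (Finset.mem_univ i) h'), Matrix.smul_mul, h.idem]
  · rw [zc, Finset.mul_sum, Finset.sum_eq_single i
      (fun j _ hj => by rw [Matrix.mul_smul, h.orth i j (Ne.symm hj), smul_zero])
      (fun h' => absurd (Finset.mem_univ i) h'), Matrix.mul_smul, h.idem]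

theorem zc_add (h : IsBricks σ e) (s t : ℂ) : zc e μ (s + t) = zc e μ s * zc e μ t := by
  have : zc e μ s * zc e μ t = ∑ i, Complex.exp (s * μ i) • (e i * zc e μ t) := by
    conv_lhs => rw [zc]
    simp only [Finset.sum_mul, Matrix.smul_mul]
  rw [this]
  refine Finset.sum_congr rfl fun i _ => ?_
  rw [(zc_mul_e h t i).2, smul_smul, ← Complex.exp_add, add_mul]

theorem zc_zero (h : IsBricks σ e) : zc e μ 0 = 1 := by
  simp [zc, h.sum]

theorem hasDerivAt_zc : HasDerivAt (zc e μ) (∑ i, μ i • e i) 0 := by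
  refine HasDerivAt.fun_sum fun i _ => HasDerivAt.smul_const ?_ (e i)
  have := ((hasDerivAt_id (0 : ℂ)).mul_const (μ i)).cexp
  simpa using this

theorem zc_comm (h : IsBricks σ e) (t : ℂ) (k : Fin g × Bool) :
    zc e μ t * σ k = σ k * zc e μ t := by
  simp only [zc, Finset.sum_mul, Finset.mul_sum, Matrix.smul_mul, Matrix.mul_smul, h.comm _ k]

/-- The representation twisted at `a_i`. -/
noncomputable def twC (σ : Tup g r ℂ) (i₀ : Fin g) (e : Fin N → Matrix (Fin r) (Fin r) ℂ)
    (μ : Fin N → ℂ) (t : ℂ) : Tup g r ℂ :=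
  Function.update σ (i₀, false) (σ (i₀, false) * zc e μ t)

theorem isRep_twC (hσ : IsRep σ) (h : IsBricks σ e) (hμ : ∑ i, μ i * trace (e i) = 0) (i₀ : Fin g)
    (t : ℂ) : IsRep (twC σ i₀ e μ t) := by
  have hd : (zc e μ t).det = 1 := det_eq_one_of_group (zc_add h) (zc_zero h) hasDerivAt_zc
    (by simp [trace_sum, trace_smul, hμ]) t
  obtain ⟨z1, z2⟩ := mul_adj_cancel hd
  refine ⟨fun k => ?_, ?_⟩
  · simp only [twC, Function.update_apply]
    split_ifs
    · rw [det_mul, hσ.1, hd, one_mul]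
    · exact hσ.1 k
  · refine (rel_congr fun i => ?_).trans hσ.2
    by_cases hi : i = i₀
    · subst hi
      simp only [twC, Function.update_self, Function.update_of_ne
        (show ((i, true) : Fin g × Bool) ≠ (i, false) by simp), cm, adjugate_mul_distrib]
      rw [mul_assoc (σ (i, false)) (zc e μ t), zc_comm h t (i, true), ← mul_assoc (σ (i, false)),
        mul_assoc (σ (i, false) * σ (i, true)) (zc e μ t), ← mul_assoc (zc e μ t), z1, one_mul]
    · simp [twC, Function.update_apply, hi]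

/-- Twisting keeps the pieces. -/
theorem isBricks_twC (h : IsBricks σ e) (i₀ : Fin g) (t : ℂ) :
    IsBricks (twC σ i₀ e μ t) e := by
  refine ⟨h.idem, h.orth, h.sum, h.ne, fun i k => ?_, fun c hc i => ?_⟩
  · simp only [twC, Function.update_apply]
    split_ifs
    · rw [← mul_assoc, h.comm, mul_assoc, (zc_mul_e h t i).2, ← (zc_mul_e h t i).1, mul_assoc]
    · exact h.comm i k
  · suffices hC : ∀ k, e i * c * e i * σ k = σ k * (e i * c * e i) by
      obtain ⟨z, hz⟩ := h.corner _ hC i
      exact ⟨z, by rw [← hz]; simp only [mul_assoc, h.idem]; simp only [← mul_assoc, h.idem]⟩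
    intro k
    by_cases hk : k = (i₀, false)
    · subst hk
      have h1 := hc (i₀, false)
      simp only [twC, Function.update_self] at h1
      have h2 := congrArg (fun M => e i * M * e i) h1
      have eL : e i * (c * (σ (i₀, false) * zc e μ t)) * e i =
          Complex.exp (t * μ i) • (e i * c * e i * σ (i₀, false)) := by
        rw [mul_assoc (e i * c), h.comm i (i₀, false)]
        simp only [mul_assoc, (zc_mul_e h t i).1, Matrix.mul_smul]
      have eR : e i * (σ (i₀, false) * zc e μ t * c) * e i =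
          Complex.exp (t * μ i) • (σ (i₀, false) * (e i * c * e i)) := by
        rw [← mul_assoc (e i), ← mul_assoc (e i), h.comm i (i₀, false),
          mul_assoc (σ (i₀, false)), (zc_mul_e h t i).2]
        simp only [Matrix.mul_smul, Matrix.smul_mul, mul_assoc]
      rw [eL, eR] at h2
      exact smul_right_injective _ (Complex.exp_ne_zero _) h2
    · have h1 := hc k
      simp only [twC, Function.update_of_ne hk] at h1
      exact h.corner_comm h1 i i

/-- For small non-zero parameters the twist kills the homomorphisms between different pieces. -/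
theorem eventually_cross_zero (hσ : ∀ k, (σ k).det = 1) (h : IsBricks σ e) (hμ : Function.Injective μ)
    (i₀ : Fin g) :
    ∀ᶠ t in 𝓝[≠] (0 : ℂ), ∀ c, (∀ k, c * twC σ i₀ e μ t k = twC σ i₀ e μ t k * c) →
      ∀ i j, i ≠ j → e i * c * e j = 0 := by
  set a := σ (i₀, false) with ha
  obtain ⟨a1, a2⟩ := mul_adj_cancel (show a.det = 1 from hσ _)
  let L : Matrix (Fin r) (Fin r) ℂ →ₗ[ℂ] Matrix (Fin r) (Fin r) ℂ :=
    (LinearMap.mulLeft ℂ (adjugate a)).comp (LinearMap.mulRight ℂ a)
  let Z : Set ℂ := {z | Module.End.HasEigenvalue L z}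
  have hZ : Z.Finite := Module.End.finite_hasEigenvalue L
  have key : ∀ᶠ t in 𝓝[≠] (0 : ℂ), ∀ i j, i ≠ j → Complex.exp (t * (μ i - μ j)) ∉ Z := by
    simp only [eventually_all]
    intro i j hij
    have hd : HasDerivAt (fun t : ℂ => Complex.exp (t * (μ i - μ j))) (μ i - μ j) 0 := by
      have := ((hasDerivAt_id (0 : ℂ)).mul_const (μ i - μ j)).cexp
      simpa using this
    have h1 : ∀ᶠ t in 𝓝[≠] (0 : ℂ), Complex.exp (t * (μ i - μ j)) ≠ 1 := by
      have := hd.eventually_ne (c := (1 : ℂ)) (sub_ne_zero.2 fun e => hij (hμ e))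
      simpa using this
    have h2 : ∀ᶠ t in 𝓝[≠] (0 : ℂ), Complex.exp (t * (μ i - μ j)) ∉ Z \ {1} :=
      (show ∀ᶠ t in 𝓝 (0 : ℂ), Complex.exp (t * (μ i - μ j)) ∉ Z \ {1} from
        hd.continuousAt.preimage_mem_nhds ((hZ.sdiff (t := {1})).isClosed.isOpen_compl.mem_nhds
          (by simp))).filter_mono nhdsWithin_le_nhds
    filter_upwards [h1, h2] with t ht1 ht2 hmem
    exact ht2 ⟨hmem, ht1⟩
  filter_upwards [key] with t ht c hc i j hij
  by_contra hne
  refine ht i j hij (Module.End.hasEigenvalue_of_hasEigenvector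
    (x := e i * c * e j) ⟨Module.End.mem_eigenspace_iff.2 ?_, hne⟩)
  have h1 := hc (i₀, false)
  simp only [twC, Function.update_self, ← ha] at h1
  have h2 := congrArg (fun M => e i * M * e j) h1
  have eL : e i * (c * (a * zc e μ t)) * e j = Complex.exp (t * μ j) • (e i * c * e j * a) := by
    rw [mul_assoc (e i * c), h.comm j (i₀, false)]
    simp only [mul_assoc, (zc_mul_e h t j).1, Matrix.mul_smul, ← ha]
  have eR : e i * (a * zc e μ t * c) * e j = Complex.exp (t * μ i) • (a * (e i * c * e j)) := by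
    rw [← mul_assoc (e i), ← mul_assoc (e i), h.comm i (i₀, false), mul_assoc (σ (i₀, false)),
      (zc_mul_e h t i).2]
    simp only [Matrix.mul_smul, Matrix.smul_mul, mul_assoc, ← ha]
  rw [eL, eR] at h2
  show adjugate a * (e i * c * e j * a) = Complex.exp (t * (μ i - μ j)) • (e i * c * e j)
  have h3 := congrArg (fun M => Complex.exp (-(t * μ j)) • (adjugate a * M)) h2
  simp only [Matrix.mul_smul, smul_smul, ← Complex.exp_add, ← mul_assoc (adjugate a) a, a2,
    one_mul] at h3
  rw [neg_add_cancel, Complex.exp_zero, one_smul] at h3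
  rw [h3]
  congr 2
  ring

end zc

/-- The corner `e0 M e1`. -/
def cornerSub (e0 e1 : Matrix (Fin r) (Fin r) ℂ) : Submodule ℂ (Matrix (Fin r) (Fin r) ℂ) :=
  LinearMap.ker ((LinearMap.mulLeft ℂ e0).comp (LinearMap.mulRight ℂ e1) - LinearMap.id)

theorem mem_cornerSub {e0 e1 X : Matrix (Fin r) (Fin r) ℂ} :
    X ∈ cornerSub e0 e1 ↔ e0 * (X * e1) = X := by
  simp [cornerSub, sub_eq_zero]

/-- Affine in the parameter, with constant term commuting with the idempotents and linear term in
the corner. -/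
def Aff (e0 e1 : Matrix (Fin r) (Fin r) ℂ) (F : ℂ → Matrix (Fin r) (Fin r) ℂ) : Prop :=
  ∃ P Q, e0 * P = P * e0 ∧ e1 * P = P * e1 ∧ Q ∈ cornerSub e0 e1 ∧ ∀ t, F t = P + t • Q

section aff

variable {e0 e1 : Matrix (Fin r) (Fin r) ℂ}

theorem mul_corner (h0 : e0 * e0 = e0) (h1 : e1 * e1 = e1) {X P : Matrix (Fin r) (Fin r) ℂ}
    (hX : X ∈ cornerSub e0 e1) (hP0 : e0 * P = P * e0) (hP1 : e1 * P = P * e1) :
    P * X ∈ cornerSub e0 e1 ∧ X * P ∈ cornerSub e0 e1 := by
  rw [mem_cornerSub] at hX ⊢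
  rw [mem_cornerSub]
  constructor
  · rw [mul_assoc P, ← mul_assoc e0, hP0, mul_assoc, hX]
  · calc e0 * (X * P * e1) = e0 * (X * (e1 * P)) := by rw [mul_assoc, hP1]
      _ = X * P := by rw [← mul_assoc X, ← mul_assoc, hX]

theorem corner_mul_corner (h10 : e1 * e0 = 0) {X X' : Matrix (Fin r) (Fin r) ℂ}
    (hX : X ∈ cornerSub e0 e1) (hX' : X' ∈ cornerSub e0 e1) : X * X' = 0 := by
  rw [mem_cornerSub] at hX hX'
  rw [← hX, ← hX']
  simp only [mul_assoc]
  rw [← mul_assoc e1 e0, h10, zero_mul, mul_zero, mul_zero]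

theorem aff_mul (h0 : e0 * e0 = e0) (h1 : e1 * e1 = e1) (h10 : e1 * e0 = 0)
    {F G : ℂ → Matrix (Fin r) (Fin r) ℂ} (hF : Aff e0 e1 F) (hG : Aff e0 e1 G) :
    Aff e0 e1 fun t => F t * G t := by
  obtain ⟨P, Q, a0, a1, hQ, hFt⟩ := hF
  obtain ⟨P', Q', b0, b1, hQ', hGt⟩ := hG
  refine ⟨P * P', P * Q' + Q * P', ?_, ?_,
    Submodule.add_mem _ (mul_corner h0 h1 hQ' a0 a1).1 (mul_corner h0 h1 hQ b0 b1).2, fun t => ?_⟩
  · rw [← mul_assoc, a0, mul_assoc, b0, mul_assoc]
  · rw [← mul_assoc, a1, mul_assoc, b1, mul_assoc]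
  · simp only [hFt, hGt, add_mul, mul_add, Matrix.mul_smul, Matrix.smul_mul,
      corner_mul_corner h10 hQ hQ', smul_zero, add_zero, smul_add]
    abel

theorem det_add_corner (h0 : e0 * e0 = e0) (h1 : e1 * e1 = e1) (h10 : e1 * e0 = 0)
    {A Y : Matrix (Fin r) (Fin r) ℂ} (hA : A.det = 1) (hA0 : e0 * A = A * e0)
    (hA1 : e1 * A = A * e1) (hY : Y ∈ cornerSub e0 e1) (t : ℂ) :
    (A + t • Y).det = 1 ∧
      adjugate (A + t • Y) = adjugate A + t • -(adjugate A * Y * adjugate A) := by
  obtain ⟨a1, a2⟩ := mul_adj_cancel hA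
  have hc0 : e0 * adjugate A = adjugate A * e0 := commute_adj hA hA0
  have hc1 : e1 * adjugate A = adjugate A * e1 := commute_adj hA hA1
  set M := adjugate A * Y
  have hM : M ∈ cornerSub e0 e1 := (mul_corner h0 h1 hY hc0 hc1).1
  have hMM : M * M = 0 := corner_mul_corner h10 hM hM
  have htr : trace M = 0 := by
    have e := mem_cornerSub.1 hM
    rw [← e, trace_mul_comm, mul_assoc, h10, mul_zero, trace_zero]
  have hmul : ∀ s u : ℂ, (1 : Matrix (Fin r) (Fin r) ℂ) + (s + u) • M = (1 + s • M) * (1 + u • M) :=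
    fun s u => by
      simp [add_mul, mul_add, Matrix.smul_mul, Matrix.mul_smul, hMM, add_smul]
      abel
  have hd : (1 + t • M).det = 1 :=
    det_eq_one_of_group (γ := fun s => 1 + s • M) hmul (by simp) (hasDerivAt_line 1 M) htr t
  have he : A + t • Y = A * (1 + t • M) := by
    rw [mul_add, mul_one, Matrix.mul_smul, ← mul_assoc, a1, one_mul]
  refine ⟨by rw [he, det_mul, hA, hd, one_mul], ?_⟩
  have hinv : adjugate (1 + t • M) = 1 + t • -M := by
    calc adjugate (1 + t • M) = adjugate (1 + t • M) * ((1 + t • M) * (1 + (-t) • M)) := by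
          rw [← hmul, add_neg_cancel, zero_smul, add_zero, mul_one]
      _ = 1 + t • -M := by
          rw [← mul_assoc, (mul_adj_cancel hd).2, one_mul, neg_smul, smul_neg]
  rw [he, adjugate_mul_distrib, hinv, add_mul, one_mul, Matrix.smul_mul, neg_mul]

end aff

/-- Joining the first two pieces by a non-split family in their corner. -/
theorem isBricks_merge {G N : ℕ} {σ : Tup G r ℂ}
    {e : Fin (N + 2) → Matrix (Fin r) (Fin r) ℂ} (h : IsBricks σ e)
    (hcross : ∀ c, (∀ k, c * σ k = σ k * c) → ∀ i j, i ≠ j → e i * c * e j = 0)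
    (y : Fin G × Bool → cornerSub (e 0) (e 1))
    (hyc : ∀ X ∈ cornerSub (e 0) (e 1),
      ¬ ∀ k, X * σ k - σ k * X = (y k : Matrix (Fin r) (Fin r) ℂ))
    {t : ℂ} (ht : t ≠ 0) :
    ∃ f : Fin (N + 1) → Matrix (Fin r) (Fin r) ℂ,
      IsBricks (fun k => σ k + t • (y k : Matrix (Fin r) (Fin r) ℂ)) f := by
  classical
  revert y
  have h01 : (0 : Fin (N + 2)) ≠ 1 := by simp [Fin.ext_iff]
  set e0 := e 0
  set e1 := e 1
  have i0 : e0 * e0 = e0 := h.idem 0
  have i1 : e1 * e1 = e1 := h.idem 1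
  have o10 : e1 * e0 = 0 := h.orth 1 0 (Ne.symm h01)
  set V := cornerSub e0 e1
  intro y hyc
  have hadd : ∀ k, (fun k => σ k + t • (y k : Matrix (Fin r) (Fin r) ℂ)) k =
      σ k + t • (y k : Matrix (Fin r) (Fin r) ℂ) := fun k => rfl
  let f : Fin (N + 1) → Matrix (Fin r) (Fin r) ℂ :=
    Fin.cons (e0 + e1) fun i : Fin N => e i.succ.succ
  have hf0 : f 0 = e0 + e1 := rfl
  have hfs : ∀ i : Fin N, f i.succ = e i.succ.succ := fun i => rfl
  have n0 : ∀ i : Fin N, (0 : Fin (N + 2)) ≠ i.succ.succ := fun i => (Fin.succ_ne_zero _).symm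
  have n1 : ∀ i : Fin N, (1 : Fin (N + 2)) ≠ i.succ.succ := fun i => by
    rw [← Fin.succ_zero_eq_one, Ne, Fin.succ_inj]; exact (Fin.succ_ne_zero _).symm
  have hsucc : ∀ (i : Fin (N + 2)) (k : Fin G × Bool),
      e i * (y k : Matrix (Fin r) (Fin r) ℂ) = (if i = 0 then (y k : Matrix (Fin r) (Fin r) ℂ)
        else 0) ∧
      (y k : Matrix (Fin r) (Fin r) ℂ) * e i = (if i = 1 then (y k : Matrix (Fin r) (Fin r) ℂ)
        else 0) := by
    intro i k
    have hy := mem_cornerSub.1 (y k).2
    constructor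
    · split_ifs with hi
      · subst hi; rw [← hy, ← mul_assoc, show e 0 * e0 = e0 from i0]
      · rw [← hy, ← mul_assoc, show e i * e0 = 0 from h.orth i 0 hi, zero_mul]
    · split_ifs with hi
      · subst hi; rw [← hy, mul_assoc, mul_assoc, show e1 * e 1 = e1 from i1]
      · rw [← hy, mul_assoc, mul_assoc, show e1 * e i = 0 from h.orth 1 i (Ne.symm hi), mul_zero,
          mul_zero]
  refine ⟨f, ⟨fun i => ?_, fun i j hij => ?_, ?_, fun i => ?_, fun i k => ?_, fun c hc i => ?_⟩⟩
  · refine Fin.cases ?_ (fun i => ?_) i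
    · simp only [hf0, add_mul, mul_add, i0, i1, e0, e1, h.orth 0 1 h01, h.orth 1 0 (Ne.symm h01),
        h.idem, add_zero, zero_add]
    · exact h.idem _
  · revert hij
    refine Fin.cases ?_ (fun i => ?_) i <;> refine Fin.cases ?_ (fun j => ?_) j <;> intro hij
    · exact absurd rfl hij
    · rw [hf0, hfs, add_mul, h.orth _ _ (n0 j), h.orth _ _ (n1 j), add_zero]
    · rw [hf0, hfs, mul_add, h.orth _ _ (Ne.symm (n0 i)), h.orth _ _ (Ne.symm (n1 i)), add_zero]
    · exact h.orth _ _ fun e' => hij (by rw [Fin.succ_inj.1 e'])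
  · rw [Fin.sum_univ_succ, ← h.sum, Fin.sum_univ_succ (n := N + 1), Fin.sum_univ_succ (n := N),
      Fin.succ_zero_eq_one, hf0, ← add_assoc]
    rfl
  · refine Fin.cases ?_ (fun i => ?_) i
    · intro hz
      have hz' := congrArg (fun M => e0 * M) hz
      simp only [hf0, mul_add, mul_zero, i0, e0, e1, h.orth 0 1 h01, h.idem, add_zero] at hz'
      exact h.ne 0 hz'
    · exact h.ne _
  · refine Fin.cases ?_ (fun i => ?_) i
    · simp only [hf0, add_mul, mul_add, Matrix.mul_smul, Matrix.smul_mul, e0, e1, h.comm,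
        (hsucc _ k).1, (hsucc _ k).2, if_true, if_neg h01, if_neg (Ne.symm h01), smul_zero]
      abel
    · simp only [hfs, add_mul, mul_add, Matrix.mul_smul, Matrix.smul_mul, h.comm, (hsucc _ k).1,
        (hsucc _ k).2, if_neg (Ne.symm (n0 i)), if_neg (Ne.symm (n1 i)), smul_zero, add_zero]
  -- the commutant of the extension
  have hab : ∀ a b : Fin (N + 2), ∀ k,
      e a * c * e b * σ k - σ k * (e a * c * e b) +
        t • (e a * c * ((y k : Matrix (Fin r) (Fin r) ℂ) * e b) -
          e a * (y k : Matrix (Fin r) (Fin r) ℂ) * (c * e b)) = 0 := by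
    intro a b k
    have h1 := congrArg (fun M => e a * M * e b) (hc k)
    simp only [hadd, mul_add, add_mul, Matrix.mul_smul, Matrix.smul_mul] at h1
    rw [show e a * (c * σ k) * e b = e a * c * e b * σ k by
      simp only [mul_assoc, h.comm b k],
      show e a * (σ k * c) * e b = σ k * (e a * c * e b) by
      rw [← mul_assoc (e a), h.comm a k]; simp only [mul_assoc]] at h1
    simp only [mul_assoc, smul_sub] at h1 ⊢
    linear_combination (norm := abel) h1
  have hplain : ∀ a b : Fin (N + 2), (b = 1 → e a * c * e 0 = 0) → (a = 0 → e 1 * c * e b = 0) →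
      ∀ k, e a * c * e b * σ k = σ k * (e a * c * e b) := by
    intro a b hb ha k
    have h1 := hab a b k
    have z1 : e a * c * ((y k : Matrix (Fin r) (Fin r) ℂ) * e b) = 0 := by
      rw [(hsucc b k).2]
      split_ifs with hb'
      · rw [← (show e 0 * (y k : Matrix (Fin r) (Fin r) ℂ) = y k by rw [(hsucc 0 k).1, if_pos rfl]),
          ← mul_assoc, hb hb', zero_mul]
      · rw [mul_zero]
    have z2 : e a * (y k : Matrix (Fin r) (Fin r) ℂ) * (c * e b) = 0 := by
      rw [(hsucc a k).1]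
      split_ifs with ha'
      · rw [← (show (y k : Matrix (Fin r) (Fin r) ℂ) * e 1 = y k by rw [(hsucc 1 k).2, if_pos rfl]),
          mul_assoc, ← mul_assoc (e 1), ha ha', mul_zero]
      · rw [zero_mul]
    rwa [z1, z2, sub_zero, smul_zero, add_zero, sub_eq_zero] at h1
  have hsc : ∀ a, (a = 1 → e a * c * e 0 = 0) → (a = 0 → e 1 * c * e a = 0) →
      ∃ z : ℂ, e a * c * e a = z • e a := fun a ha1 ha0 => by
    obtain ⟨z, hz⟩ := h.corner _ (hplain a a ha1 ha0) a
    refine ⟨z, ?_⟩
    rw [← hz]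
    simp only [mul_assoc, h.idem]
    simp only [← mul_assoc, h.idem]
  have h10c : e 1 * c * e 0 = 0 := by
    have := hcross _ (hplain 1 0 (fun e' => absurd e' h01) (fun e' => absurd e' (Ne.symm h01))) 1 0
      (Ne.symm h01)
    rw [← this]
    simp only [mul_assoc, h.idem]
    simp only [← mul_assoc, h.idem]
  revert i
  refine Fin.cases ?_ (fun i => ?_)
  · obtain ⟨z0, hz0⟩ := hsc 0 (fun e' => absurd e' h01) (fun _ => h10c)
    obtain ⟨z1, hz1⟩ := hsc 1 (fun _ => h10c) (fun e' => absurd e' (Ne.symm h01))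
    set C := e 0 * c * e 1 with hC
    have hy01 : ∀ k, C * σ k - σ k * C + (t * (z0 - z1)) • (y k : Matrix (Fin r) (Fin r) ℂ) = 0 := by
      intro k
      have h1 := hab 0 1 k
      rw [(hsucc 1 k).2, if_pos rfl, (hsucc 0 k).1, if_pos rfl] at h1
      have p1 : e 0 * c * (y k : Matrix (Fin r) (Fin r) ℂ) =
          z0 • (y k : Matrix (Fin r) (Fin r) ℂ) := by
        have hy0 : e 0 * (y k : Matrix (Fin r) (Fin r) ℂ) = y k := by
          rw [(hsucc 0 k).1, if_pos rfl]
        calc e 0 * c * (y k : Matrix (Fin r) (Fin r) ℂ)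
            = e 0 * c * (e 0 * (y k : Matrix (Fin r) (Fin r) ℂ)) := by rw [hy0]
          _ = z0 • (y k : Matrix (Fin r) (Fin r) ℂ) := by
              rw [← mul_assoc, hz0, Matrix.smul_mul, hy0]
      have p2 : (y k : Matrix (Fin r) (Fin r) ℂ) * (c * e 1) =
          z1 • (y k : Matrix (Fin r) (Fin r) ℂ) := by
        have hy1 : (y k : Matrix (Fin r) (Fin r) ℂ) * e 1 = y k := by
          rw [(hsucc 1 k).2, if_pos rfl]
        calc (y k : Matrix (Fin r) (Fin r) ℂ) * (c * e 1)
            = (y k : Matrix (Fin r) (Fin r) ℂ) * e 1 * (c * e 1) := by rw [hy1]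
          _ = z1 • (y k : Matrix (Fin r) (Fin r) ℂ) := by
              rw [mul_assoc, ← mul_assoc (e 1), hz1, Matrix.mul_smul, hy1]
      rwa [p1, p2, ← sub_smul, smul_smul] at h1
    have hCV : C ∈ V := by
      rw [mem_cornerSub, hC]
      simp only [e0, e1, mul_assoc, h.idem]
      simp only [← mul_assoc, h.idem]
    have hz : z0 = z1 := by
      by_contra hne
      have hs : t * (z0 - z1) ≠ 0 := mul_ne_zero ht (sub_ne_zero.2 hne)
      refine hyc ((-(t * (z0 - z1))⁻¹) • C) (V.smul_mem _ hCV) fun k => ?_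
      show ((-(t * (z0 - z1))⁻¹) • C) * σ k - σ k * ((-(t * (z0 - z1))⁻¹) • C) = _
      rw [Matrix.smul_mul, Matrix.mul_smul, ← smul_sub, eq_neg_of_add_eq_zero_left (hy01 k),
        smul_neg, neg_smul, neg_neg, smul_smul, inv_mul_cancel₀ hs, one_smul]
    have hC0 : C = 0 := by
      have := hcross C (fun k => by
        have := hy01 k
        rwa [hz, sub_self, mul_zero, zero_smul, add_zero, sub_eq_zero] at this) 0 1 h01
      rw [← this, hC]
      simp only [mul_assoc, h.idem]
      simp only [← mul_assoc, h.idem]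
    refine ⟨z0, ?_⟩
    simp only [hf0, e0, e1, add_mul, mul_add, hz0, hz1, h10c, ← hC, hC0, add_zero, zero_add,
      smul_add, hz]
  · exact hsc _ (fun e' => absurd e' (Ne.symm (n1 i))) (fun e' => absurd e' (Ne.symm (n0 i)))

/-- Joining two pieces: a representation near a split one with one piece fewer. -/
theorem exists_merge {N : ℕ} (hg : 2 ≤ g) {σ : Tup g r ℂ} (hσ : IsRep σ)
    {e : Fin (N + 2) → Matrix (Fin r) (Fin r) ℂ} (h : IsBricks σ e)
    (hcross : ∀ c, (∀ k, c * σ k = σ k * c) → ∀ i j, i ≠ j → e i * c * e j = 0) :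
    ∃ Y : Tup g r ℂ, ∀ t : ℂ, t ≠ 0 → IsRep (σ + t • Y) ∧
      ∃ f : Fin (N + 1) → Matrix (Fin r) (Fin r) ℂ, IsBricks (σ + t • Y) f := by
  classical
  have h01 : (0 : Fin (N + 2)) ≠ 1 := by simp [Fin.ext_iff]
  set e0 := e 0
  set e1 := e 1
  have i0 : e0 * e0 = e0 := h.idem 0
  have i1 : e1 * e1 = e1 := h.idem 1
  have o10 : e1 * e0 = 0 := h.orth 1 0 (Ne.symm h01)
  set V := cornerSub e0 e1
  let ι : (Fin g × Bool → V) →ₗ[ℂ] Tup g r ℂ :=
    LinearMap.pi fun k => V.subtype.comp (LinearMap.proj k)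
  have hι : ∀ y k, ι y k = (y k : Matrix (Fin r) (Fin r) ℂ) := fun y k => rfl
  have hadd : ∀ (y : Fin g × Bool → V) (t : ℂ) k,
      (σ + t • ι y) k = σ k + t • (y k : Matrix (Fin r) (Fin r) ℂ) := fun y t k => rfl
  have hdet : ∀ y t k, ((σ + t • ι y) k).det = 1 := fun y t k => by
    rw [hadd]
    exact (det_add_corner i0 i1 o10 (hσ.1 k) (h.comm 0 k) (h.comm 1 k) (y k).2 t).1
  -- the relation is affine along the corner
  have haff : ∀ y, ∃ Q ∈ V, (∀ t : ℂ, rel adjugate (σ + t • ι y) = 1 + t • Q) ∧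
      (fderiv ℂ Requ σ (ι y)).2 = Q := by
    intro y
    have hlin : ∀ k, Aff e0 e1 fun t => (σ + t • ι y) k := fun k =>
      ⟨σ k, y k, h.comm 0 k, h.comm 1 k, (y k).2, fun t => hadd y t k⟩
    have hadj : ∀ k, Aff e0 e1 fun t => adjugate ((σ + t • ι y) k) := fun k =>
      ⟨adjugate (σ k), -(adjugate (σ k) * y k * adjugate (σ k)),
        commute_adj (hσ.1 k) (h.comm 0 k), commute_adj (hσ.1 k) (h.comm 1 k),
        Submodule.neg_mem _ (mul_corner i0 i1
          (mul_corner i0 i1 (y k).2 (commute_adj (hσ.1 k) (h.comm 0 k))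
            (commute_adj (hσ.1 k) (h.comm 1 k))).1
          (commute_adj (hσ.1 k) (h.comm 0 k)) (commute_adj (hσ.1 k) (h.comm 1 k))).2,
        fun t => by
          show adjugate ((σ + t • ι y) k) = _
          rw [hadd]
          exact (det_add_corner i0 i1 o10 (hσ.1 k) (h.comm 0 k) (h.comm 1 k) (y k).2 t).2⟩
    have hlist : ∀ l : List (Fin g), Aff e0 e1 fun t => (l.map fun i =>
        cm adjugate ((σ + t • ι y) (i, false)) ((σ + t • ι y) (i, true))).prod := by
      intro l
      induction l with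
      | nil => exact ⟨1, 0, by simp, by simp, V.zero_mem, fun t => by simp⟩
      | cons i l ih =>
        simp only [List.map_cons, List.prod_cons]
        exact aff_mul i0 i1 o10 (aff_mul i0 i1 o10 (aff_mul i0 i1 o10 (aff_mul i0 i1 o10
          (hlin (i, false)) (hlin (i, true))) (hadj (i, false))) (hadj (i, true))) ih
    obtain ⟨P, Q, -, -, hQ, hPQ⟩ := hlist (List.finRange g)
    have hrel : ∀ t : ℂ, rel adjugate (σ + t • ι y) = P + t • Q := fun t => by
      rw [← hPQ t]
      show _ = ((List.finRange g).map fun i =>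
        cm adjugate ((σ + t • ι y) (i, false)) ((σ + t • ι y) (i, true))).prod
      rw [← List.ofFn_eq_map]; rfl
    have hP : P = 1 := by
      have := hrel 0
      rw [zero_smul, add_zero, zero_smul, add_zero, hσ.2] at this
      exact this.symm
    subst hP
    refine ⟨Q, hQ, hrel, ?_⟩
    have h0 : σ = (fun s : ℂ => σ + s • ι y) 0 := by simp
    have hR := ((contDiff_Requ (r := r) (g := g)).differentiable one_ne_zero
      σ).hasFDerivAt.comp_hasDerivAt_of_eq (0 : ℂ) (hasDerivAt_line σ (ι y)) h0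
    have hR2 : HasDerivAt (fun s : ℂ => rel adjugate (σ + s • ι y)) (fderiv ℂ Requ σ (ι y)).2 0 :=
      (ContinuousLinearMap.snd ℂ (Fin g × Bool → ℂ)
        (Matrix (Fin r) (Fin r) ℂ)).hasFDerivAt.comp_hasDerivAt (0 : ℂ) hR
    rw [funext hrel] at hR2
    exact hR2.unique (hasDerivAt_line 1 Q)
  let D : (Fin g × Bool → V) →ₗ[ℂ] V := LinearMap.codRestrict V
    ((LinearMap.snd ℂ _ _).comp ((fderiv ℂ Requ σ).toLinearMap.comp ι)) fun y => by
      obtain ⟨Q, hQ, -, he⟩ := haff y
      show (fderiv ℂ Requ σ (ι y)).2 ∈ V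
      rw [he]; exact hQ
  let cb : V →ₗ[ℂ] (Fin g × Bool → V) := LinearMap.pi fun k => LinearMap.codRestrict V
    ((LinearMap.mulRight ℂ (σ k) - LinearMap.mulLeft ℂ (σ k)).comp V.subtype) fun X => by
      exact Submodule.sub_mem _ (mul_corner i0 i1 X.2 (h.comm 0 k) (h.comm 1 k)).2
        (mul_corner i0 i1 X.2 (h.comm 0 k) (h.comm 1 k)).1
  have hm : 0 < Module.finrank ℂ V := by
    have hex : ∀ i : Fin (N + 2), ∃ a b, e i a b ≠ 0 := fun i => by
      by_contra hno
      push Not at hno
      exact h.ne i (Matrix.ext hno)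
    obtain ⟨a, c, hac⟩ := hex 0
    obtain ⟨b, d, hbd⟩ := hex 1
    have hX : e0 * (Matrix.single c b (1 : ℂ) * e1) ∈ V := by
      rw [mem_cornerSub, mul_assoc e0, mul_assoc, i1, ← mul_assoc, i0]
    refine Module.finrank_pos_iff_exists_ne_zero.2 ⟨⟨_, hX⟩, fun hz => ?_⟩
    have hz' : (e0 * (Matrix.single c b (1 : ℂ) * e1) : Matrix (Fin r) (Fin r) ℂ) a d = 0 := by
      rw [show e0 * (Matrix.single c b 1 * e1) = 0 from congrArg Subtype.val hz]; rfl
    rw [Matrix.mul_apply, Finset.sum_eq_single c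
      (fun x _ hx => by simp [Matrix.mul_apply, Matrix.single_apply, Ne.symm hx])
      (fun h' => absurd (Finset.mem_univ c) h')] at hz'
    rw [Matrix.single_mul_apply_same, one_mul] at hz'
    exact mul_ne_zero hac hbd hz'
  obtain ⟨y, hyD, hyc⟩ : ∃ y ∈ LinearMap.ker D, y ∉ LinearMap.range cb := by
    by_contra hno
    push Not at hno
    have h1 := Submodule.finrank_mono (show LinearMap.ker D ≤ LinearMap.range cb from hno)
    have h2 := LinearMap.finrank_range_add_finrank_ker D
    have h3 := LinearMap.finrank_range_le cb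
    have h4 := Submodule.finrank_le (LinearMap.range D)
    rw [Module.finrank_pi_fintype, Finset.sum_const, Finset.card_univ, Fintype.card_prod,
      Fintype.card_fin, Fintype.card_bool, smul_eq_mul] at h2
    have : 4 * Module.finrank ℂ V ≤ g * 2 * Module.finrank ℂ V :=
      Nat.mul_le_mul_right _ (by omega)
    omega
  refine ⟨ι y, fun t ht => ⟨⟨hdet y t, ?_⟩, ?_⟩⟩
  · obtain ⟨Q, -, hrel, he⟩ := haff y
    have h0 : (fderiv ℂ Requ σ (ι y)).2 = 0 := congrArg Subtype.val (LinearMap.mem_ker.1 hyD)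
    rw [hrel, ← he, h0, smul_zero, add_zero]
  exact isBricks_merge h hcross y (fun X hX hk => hyc ⟨⟨X, hX⟩, funext fun k => Subtype.ext (hk k)⟩)
    ht

/-- Every representation cut into pieces with scalar commutant is in the closure of the integral
ones. -/
theorem inV_of_bricks (hg : 2 ≤ g) (hr : 2 ≤ r) : ∀ (N : ℕ) {σ : Tup g r ℂ}
    {e : Fin N → Matrix (Fin r) (Fin r) ℂ}, IsRep σ → IsBricks σ e → InV σ
  | 0, σ, e, _, h => by
    have h1 := congrArg Matrix.trace h.sum
    rw [Finset.univ_eq_empty, Finset.sum_empty, trace_zero, trace_one, Fintype.card_fin] at h1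
    exact absurd (Nat.cast_eq_zero.1 h1.symm) (by omega)
  | 1, σ, e, hσ, h => by
    refine inV_of_schur hg hr hσ fun c hc => ?_
    obtain ⟨z, hz⟩ := h.corner c hc 0
    have h1 : e 0 = 1 := by simpa [Fin.sum_univ_one] using h.sum
    exact ⟨z, by simpa [h1] using hz⟩
  | N + 2, σ, e, hσ, h => by
    let μ : Fin (N + 2) → ℂ := fun i =>
      ((i : ℕ) : ℂ) * r - ∑ j : Fin (N + 2), ((j : ℕ) : ℂ) * trace (e j)
    have htr : ∑ j, trace (e j) = (r : ℂ) := by
      rw [← trace_sum, h.sum, trace_one, Fintype.card_fin]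
    have hμ : ∑ i, μ i * trace (e i) = 0 := by
      simp only [μ, sub_mul, Finset.sum_sub_distrib, ← Finset.mul_sum, htr]
      rw [Finset.sum_mul, ← Finset.sum_sub_distrib]
      exact Finset.sum_eq_zero fun i _ => by ring
    have hinj : Function.Injective μ := fun i j hij => by
      have h1 : ((i : ℕ) : ℂ) * r = ((j : ℕ) : ℂ) * r := sub_left_injective hij
      exact Fin.ext (by exact_mod_cast
        mul_right_cancel₀ (Nat.cast_ne_zero.2 (by omega : r ≠ 0)) h1)
    let i₀ : Fin g := ⟨0, by omega⟩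
    refine inV_of_eventually (F := twC σ i₀ e μ) ?_ ?_ ?_
    · refine continuousAt_pi.2 fun k => ?_
      simp only [twC, Function.update_apply]
      split_ifs
      · exact continuousAt_const.mul (hasDerivAt_zc (e := e) (μ := μ)).continuousAt
      · exact continuousAt_const
    · rw [twC, zc_zero h, mul_one, Function.update_eq_self]
    filter_upwards [eventually_cross_zero hσ.1 h hinj i₀] with t ht
    have hσ' := isRep_twC hσ h hμ i₀ t
    obtain ⟨Y, hY⟩ := exists_merge hg hσ' (isBricks_twC h i₀ t) ht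
    refine inV_of_eventually (F := fun s => twC σ i₀ e μ t + s • Y)
      (continuous_const.add (continuous_id.smul continuous_const)).continuousAt (by simp) ?_
    refine eventually_nhdsWithin_of_forall fun s hs => ?_
    obtain ⟨h1, f, hf⟩ := hY s hs
    exact inV_of_bricks hg hr (N + 1) h1 hf

/-- Semisimple: invariant subspaces have invariant complements. -/
def IsSemisimpleRep (σ : Tup g r ℂ) : Prop :=
  ∀ U : Submodule ℂ (Fin r → ℂ), (∀ k, ∀ x ∈ U, σ k *ᵥ x ∈ U) →
    ∃ V : Submodule ℂ (Fin r → ℂ), (∀ k, ∀ x ∈ V, σ k *ᵥ x ∈ V) ∧ IsCompl U V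

theorem card_le_of_orth {N : ℕ} {e : Fin N → Matrix (Fin r) (Fin r) ℂ}
    (idem : ∀ i, e i * e i = e i) (orth : ∀ i j, i ≠ j → e i * e j = 0) (ne : ∀ i, e i ≠ 0) :
    N ≤ r := by
  have hx : ∀ i, ∃ x, e i *ᵥ x ≠ 0 := fun i => by
    by_contra hno
    push Not at hno
    exact ne i (Matrix.toLin'.injective (LinearMap.ext fun x => by simpa using hno x))
  choose x hx using hx
  have hli : LinearIndependent ℂ fun i => e i *ᵥ x i := by
    refine Fintype.linearIndependent_iff.2 fun c hc j => ?_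
    have h1 := congrArg (fun v => e j *ᵥ v) hc
    simp only [mulVec_sum, mulVec_smul, mulVec_mulVec, mulVec_zero] at h1
    rw [Finset.sum_eq_single j (fun i _ hi => by rw [orth j i (Ne.symm hi), zero_mulVec, smul_zero])
      (fun h' => absurd (Finset.mem_univ j) h'), idem] at h1
    exact (smul_eq_zero.1 h1).resolve_right (hx j)
  simpa using hli.fintype_card_le_finrank

theorem exists_bricks (hr : r ≠ 0) {σ : Tup g r ℂ} (hs : IsSemisimpleRep σ) :
    ∃ (N : ℕ) (e : Fin N → Matrix (Fin r) (Fin r) ℂ), IsBricks σ e := by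
  classical
  let P : ℕ → Prop := fun N => ∃ e : Fin N → Matrix (Fin r) (Fin r) ℂ, (∀ i, e i * e i = e i) ∧
    (∀ i j, i ≠ j → e i * e j = 0) ∧ (∑ i, e i = 1) ∧ (∀ i, e i ≠ 0) ∧
    ∀ i k, e i * σ k = σ k * e i
  have hP1 : P 1 := by
    have : Nonempty (Fin r) := ⟨⟨0, Nat.pos_of_ne_zero hr⟩⟩
    exact ⟨fun _ => 1, fun _ => one_mul 1, fun i j h => absurd (Subsingleton.elim i j) h, by simp,
      fun _ => one_ne_zero, fun _ k => by simp⟩
  obtain ⟨N, ⟨e, idem, orth, sum, ne, comm⟩, hmax⟩ : ∃ N, P N ∧ ¬ P (N + 1) := by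
    by_contra hno
    push Not at hno
    have hall : ∀ n, P (n + 1) := fun n => by
      induction n with
      | zero => exact hP1
      | succ n ih => exact hno _ ih
    obtain ⟨e, idem, orth, -, ne, -⟩ := hall r
    have := card_le_of_orth idem orth ne
    omega
  refine ⟨N, e, idem, orth, sum, ne, comm, fun c hc i => ?_⟩
  by_contra hno
  push Not at hno
  apply hmax
  set C := e i * c * e i with hC
  have hCk : ∀ k, C * σ k = σ k * C := fun k => by
    rw [hC, mul_assoc (e i * c), comm i k, ← mul_assoc, mul_assoc (e i) c, hc k, ← mul_assoc,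
      comm i k]
    simp only [mul_assoc]
  have hCe : C * e i = C := by rw [hC, mul_assoc, idem]
  have heC : e i * C = C := by rw [hC, ← mul_assoc, ← mul_assoc, idem]
  let Ei : Submodule ℂ (Fin r → ℂ) := LinearMap.range (Matrix.toLin' (e i))
  have hEi : ∀ x, x ∈ Ei ↔ e i *ᵥ x = x := fun x => by
    constructor
    · rintro ⟨w, rfl⟩
      simp [mulVec_mulVec, idem]
    · exact fun hx => ⟨x, by simpa using hx⟩
  have hCE : ∀ x ∈ Ei, Matrix.toLin' C x ∈ Ei := fun x _ => by
    rw [hEi, Matrix.toLin'_apply, mulVec_mulVec, heC]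
  have hEne : Nontrivial Ei := by
    refine Submodule.nontrivial_iff_ne_bot.2 fun hb => ne i ?_
    exact Matrix.toLin'.injective (by rw [map_zero]; exact LinearMap.range_eq_bot.1 hb)
  obtain ⟨z, hz⟩ := Module.End.exists_eigenvalue ((Matrix.toLin' C).restrict hCE)
  obtain ⟨⟨x, hx⟩, hxz, hx0⟩ := hz.exists_hasEigenvector
  have hxz' : C *ᵥ x = z • x := by
    simpa using congrArg Subtype.val (Module.End.mem_eigenspace_iff.1 hxz)
  let K : Submodule ℂ (Fin r → ℂ) := Ei ⊓ LinearMap.ker (Matrix.toLin' (C - z • e i))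
  have hK : ∀ w, w ∈ K ↔ e i *ᵥ w = w ∧ C *ᵥ w = z • (e i *ᵥ w) := fun w => by
    simp [K, hEi, sub_mulVec, smul_mulVec, sub_eq_zero]
  obtain ⟨V, hVinv, hcompl⟩ := hs K fun k w hw => by
    rw [hK] at hw ⊢
    constructor
    · rw [mulVec_mulVec, comm, ← mulVec_mulVec, hw.1]
    · rw [mulVec_mulVec, hCk, ← mulVec_mulVec, hw.2, mulVec_mulVec (M := e i), comm, ← mulVec_mulVec,
        mulVec_smul]
  let pr : (Fin r → ℂ) →ₗ[ℂ] (Fin r → ℂ) :=
    K.subtype.comp (K.projectionOnto V hcompl)
  have hprK : ∀ w, pr w ∈ K := fun w => Submodule.coe_mem _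
  have hpr1 : ∀ w ∈ K, pr w = w := fun w hw => by
    simpa [pr] using congrArg Subtype.val
      (Submodule.projectionOnto_apply_left hcompl ⟨w, hw⟩)
  have hpr2 : ∀ w ∈ V, pr w = 0 := fun w hw => by
    simpa [pr] using congrArg Subtype.val
      (Submodule.projectionOnto_apply_right hcompl ⟨w, hw⟩)
  set p := LinearMap.toMatrix' pr
  have hp : ∀ w, p *ᵥ w = pr w := fun w => by
    rw [← Matrix.toLin'_apply, Matrix.toLin'_toMatrix']
  have hpk : ∀ k, p * σ k = σ k * p := fun k => by
    apply Matrix.toLin'.injective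
    refine LinearMap.ext fun w => ?_
    obtain ⟨w1, hw1, w2, hw2, rfl⟩ : ∃ w1 ∈ K, ∃ w2 ∈ V, w1 + w2 = w :=
      Submodule.mem_sup.1 (by rw [hcompl.sup_eq_top]; trivial)
    have hk1 : σ k *ᵥ w1 ∈ K := by
      rw [hK] at hw1 ⊢
      constructor
      · rw [mulVec_mulVec, comm, ← mulVec_mulVec, hw1.1]
      · rw [mulVec_mulVec, hCk, ← mulVec_mulVec, hw1.2, mulVec_mulVec (M := e i), comm, ← mulVec_mulVec,
          mulVec_smul]
    simp [Matrix.toLin'_apply, ← mulVec_mulVec, hp, mulVec_add, hpr1 _ hw1, hpr2 _ hw2,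
      hpr1 _ hk1, hpr2 _ (hVinv k w2 hw2)]
  have hep : e i * p = p := Matrix.toLin'.injective (LinearMap.ext fun w => by
    simp [Matrix.toLin'_apply, ← mulVec_mulVec, hp, ((hK _).1 (hprK w)).1])
  have hpp : p * p = p := Matrix.toLin'.injective (LinearMap.ext fun w => by
    simp [Matrix.toLin'_apply, ← mulVec_mulVec, hp, hpr1 _ (hprK w)])
  set f := p * e i with hf
  have hxi : e i *ᵥ x = x := (hEi x).1 hx
  have hfx : f *ᵥ x = x := by
    rw [hf, ← mulVec_mulVec, hxi, hp]
    exact hpr1 x ((hK x).2 ⟨hxi, by rw [hxi]; exact hxz'⟩)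
  have hff : f * f = f := by
    rw [hf, mul_assoc p, ← mul_assoc (e i), hep, ← mul_assoc, hpp]
  have hef : e i * f = f := by rw [hf, ← mul_assoc, hep]
  have hfe : f * e i = f := by rw [hf, mul_assoc, idem]
  have hfk : ∀ k, f * σ k = σ k * f := fun k => by
    rw [hf, mul_assoc, comm i k, ← mul_assoc, hpk, mul_assoc]
  have hf0 : f ≠ 0 := fun h0 => hx0 (Subtype.ext (by simpa [h0] using hfx.symm))
  have hfne : e i - f ≠ 0 := fun h0 => hno z <| by
    apply Matrix.toLin'.injective
    refine LinearMap.ext fun w => ?_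
    have hw : e i *ᵥ w ∈ K := by
      rw [sub_eq_zero.1 h0, hf, ← mulVec_mulVec, hp]; exact hprK _
    have := ((hK _).1 hw).2
    rw [mulVec_mulVec, mulVec_mulVec, hCe, idem] at this
    simpa [Matrix.toLin'_apply, smul_mulVec] using this
  let e' : Fin (N + 1) → Matrix (Fin r) (Fin r) ℂ :=
    Fin.cons f (Function.update e i (e i - f))
  have horth : ∀ j, f * Function.update e i (e i - f) j = 0 ∧
      Function.update e i (e i - f) j * f = 0 := fun j => by
    by_cases hj : j = i
    · subst hj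
      rw [Function.update_self, mul_sub, sub_mul, hfe, hef, hff, sub_self]
      exact ⟨rfl, rfl⟩
    · rw [Function.update_of_ne hj]
      constructor
      · rw [← hfe, mul_assoc, orth i j (Ne.symm hj), mul_zero]
      · rw [← hef, ← mul_assoc, orth j i hj, zero_mul]
  refine ⟨e', fun j => ?_, fun j j' hjj => ?_, ?_, fun j => ?_, fun j k => ?_⟩
  · refine Fin.cases ?_ (fun j => ?_) j
    · exact hff
    · simp only [e', Fin.cons_succ, Function.update_apply]
      split_ifs with hj
      · rw [mul_sub, sub_mul, sub_mul, idem, hef, hfe, hff, sub_self, sub_zero]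
      · exact idem j
  · revert hjj
    refine Fin.cases ?_ (fun j => ?_) j <;> refine Fin.cases ?_ (fun j' => ?_) j' <;> intro hjj
    · exact absurd rfl hjj
    · exact (horth j').1
    · exact (horth j).2
    · have hne : j ≠ j' := fun e' => hjj (by rw [e'])
      simp only [e', Fin.cons_succ, Function.update_apply]
      split_ifs with h1 h2 h2
      · exact absurd (h1.trans h2.symm) hne
      · rw [sub_mul, orth i j' (Ne.symm h2), ← hfe, mul_assoc, orth i j' (Ne.symm h2), mul_zero,
          sub_zero]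
      · rw [mul_sub, orth j i h1, ← hef, ← mul_assoc, orth j i h1, zero_mul, sub_zero]
      · exact orth j j' hne
  · simp only [e', Fin.sum_univ_succ, Fin.cons_zero, Fin.cons_succ]
    rw [Finset.sum_update_of_mem (Finset.mem_univ i), ← add_assoc, add_sub_cancel,
      ← Finset.erase_eq, Finset.add_sum_erase _ _ (Finset.mem_univ i), sum]
  · refine Fin.cases ?_ (fun j => ?_) j
    · exact hf0
    · simp only [e', Fin.cons_succ, Function.update_apply]
      split_ifs with hj
      · exact hfne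
      · exact ne j
  · refine Fin.cases ?_ (fun j => ?_) j
    · exact hfk k
    · simp only [e', Fin.cons_succ, Function.update_apply]
      split_ifs with hj
      · rw [sub_mul, mul_sub, comm, hfk]
      · exact comm j k

/-- Every semisimple representation is in the closure of the integral representations. -/
theorem inV_of_semisimple (hg : 2 ≤ g) (hr : 2 ≤ r) {σ : Tup g r ℂ} (hσ : IsRep σ)
    (hs : IsSemisimpleRep σ) : InV σ := by
  obtain ⟨N, e, he⟩ := exists_bricks (by omega) hs
  exact inV_of_bricks hg hr N hσ he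

end Vale.Agent.P002
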