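import Vale.Agent.P002.Indep

/-!
# P002: the linear algebra behind the transversality of twists and slides
-/

namespace Vale.Agent.P002

open Matrix

variable {r g : ℕ}

/-- The traceless part. -/
noncomputable def tl (X : Matrix (Fin r) (Fin r) ℂ) : Matrix (Fin r) (Fin r) ℂ :=
  X - (trace X / (r : ℂ)) • 1

theorem trace_tl (hr : r ≠ 0) (X : Matrix (Fin r) (Fin r) ℂ) : trace (tl X) = 0 := by
  simp [tl, trace_sub, trace_smul, trace_one, Nat.cast_ne_zero.2 hr]

/-- `A` has spectrum `l`, with eigenvector matrix `S` of inverse `S'`. -/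
def Spec (A : Matrix (Fin r) (Fin r) ℂ) (l : Fin r → ℂ) (S S' : Matrix (Fin r) (Fin r) ℂ) : Prop :=
  S * S' = 1 ∧ A = S * diagonal l * S'

theorem conj_pow {S S' : Matrix (Fin r) (Fin r) ℂ} (h : S * S' = 1)
    (X : Matrix (Fin r) (Fin r) ℂ) : ∀ k : ℕ, (S * X * S') ^ k = S * X ^ k * S'
  | 0 => by simp [h]
  | k + 1 => by
    have h' : S' * S = 1 := mul_eq_one_comm.1 h
    rw [pow_succ, conj_pow h X k, pow_succ]
    simp only [mul_assoc]
    rw [← mul_assoc S' S, h', one_mul]

theorem conj_mul {S S' : Matrix (Fin r) (Fin r) ℂ} (h : S * S' = 1)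
    (X Y : Matrix (Fin r) (Fin r) ℂ) : (S * X * S') * (S * Y * S') = S * (X * Y) * S' := by
  have h' : S' * S = 1 := mul_eq_one_comm.1 h
  simp only [mul_assoc]
  rw [← mul_assoc S' S, h', one_mul]

theorem Spec.adjugate_eq {A : Matrix (Fin r) (Fin r) ℂ} {l : Fin r → ℂ}
    {S S' : Matrix (Fin r) (Fin r) ℂ} (hA : Spec A l S S') (hl : ∏ a, l a = 1)
    (h0 : ∀ a, l a ≠ 0) :
    A.det = 1 ∧ adjugate A = S * diagonal (fun a => (l a)⁻¹) * S' ∧ A * adjugate A = 1 ∧
      adjugate A * A = 1 := by
  have hd : A.det = 1 := by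
    rw [hA.2, det_mul, det_mul, det_diagonal, hl, mul_one, ← det_mul, hA.1, det_one]
  have h1 : A * adjugate A = 1 := by rw [mul_adjugate, hd, one_smul]
  refine ⟨hd, ?_, h1, by rw [adjugate_mul, hd, one_smul]⟩
  have h2 : A * (S * diagonal (fun a => (l a)⁻¹) * S') = 1 := by
    rw [hA.2, conj_mul hA.1, diagonal_mul_diagonal]
    simp [h0, hA.1]
  exact (inv_eq_right_inv h1).symm.trans (inv_eq_right_inv h2)

/-- A functional orthogonal to the powers of `A` is a coboundary for conjugation by `A`. -/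
theorem exists_coboundary {A : Matrix (Fin r) (Fin r) ℂ} {l : Fin r → ℂ}
    {S S' : Matrix (Fin r) (Fin r) ℂ} (hA : Spec A l S S') (hl : ∏ a, l a = 1)
    (h0 : ∀ a, l a ≠ 0) (hinj : Function.Injective l) {z : Matrix (Fin r) (Fin r) ℂ}
    (hz : ∀ k : ℕ, trace (z * A ^ k) = 0) : ∃ u, z = adjugate A * u * A - u := by
  have h' : S' * S = 1 := mul_eq_one_comm.1 hA.1
  have hdiag : ∀ a, (S' * z * S) a a = 0 := by
    have hk : ∀ k : ℕ, ∑ a, (S' * z * S) a a * l a ^ k = 0 := by
      intro k
      have e1 : trace ((S' * z * S) * diagonal (fun a => l a ^ k)) = 0 := by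
        have := hz k
        rw [hA.2, conj_pow hA.1, diagonal_pow, ← mul_assoc, trace_mul_comm] at this
        simp only [← mul_assoc] at this
        simpa [Pi.pow_def] using this
      simpa [trace, mul_diagonal] using e1
    exact fun a => congrFun (Matrix.eq_zero_of_forall_pow_sum_mul_pow_eq_zero
      (f := l) (v := fun a => (S' * z * S) a a) hinj fun i => hk i) a
  obtain ⟨-, hadj, -, -⟩ := hA.adjugate_eq hl h0
  let w : Matrix (Fin r) (Fin r) ℂ := Matrix.of fun a b =>
    if a = b then 0 else (S' * z * S) a b / ((l a)⁻¹ * l b - 1)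
  refine ⟨S * w * S', ?_⟩
  have e : diagonal (fun a => (l a)⁻¹) * w * diagonal l - w = S' * z * S := by
    ext a b
    rw [Matrix.sub_apply, mul_diagonal, diagonal_mul]
    by_cases hab : a = b
    · subst hab; simp [w, hdiag]
    · have hne : (l a)⁻¹ * l b - 1 ≠ 0 := by
        rw [sub_ne_zero, inv_mul_eq_div, ne_eq, div_eq_one_iff_eq (h0 a)]
        exact fun h => hab (hinj h).symm
      simp only [w, of_apply, hab, if_false]
      linear_combination div_mul_cancel₀ ((S' * z * S) a b) hne
  calc z = S * (S' * z * S) * S' := by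
        simp only [mul_assoc, hA.1, mul_one]
        rw [← mul_assoc, hA.1, one_mul]
    _ = _ := by
        rw [← e, mul_sub, sub_mul, hadj, hA.2, conj_mul hA.1, conj_mul hA.1]

/-- Conditions on a matrix in the eigenframe of a partner. -/
def Good (A : Matrix (Fin r) (Fin r) ℂ) : Prop :=
  (∀ a b, a ≠ b → A a b ≠ 0) ∧
    ∀ a b c, a ≠ b → a ≠ c → b ≠ c → A a b * A b c * A c a - A a c * A c b * A b a ≠ 0

theorem trace_shift (A d v : Matrix (Fin r) (Fin r) ℂ) (k : ℕ) :
    trace (v * ((A * d) ^ (k + 1) - (d * A) ^ (k + 1))) =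
      trace ((v * A - A * v) * (d * (A * d) ^ k)) := by
  have e1 : (A * d) ^ (k + 1) = A * (d * (A * d) ^ k) := by rw [pow_succ', mul_assoc]
  have e2 : (d * A) ^ (k + 1) = d * (A * d) ^ k * A := by
    clear e1
    induction k with
    | zero => simp
    | succ k ih => rw [pow_succ, ih, pow_succ (A * d) k]; simp only [mul_assoc]
  rw [e1, e2, mul_sub, trace_sub, sub_mul, trace_sub, ← mul_assoc v A,
    ← mul_assoc v (d * (A * d) ^ k) A, trace_mul_comm (v * _) A, ← mul_assoc A v]

theorem pair_poly {A v : Matrix (Fin r) (Fin r) ℂ} (hr : r ≠ 0) {c : Fin r → ℂ} (hc : Indep c)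
    (k : ℕ)
    (h : ∀ m : ℕ, trace (v * ((A * diagonal c ^ m) ^ k - (diagonal c ^ m * A) ^ k)) = 0)
    (d : Fin r → ℂ) : trace (v * ((A * diagonal d) ^ k - (diagonal d * A) ^ k)) = 0 := by
  let P := MvPolynomial (Fin r) ℂ
  let A' : Matrix (Fin r) (Fin r) P := (MvPolynomial.C : ℂ →+* P).mapMatrix A
  let v' : Matrix (Fin r) (Fin r) P := (MvPolynomial.C : ℂ →+* P).mapMatrix v
  let D' : Matrix (Fin r) (Fin r) P := diagonal MvPolynomial.X
  let p : P := trace (v' * ((A' * D') ^ k - (D' * A') ^ k))
  have hev : ∀ x : Fin r → ℂ, MvPolynomial.eval x p =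
      trace (v * ((A * diagonal x) ^ k - (diagonal x * A) ^ k)) := by
    intro x
    have hM : ∀ M : Matrix (Fin r) (Fin r) ℂ,
        (MvPolynomial.eval x).mapMatrix ((MvPolynomial.C : ℂ →+* P).mapMatrix M) = M := by
      intro M; ext a b; simp [P]
    have hD : (MvPolynomial.eval x).mapMatrix D' = diagonal x := by
      ext a b; by_cases hab : a = b
      · subst hab; simp [D', P]
      · simp [D', hab, P]
    rw [show MvPolynomial.eval x p = trace ((MvPolynomial.eval x).mapMatrix
      (v' * ((A' * D') ^ k - (D' * A') ^ k))) from AddMonoidHom.map_trace (MvPolynomial.eval x) _]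
    simp only [map_mul, map_sub, map_pow, A', v', hM, hD]
  suffices p = 0 by rw [← hev, this, map_zero]
  have hp1 : ∀ y : Fin r → ℂ, ∏ a, y a = 1 → MvPolynomial.eval y p = 0 := by
    intro y hy
    refine eval_eq_zero_of_pow (w := c) (fun n => ?_) (fun m _ m' _ he => hc m m' he) hy
    rw [hev, ← h n, diagonal_pow]
    rfl
  have hp2 : ∀ x : Fin r → ℂ, MvPolynomial.eval x (p * ∏ a, MvPolynomial.X a) = 0 := by
    intro x
    rw [map_mul, map_prod]
    simp only [MvPolynomial.eval_X]
    by_cases hx : ∏ a, x a = 0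
    · rw [hx, mul_zero]
    · obtain ⟨t, ht⟩ := IsAlgClosed.exists_pow_nat_eq (∏ a, x a) (Nat.pos_of_ne_zero hr)
      have ht0 : t ≠ 0 := by
        intro e; rw [e, zero_pow hr] at ht; exact hx ht.symm
      have hy : ∏ a, (t⁻¹ * x a) = 1 := by
        rw [Finset.prod_mul_distrib, Finset.prod_const, Finset.card_univ, Fintype.card_fin,
          inv_pow, ht, inv_mul_cancel₀ hx]
      have hy0 := hp1 _ hy
      rw [hev] at hy0
      have hx' : diagonal x = t • diagonal (fun a => t⁻¹ * x a) := by
        ext a b; by_cases hab : a = b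
        · subst hab; simp [ht0]
        · simp [hab]
      rw [hev, hx', Matrix.mul_smul, Matrix.smul_mul, smul_pow, smul_pow, ← smul_sub,
        Matrix.mul_smul, trace_smul, hy0, smul_zero, zero_mul]
  have : p * ∏ a, MvPolynomial.X a = 0 := MvPolynomial.funext fun x => by simp [hp2 x]
  rcases mul_eq_zero.1 this with h0 | h0
  · exact h0
  · exact absurd h0 (Finset.prod_ne_zero_iff.2 fun a _ => MvPolynomial.X_ne_zero a)

/-- The indicator of a finite set of indices. -/
noncomputable def ind (s : Finset (Fin r)) : Fin r → ℂ := fun a => if a ∈ s then 1 else 0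

theorem sum_ind (s : Finset (Fin r)) (f : Fin r → ℂ) :
    ∑ a, ind s a * f a = ∑ a ∈ s, f a := by
  simp [ind, Finset.sum_ite_mem]

theorem trace_ind0 (M : Matrix (Fin r) (Fin r) ℂ) (s : Finset (Fin r)) :
    trace (M * diagonal (ind s)) = ∑ a ∈ s, M a a := by
  rw [← sum_ind]; simp [trace, mul_diagonal, mul_comm]

theorem trace_ind1 (M A : Matrix (Fin r) (Fin r) ℂ) (s : Finset (Fin r)) :
    trace (M * (diagonal (ind s) * (A * diagonal (ind s)))) =
      ∑ a ∈ s, ∑ b ∈ s, M a b * A b a := by
  rw [← sum_ind s (fun a => ∑ b ∈ s, M a b * A b a)]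
  simp only [trace, diag_apply, Matrix.mul_apply, diagonal_apply, mul_ite, mul_zero, ite_mul,
    zero_mul, Finset.sum_ite_eq, Finset.sum_ite_eq', Finset.mem_univ, if_true]
  refine Finset.sum_congr rfl fun a _ => ?_
  rw [← sum_ind s (fun b => M a b * A b a), Finset.mul_sum]
  exact Finset.sum_congr rfl fun b _ => by ring

theorem trace_ind2 (M A : Matrix (Fin r) (Fin r) ℂ) (s : Finset (Fin r)) :
    trace (M * (diagonal (ind s) * (A * diagonal (ind s)) ^ 2)) =
      ∑ a ∈ s, ∑ b ∈ s, ∑ c ∈ s, M a b * A b c * A c a := by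
  rw [← sum_ind s (fun a => ∑ b ∈ s, ∑ c ∈ s, M a b * A b c * A c a), pow_two]
  simp only [trace, diag_apply, Matrix.mul_apply, diagonal_apply, mul_ite, mul_zero, ite_mul,
    zero_mul, Finset.sum_ite_eq, Finset.sum_ite_eq', Finset.mem_univ, if_true]
  refine Finset.sum_congr rfl fun a _ => ?_
  rw [← sum_ind s (fun b => ∑ c ∈ s, M a b * A b c * A c a), Finset.mul_sum]
  refine Finset.sum_congr rfl fun b _ => ?_
  rw [← sum_ind s (fun c => M a b * A b c * A c a)]
  simp only [Finset.mul_sum]
  exact Finset.sum_congr rfl fun c _ => by ring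

/-- The pair lemma in the eigenframe of the partner. -/
theorem pair_frame {A v : Matrix (Fin r) (Fin r) ℂ} (hr : r ≠ 0) {c : Fin r → ℂ} (hc : Indep c)
    (hA : Good A)
    (h : ∀ m k : ℕ, trace (v * ((A * diagonal c ^ m) ^ k - (diagonal c ^ m * A) ^ k)) = 0) :
    ∃ e : Fin r → ℂ, (v - diagonal e) * A = A * (v - diagonal e) := by
  set M := v * A - A * v with hM
  have hd : ∀ (d : Fin r → ℂ) (k : ℕ),
      trace (M * (diagonal d * (A * diagonal d) ^ k)) = 0 := by
    intro d k
    rw [hM, ← trace_shift]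
    exact pair_poly hr hc (k + 1) (fun m => h m (k + 1)) d
  have h1 : ∀ a, M a a = 0 := by
    intro a
    have := hd (ind {a}) 0
    rwa [pow_zero, mul_one, trace_ind0, Finset.sum_singleton] at this
  have h2 : ∀ a b, a ≠ b → M a b * A b a + M b a * A a b = 0 := by
    intro a b hab
    have := hd (ind {a, b}) 1
    rw [pow_one, trace_ind1] at this
    simpa [hab, h1, Finset.sum_insert] using this
  let x : Fin r → Fin r → ℂ := fun a b => M a b / A a b
  have hx : ∀ a b, a ≠ b → M a b = x a b * A a b := fun a b hab => by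
    simp [x, hA.1 a b hab]
  have hx0 : ∀ a, x a a = 0 := fun a => by simp [x, h1]
  have hanti : ∀ a b, x a b + x b a = 0 := by
    intro a b
    by_cases hab : a = b
    · subst hab; simp [hx0]
    have := h2 a b hab
    rw [hx a b hab, hx b a (Ne.symm hab)] at this
    have e : (x a b + x b a) * (A a b * A b a) = 0 := by linear_combination this
    exact (mul_eq_zero.1 e).resolve_right (mul_ne_zero (hA.1 a b hab) (hA.1 b a (Ne.symm hab)))
  have h3 : ∀ a b c, a ≠ b → a ≠ c → b ≠ c → x a b + x b c + x c a = 0 := by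
    intro a b c hab hac hbc
    have := hd (ind {a, b, c}) 2
    rw [trace_ind2] at this
    simp [hab, hac, hbc, h1, Finset.sum_insert, hx a b hab, hx b a (Ne.symm hab), hx a c hac,
      hx c a (Ne.symm hac), hx b c hbc, hx c b (Ne.symm hbc)] at this
    have ab := hanti a b
    have bc := hanti b c
    have ca := hanti c a
    have e : (x a b + x b c + x c a) *
        (A a b * A b c * A c a - A a c * A c b * A b a) = 0 := by
      linear_combination this - (A a b * A b a * A a a + A a b * A b b * A b a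
        + A a c * A c b * A b a) * ab - (A b c * A c b * A b b + A b c * A c c * A c b
        + A a c * A c b * A b a) * bc - (A c a * A a c * A c c + A c a * A a a * A a c
        + A a c * A c b * A b a) * ca
    exact (mul_eq_zero.1 e).resolve_right (hA.2 a b c hab hac hbc)
  have a0 : Fin r := ⟨0, Nat.pos_of_ne_zero hr⟩
  refine ⟨fun a => x a a0, ?_⟩
  have hxx : ∀ a b, x a b = x a a0 - x b a0 := by
    intro a b
    by_cases hab : a = b
    · subst hab; simp [hx0]
    by_cases ha : a = a0
    · subst ha; linear_combination hanti a b - hx0 a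
    by_cases hb : b = a0
    · subst hb; linear_combination hx0 b
    linear_combination h3 a b a0 hab ha hb - hanti a0 a
  have hMe : M = diagonal (fun a => x a a0) * A - A * diagonal (fun a => x a a0) := by
    ext a b
    rw [Matrix.sub_apply, diagonal_mul, mul_diagonal]
    by_cases hab : a = b
    · subst hab; rw [h1]; ring
    · rw [hx a b hab, hxx a b]; ring
  rw [hM] at hMe
  rw [sub_mul, mul_sub, sub_eq_sub_iff_sub_eq_sub]
  exact hMe

/-- The pair lemma for a partner with spectrum `l`. -/
theorem pair_lemma {A C P P' v : Matrix (Fin r) (Fin r) ℂ} (hr : r ≠ 0) {l : Fin r → ℂ}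
    (hc : Indep l) (hC : Spec C l P P') (hA : Good (P' * A * P))
    (h : ∀ m k : ℕ, trace (v * ((A * C ^ m) ^ k - (C ^ m * A) ^ k)) = 0) :
    ∃ x y, v = x + y ∧ x * C = C * x ∧ y * A = A * y := by
  have h' : P' * P = 1 := mul_eq_one_comm.1 hC.1
  have hAA : A = P * (P' * A * P) * P' := by
    simp only [mul_assoc, hC.1, mul_one]
    rw [← mul_assoc, hC.1, one_mul]
  obtain ⟨e, he⟩ := pair_frame (v := P' * v * P) hr hc hA fun m k => by
    have := h m k
    rw [hC.2, conj_pow hC.1, hAA, conj_mul hC.1, conj_mul hC.1, conj_pow hC.1, conj_pow hC.1,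
      ← sub_mul, ← mul_sub, ← mul_assoc, trace_mul_comm] at this
    simpa only [← mul_assoc] using this
  refine ⟨P * diagonal e * P', v - P * diagonal e * P', by abel, ?_, ?_⟩
  · rw [hC.2, conj_mul hC.1, conj_mul hC.1, diagonal_mul_diagonal, diagonal_mul_diagonal]
    simp only [mul_comm]
  · have hv : v - P * diagonal e * P' = P * (P' * v * P - diagonal e) * P' := by
      rw [mul_sub, sub_mul]
      congr 1
      simp only [mul_assoc, hC.1, mul_one]
      rw [← mul_assoc, hC.1, one_mul]
    rw [hv, hAA, conj_mul hC.1, conj_mul hC.1, he]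

theorem commute_diagonal {l : Fin r → ℂ} (hl : Function.Injective l)
    {x : Matrix (Fin r) (Fin r) ℂ} (h : x * diagonal l = diagonal l * x) :
    x = diagonal fun a => x a a := by
  ext a b
  by_cases hab : a = b
  · subst hab; simp
  · have := congrFun (congrFun h a) b
    rw [mul_diagonal, diagonal_mul] at this
    have e : (l b - l a) * x a b = 0 := by linear_combination this
    simpa [hab] using
      (mul_eq_zero.1 e).resolve_left (sub_ne_zero.2 fun e' => hab (hl e').symm)

theorem commute_spec {A : Matrix (Fin r) (Fin r) ℂ} {l : Fin r → ℂ}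
    {S S' : Matrix (Fin r) (Fin r) ℂ} (hA : Spec A l S S') (hl : Function.Injective l)
    {x : Matrix (Fin r) (Fin r) ℂ} (h : x * A = A * x) :
    ∃ y : Fin r → ℂ, x = S * diagonal y * S' := by
  have hx : x = S * (S' * x * S) * S' := by
    simp only [mul_assoc, hA.1, mul_one]
    rw [← mul_assoc, hA.1, one_mul]
  have e : (S' * x * S) * diagonal l = diagonal l * (S' * x * S) := by
    have h' : S' * S = 1 := mul_eq_one_comm.1 hA.1
    have := congrArg (fun M => S' * M * S) h
    simp only [hA.2] at this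
    simp only [mul_assoc, h', mul_one] at this ⊢
    rwa [← mul_assoc S' S, h', one_mul] at this
  exact ⟨fun a => (S' * x * S) a a, hx.trans (by rw [← commute_diagonal hl e])⟩

/-- The tangent vector of a twist conjugated by a power of a slide. -/
noncomputable def Yvec (A : Fin g → Matrix (Fin r) (Fin r) ℂ) (i j : Fin g) (m k : ℕ) :
    Fin g → Matrix (Fin r) (Fin r) ℂ :=
  Pi.single i (A j ^ m * tl ((A i * A j ^ m) ^ k) * adjugate (A j) ^ m) +
    Pi.single j (∑ n ∈ Finset.range m, A j ^ n * tl ((A i * A j ^ m) ^ k) * adjugate (A j) ^ n)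

/-- The generic position data. -/
structure Pos (A : Fin g → Matrix (Fin r) (Fin r) ℂ) (l : Fin r → ℂ) (e L : Fin g)
    (S S' T T' : Matrix (Fin r) (Fin r) ℂ) : Prop where
  indep : Indep l
  prod_one : ∏ a, l a = 1
  ne_zero : ∀ a, l a ≠ 0
  lt : e < L
  le_e : ∀ i, i ≠ L → i ≤ e
  specL : A L = diagonal l
  specE : Spec (A e) l S S'
  specI : ∀ i, i ≠ e → i ≠ L → Spec (A i) l T T'
  goodE : Good (A e)
  goodI : ∀ i, i ≠ e → i ≠ L → Good (A i)
  goodIE : ∀ i, i ≠ e → i ≠ L → Good (S' * A i * S)
  split : ∀ x y z : Fin r → ℂ, diagonal x = S * diagonal y * S' + T * diagonal z * T' →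
    ∃ c : ℂ, x = fun _ => c

theorem Pos.spec {A : Fin g → Matrix (Fin r) (Fin r) ℂ} {l : Fin r → ℂ} {e L : Fin g}
    {S S' T T' : Matrix (Fin r) (Fin r) ℂ} (hP : Pos A l e L S S' T T') (i : Fin g) :
    ∃ W W', Spec (A i) l W W' := by
  by_cases hL : i = L
  · subst hL; exact ⟨1, 1, one_mul 1, by rw [hP.specL, one_mul, mul_one]⟩
  by_cases he : i = e
  · subst he; exact ⟨S, S', hP.specE⟩
  · exact ⟨T, T', hP.specI i he hL⟩

theorem conj_powers {C C' X : Matrix (Fin r) (Fin r) ℂ} (h : C' * C = 1)
    (u : Matrix (Fin r) (Fin r) ℂ) : ∀ m : ℕ,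
    ∑ n ∈ Finset.range m, trace ((C' * u * C - u) * (C ^ n * X * C' ^ n)) =
      trace (u * (C ^ m * X * C' ^ m - X))
  | 0 => by simp
  | m + 1 => by
    rw [Finset.sum_range_succ, conj_powers h u m]
    have e : trace ((C' * u * C) * (C ^ m * X * C' ^ m)) =
        trace (u * (C ^ (m + 1) * X * C' ^ (m + 1))) := by
      rw [pow_succ' C m, pow_succ C' m, mul_assoc C' u C, mul_assoc C', trace_mul_comm]
      simp only [mul_assoc]
    rw [sub_mul, trace_sub, e, mul_sub, mul_sub, trace_sub, trace_sub]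
    ring

theorem span_Yvec (hr : r ≠ 0) {A : Fin g → Matrix (Fin r) (Fin r) ℂ} {l : Fin r → ℂ}
    {e L : Fin g} {S S' T T' : Matrix (Fin r) (Fin r) ℂ} (hP : Pos A l e L S S' T T')
    {Y : Fin g → Matrix (Fin r) (Fin r) ℂ} (htr : ∀ i, trace (Y i) = 0)
    (hsum : ∑ i, (A i * Y i * adjugate (A i) - Y i) = 0) :
    Y ∈ Submodule.span ℂ {v | ∃ i j m k, (i < j ∨ m = 0) ∧ v = Yvec A i j m k} := by
  by_contra hY
  obtain ⟨f, hf0, hfs⟩ := Submodule.exists_dual_map_eq_bot_of_notMem hY inferInstance
  have hfv : ∀ i j m k, (i < j ∨ m = 0) → f (Yvec A i j m k) = 0 := by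
    intro i j m k h
    have : f (Yvec A i j m k) ∈ Submodule.map f
        (Submodule.span ℂ {v | ∃ i j m k, (i < j ∨ m = 0) ∧ v = Yvec A i j m k}) :=
      Submodule.mem_map_of_mem (Submodule.subset_span ⟨i, j, m, k, h, rfl⟩)
    rwa [hfs, Submodule.mem_bot] at this
  let zr : Fin g → Matrix (Fin r) (Fin r) ℂ := fun i => Matrix.of fun a b =>
    f (Pi.single i (Matrix.single b a 1))
  have hfr : ∀ i X, f (Pi.single i X) = trace (zr i * X) := by
    intro i X
    conv_lhs => rw [Matrix.matrix_eq_sum_single X]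
    simp only [← LinearMap.single_apply ℂ (fun _ : Fin g => Matrix (Fin r) (Fin r) ℂ), map_sum]
    simp only [trace, diag_apply, Matrix.mul_apply]
    rw [Finset.sum_comm]
    refine Finset.sum_congr rfl fun a _ => Finset.sum_congr rfl fun b _ => ?_
    rw [show Matrix.single b a (X b a) = X b a • Matrix.single b a (1 : ℂ) by simp, map_smul,
      map_smul]
    simp [zr, mul_comm]
  let z : Fin g → Matrix (Fin r) (Fin r) ℂ := fun i => tl (zr i)
  have htz : ∀ i X, trace X = 0 → trace (zr i * X) = trace (z i * X) := by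
    intro i X hX
    simp [z, tl, sub_mul, trace_sub, hX]
  have hzt : ∀ i X, trace (z i * tl X) = trace (z i * X) := by
    intro i X
    simp [tl, mul_sub, trace_sub, z, trace_one, Nat.cast_ne_zero.2 hr]
  have hinj := hP.indep.injective
  have hadj : ∀ i, A i * adjugate (A i) = 1 ∧ adjugate (A i) * A i = 1 := fun i => by
    obtain ⟨W, W', hW⟩ := hP.spec i
    exact (hW.adjugate_eq hP.prod_one hP.ne_zero).2.2
  have hz0 : ∀ i, ∃ u, z i = adjugate (A i) * u * A i - u := by
    intro i
    obtain ⟨W, W', hW⟩ := hP.spec i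
    refine exists_coboundary hW hP.prod_one hP.ne_zero hinj fun k => ?_
    have := hfv i i 0 k (Or.inr rfl)
    simp only [Yvec, pow_zero, one_mul, mul_one, Finset.range_zero, Finset.sum_empty,
      Pi.single_zero, add_zero] at this
    rwa [hfr, htz _ _ (trace_tl hr _), hzt] at this
  choose u0 hu0 using hz0
  have hpair : ∀ u : Fin g → Matrix (Fin r) (Fin r) ℂ,
      (∀ i, z i = adjugate (A i) * u i * A i - u i) → ∀ i j, i < j → ∀ m k : ℕ,
      trace ((u j - u i) * ((A i * A j ^ m) ^ k - (A j ^ m * A i) ^ k)) = 0 := by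
    intro u hu i j hij m k
    have hne : i ≠ j := ne_of_lt hij
    have h0 := hfv i j m k (Or.inl hij)
    rw [Yvec, map_add, hfr, hfr] at h0
    set X := tl ((A i * A j ^ m) ^ k) with hX
    have hC := hadj j
    have hCm : ∀ n : ℕ, adjugate (A j) ^ n * A j ^ n = 1 ∧ A j ^ n * adjugate (A j) ^ n = 1 := by
      intro n
      have hc : Commute (A j) (adjugate (A j)) := hC.1.trans hC.2.symm
      rw [← hc.symm.mul_pow, ← hc.mul_pow, hC.1, hC.2, one_pow]
      exact ⟨rfl, rfl⟩
    have htY : ∀ n : ℕ, trace (A j ^ n * X * adjugate (A j) ^ n) = 0 := by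
      intro n
      rw [trace_mul_comm, ← mul_assoc, (hCm n).1, one_mul, hX, trace_tl hr]
    rw [htz _ _ (htY m), htz _ _ (by
      rw [trace_sum]; exact Finset.sum_eq_zero fun n _ => htY n), hu i, hu j,
      Finset.mul_sum, trace_sum, conj_powers hC.2] at h0
    have e1 : A j ^ m * X * adjugate (A j) ^ m = tl ((A j ^ m * A i) ^ k) := by
      have e : A j ^ m * (A i * A j ^ m) ^ k * adjugate (A j) ^ m = (A j ^ m * A i) ^ k := by
        have hs : SemiconjBy (A j ^ m) (A i * A j ^ m) (A j ^ m * A i) := by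
          simp [SemiconjBy, mul_assoc]
        rw [(hs.pow_right k).eq, mul_assoc, (hCm m).2, mul_one]
      rw [hX, tl, mul_sub, sub_mul, e, Matrix.mul_smul, Matrix.smul_mul, mul_one, (hCm m).2, tl]
      congr 2
      rw [← e, trace_mul_comm (A j ^ m * _), ← mul_assoc, (hCm m).1, one_mul]
    have e2 : trace ((adjugate (A i) * u i * A i) * tl ((A j ^ m * A i) ^ k)) =
        trace (u i * tl ((A i * A j ^ m) ^ k)) := by
      have hs : SemiconjBy (A i) (A j ^ m * A i) (A i * A j ^ m) := by
        simp [SemiconjBy, mul_assoc]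
      have e : A i * tl ((A j ^ m * A i) ^ k) * adjugate (A i) = tl ((A i * A j ^ m) ^ k) := by
        have e' : A i * (A j ^ m * A i) ^ k * adjugate (A i) = (A i * A j ^ m) ^ k := by
          rw [(hs.pow_right k).eq, mul_assoc, (hadj i).1, mul_one]
        rw [tl, mul_sub, sub_mul, e', Matrix.mul_smul, Matrix.smul_mul, mul_one, (hadj i).1, tl]
        congr 2
        rw [← e', trace_mul_comm (A i * _), ← mul_assoc, (hadj i).2, one_mul]
      rw [← e, mul_assoc (adjugate (A i)), mul_assoc (adjugate (A i)), trace_mul_comm]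
      simp only [mul_assoc]
    rw [e1, sub_mul, trace_sub, e2] at h0
    simp only [mul_sub, trace_sub, sub_mul, hX] at h0 ⊢
    have lin : ∀ w : Matrix (Fin r) (Fin r) ℂ,
        trace (w * tl ((A i * A j ^ m) ^ k)) - trace (w * tl ((A j ^ m * A i) ^ k)) =
          trace (w * (A i * A j ^ m) ^ k) - trace (w * (A j ^ m * A i) ^ k) := by
      intro w
      have ht : trace ((A i * A j ^ m) ^ k) = trace ((A j ^ m * A i) ^ k) := by
        have hs : SemiconjBy (A i) (A j ^ m * A i) (A i * A j ^ m) := by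
          simp [SemiconjBy, mul_assoc]
        have e' : A i * (A j ^ m * A i) ^ k * adjugate (A i) = (A i * A j ^ m) ^ k := by
          rw [(hs.pow_right k).eq, mul_assoc, (hadj i).1, mul_one]
        rw [← e', trace_mul_comm (A i * _), ← mul_assoc, (hadj i).2, one_mul]
      simp [tl, mul_sub, trace_sub, ht]
    linear_combination -h0 - lin (u j) + lin (u i)
  have hcomm : ∀ i (w u : Matrix (Fin r) (Fin r) ℂ), w * A i = A i * w →
      adjugate (A i) * (u + w) * A i - (u + w) = adjugate (A i) * u * A i - u := by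
    intro i w u h
    have : adjugate (A i) * w * A i = w := by
      rw [mul_assoc, h, ← mul_assoc, (hadj i).2, one_mul]
    rw [mul_add, add_mul, this]
    abel
  have hDL : Spec (A L) l 1 1 := ⟨one_mul 1, by rw [hP.specL, one_mul, mul_one]⟩
  have hgood : ∀ i, i ≠ L → Good (1 * A i * 1) := by
    intro i hi
    rw [one_mul, mul_one]
    by_cases he : i = e
    · subst he; exact hP.goodE
    · exact hP.goodI i he hi
  have hsplit : ∀ i, i ≠ L → ∃ x y : Matrix (Fin r) (Fin r) ℂ,
      u0 L - u0 i = x + y ∧ x * A L = A L * x ∧ y * A i = A i * y := fun i hi =>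
    pair_lemma hr hP.indep hDL (hgood i hi)
      (hpair u0 hu0 i L ((hP.le_e i hi).trans_lt hP.lt))
  choose xd yd hxy hxd hyd using hsplit
  have hxdiag : ∀ i hi, ∃ d : Fin r → ℂ, xd i hi = diagonal d := fun i hi => by
    obtain ⟨y, hy⟩ := commute_spec hDL hinj (hxd i hi)
    exact ⟨y, by rwa [one_mul, mul_one] at hy⟩
  choose hd hhd using hxdiag
  let u1 : Fin g → Matrix (Fin r) (Fin r) ℂ := fun i =>
    if hi : i = L then u0 L else u0 L - diagonal (hd i hi)
  have hu1 : ∀ i, z i = adjugate (A i) * u1 i * A i - u1 i := by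
    intro i
    simp only [u1]
    by_cases hi : i = L
    · rw [dif_pos hi]; subst hi; exact hu0 i
    · rw [dif_neg hi, show u0 L - diagonal (hd i hi) = u0 i + yd i hi by
        rw [← hhd i hi]; linear_combination (norm := abel) hxy i hi,
        hcomm i _ _ (hyd i hi)]
      exact hu0 i
  have hLe : e ≠ L := ne_of_lt hP.lt
  let u := u0 L - diagonal (hd e hLe)
  have hu : ∀ i, z i = adjugate (A i) * u * A i - u := by
    intro i
    by_cases hi : i = L
    · subst hi
      rw [hu0 i, show u = u0 i + -diagonal (hd e hLe) from sub_eq_add_neg _ _, hcomm]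
      rw [neg_mul, mul_neg, hP.specL, diagonal_mul_diagonal, diagonal_mul_diagonal]
      simp only [mul_comm]
    by_cases he : i = e
    · subst he
      have := hu1 i
      simp only [u1, dif_neg hi] at this
      exact this
    have hlt : i < e := lt_of_le_of_ne (hP.le_e i hi) he
    obtain ⟨x, y, hv, hx, hy⟩ := pair_lemma hr hP.indep hP.specE (hP.goodIE i he hi)
      (hpair u1 hu1 i e hlt)
    obtain ⟨py, hpy⟩ := commute_spec hP.specE hinj hx
    obtain ⟨pz, hpz⟩ := commute_spec (hP.specI i he hi) hinj hy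
    simp only [u1, dif_neg hi, dif_neg hLe] at hv
    obtain ⟨c, hc⟩ := hP.split (hd i hi - hd e hLe) py pz (by
      rw [← hpy, ← hpz, ← hv, show diagonal (hd i hi - hd e hLe) =
        diagonal (hd i hi) - diagonal (hd e hLe) from (diagonal_sub _ _).symm]
      abel)
    have := hu1 i
    simp only [u1, dif_neg hi] at this
    rw [this, show u = u0 L - diagonal (hd i hi) + diagonal (fun _ => c) by
      rw [← hc, show diagonal (hd i hi - hd e hLe) =
        diagonal (hd i hi) - diagonal (hd e hLe) from (diagonal_sub _ _).symm]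
      simp only [u]; abel, hcomm]
    rw [show diagonal (fun _ => c) = c • (1 : Matrix (Fin r) (Fin r) ℂ) from
      (smul_one_eq_diagonal c).symm]
    simp
  clear_value u
  apply hf0
  calc f Y = ∑ i, trace (z i * Y i) := by
        conv_lhs => rw [← Finset.univ_sum_single Y, map_sum]
        exact Finset.sum_congr rfl fun i _ => by rw [hfr, htz _ _ (htr i)]
    _ = trace (u * ∑ i, (A i * Y i * adjugate (A i) - Y i)) := by
        rw [Finset.mul_sum, trace_sum]
        refine Finset.sum_congr rfl fun i _ => ?_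
        rw [hu i, sub_mul, mul_sub, trace_sub, trace_sub, mul_assoc (adjugate (A i)),
          mul_assoc (adjugate (A i)), trace_mul_comm]
        simp only [mul_assoc]
    _ = 0 := by rw [hsum, mul_zero, trace_zero]

end Vale.Agent.P002
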