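import Vale.Agent.P002.Lagr
import Vale.Agent.P002.Kernel

/-!
# P002: first-order calculus of the twists and slides at a tuple `(A, 1)`
-/

namespace Vale.Agent.P002

open Matrix Filter Topology
open scoped Matrix.Norms.Operator

variable {r g : ℕ}

/-- Evaluation of an entry. -/
noncomputable def entryCLM (a b : Fin r) : Matrix (Fin r) (Fin r) ℂ →L[ℂ] ℂ :=
  LinearMap.toContinuousLinearMap (Matrix.entryLinearMap ℂ ℂ a b)

theorem entryCLM_apply (a b : Fin r) (M : Matrix (Fin r) (Fin r) ℂ) :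
    entryCLM a b M = M a b := rfl

theorem contDiff_entry (a b : Fin r) :
    ContDiff ℂ 1 fun M : Matrix (Fin r) (Fin r) ℂ => M a b :=
  (entryCLM a b).contDiff

theorem contDiff_matrix {E : Type*} [NormedAddCommGroup E] [NormedSpace ℂ E]
    {F : E → Matrix (Fin r) (Fin r) ℂ} (h : ∀ a b, ContDiff ℂ 1 fun x => F x a b) :
    ContDiff ℂ 1 F := by
  have e : F = fun x => ∑ a, ∑ b, F x a b • Matrix.single a b (1 : ℂ) := by
    funext x
    conv_lhs => rw [Matrix.matrix_eq_sum_single (F x)]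
    simp
  rw [e]
  exact ContDiff.sum fun a _ => ContDiff.sum fun b _ => (h a b).smul contDiff_const

theorem contDiff_det : ContDiff ℂ 1 fun M : Matrix (Fin r) (Fin r) ℂ => M.det := by
  simp only [Matrix.det_apply]
  exact ContDiff.sum fun s _ => (contDiff_prod fun a _ => contDiff_entry _ _).const_smul _

theorem contDiff_adjugate : ContDiff ℂ 1 (adjugate : Matrix (Fin r) (Fin r) ℂ → _) := by
  refine contDiff_matrix fun a b => ?_
  simp only [adjugate_apply]
  refine contDiff_det.comp (contDiff_matrix fun i j => ?_)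
  simp only [Matrix.updateRow_apply]
  split_ifs
  · exact contDiff_const
  · exact contDiff_entry i j

theorem hasDerivAt_det_line {x v : Matrix (Fin r) (Fin r) ℂ} (hx : x.det = 1) :
    HasDerivAt (fun s : ℂ => (x + s • v).det) (trace (adjugate x * v)) 0 := by
  have e : (fun s : ℂ => (x + s • v).det) = fun s => 1 + trace (adjugate x * v) * s +
      ((1 : Matrix (Fin r) (Fin r) (Polynomial ℂ)) +
        (Polynomial.X : Polynomial ℂ) • (adjugate x * v).map Polynomial.C).det.divX.divX.eval s *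
          s ^ 2 := by
    funext s
    rw [← Matrix.det_one_add_smul]
    have : x + s • v = x * (1 + s • (adjugate x * v)) := by
      rw [mul_add, mul_one, Matrix.mul_smul, ← mul_assoc, mul_adjugate, hx, one_smul, one_mul]
    rw [this, det_mul, hx, one_mul]
  rw [e]
  have h2 := ((Polynomial.hasDerivAt _ (0 : ℂ)).mul (hasDerivAt_pow 2 (0 : ℂ)) :
    HasDerivAt (fun s => ((1 : Matrix (Fin r) (Fin r) (Polynomial ℂ)) +
        (Polynomial.X : Polynomial ℂ) • (adjugate x * v).map Polynomial.C).det.divX.divX.eval s *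
          s ^ 2) _ _)
  exact ((((hasDerivAt_id (0 : ℂ)).const_mul (trace (adjugate x * v))).const_add 1).add
    h2).congr_deriv (by simp)

theorem hasDerivAt_det {γ : ℂ → Matrix (Fin r) (Fin r) ℂ} {x v : Matrix (Fin r) (Fin r) ℂ}
    (h0 : γ 0 = x) (hx : x.det = 1) (hγ : HasDerivAt γ v 0) :
    HasDerivAt (fun s => (γ s).det) (trace (adjugate x * v)) 0 := by
  have hF := ((contDiff_det (r := r)).differentiable one_ne_zero x).hasFDerivAt
  have hl : HasDerivAt (fun s : ℂ => x + s • v) v 0 := by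
    exact (((hasDerivAt_id (0 : ℂ)).smul_const v).const_add x).congr_deriv (one_smul _ _)
  have e0 : (fun s : ℂ => x + s • v) 0 = x := by simp
  have h1 := hF.comp_hasDerivAt_of_eq (0 : ℂ) hl e0.symm
  have h2 := hF.comp_hasDerivAt_of_eq (0 : ℂ) hγ h0.symm
  exact h2.congr_deriv ((hasDerivAt_det_line hx).unique h1).symm

/-- A curve through `x ∈ SL` with right logarithmic derivative `Y` at `0`. -/
structure Dif (γ : ℂ → Matrix (Fin r) (Fin r) ℂ) (x Y : Matrix (Fin r) (Fin r) ℂ) : Prop where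
  at0 : γ 0 = x
  det : x.det = 1
  tr : trace Y = 0
  der : HasDerivAt γ (Y * x) 0

theorem mul_adj_cancel {x : Matrix (Fin r) (Fin r) ℂ} (hx : x.det = 1) :
    x * adjugate x = 1 ∧ adjugate x * x = 1 := by
  rw [mul_adjugate, adjugate_mul, hx, one_smul]; exact ⟨rfl, rfl⟩

theorem trace_conj {x : Matrix (Fin r) (Fin r) ℂ} (hx : x.det = 1)
    (Y : Matrix (Fin r) (Fin r) ℂ) :
    trace (x * Y * adjugate x) = trace Y ∧ trace (adjugate x * Y * x) = trace Y := by
  constructor
  · rw [trace_mul_comm, ← mul_assoc, (mul_adj_cancel hx).2, one_mul]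
  · rw [trace_mul_comm, ← mul_assoc, (mul_adj_cancel hx).1, one_mul]

theorem Dif.mul {γ δ : ℂ → Matrix (Fin r) (Fin r) ℂ} {x y Y Z : Matrix (Fin r) (Fin r) ℂ}
    (h : Dif γ x Y) (h' : Dif δ y Z) :
    Dif (fun s => γ s * δ s) (x * y) (Y + x * Z * adjugate x) := by
  refine ⟨by rw [h.at0, h'.at0], by rw [det_mul, h.det, h'.det, mul_one], ?_, ?_⟩
  · rw [trace_add, (trace_conj h.det Z).1, h.tr, h'.tr, add_zero]
  · have := h.der.mul h'.der
    rw [h.at0, h'.at0] at this
    refine this.congr_deriv ?_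
    simp only [add_mul, mul_assoc]
    rw [← mul_assoc (adjugate x) x, (mul_adj_cancel h.det).2, one_mul]

theorem Dif.adj {γ : ℂ → Matrix (Fin r) (Fin r) ℂ} {x Y : Matrix (Fin r) (Fin r) ℂ}
    (h : Dif γ x Y) : Dif (fun s => adjugate (γ s)) (adjugate x) (-(adjugate x * Y * x)) := by
  refine ⟨by rw [h.at0], by rw [det_adjugate, h.det, one_pow], ?_, ?_⟩
  · rw [trace_neg, (trace_conj h.det Y).2, h.tr, neg_zero]
  · have hd := ((contDiff_adjugate (r := r)).differentiable one_ne_zero x).hasFDerivAt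
    obtain ⟨w, h1⟩ : ∃ w, HasDerivAt (fun s => adjugate (γ s)) w 0 :=
      ⟨_, hd.comp_hasDerivAt_of_eq (0 : ℂ) h.der h.at0.symm⟩
    have h2 := h.der.mul h1
    have h3 : HasDerivAt (fun s => γ s * adjugate (γ s)) (0 : Matrix (Fin r) (Fin r) ℂ) 0 := by
      simp only [mul_adjugate]
      have := (hasDerivAt_det h.at0 h.det h.der).smul_const (1 : Matrix (Fin r) (Fin r) ℂ)
      rw [← mul_assoc, (trace_conj h.det Y).2, h.tr, zero_smul] at this
      exact this
    have h4 := h2.unique h3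
    rw [h.at0] at h4
    refine h1.congr_deriv ?_
    obtain ⟨e1, e2⟩ := mul_adj_cancel h.det
    rw [mul_assoc, e1, mul_one, add_eq_zero_iff_eq_neg] at h4
    rw [neg_mul, mul_assoc (adjugate x * Y), e1, mul_one, h4, mul_neg, neg_neg, ← mul_assoc, e2,
      one_mul]

theorem Dif.const {x : Matrix (Fin r) (Fin r) ℂ} (hx : x.det = 1) : Dif (fun _ => x) x 0 :=
  ⟨rfl, hx, trace_zero _ _, by rw [zero_mul]; exact hasDerivAt_const (0 : ℂ) x⟩

theorem Dif.cm {a b : ℂ → Matrix (Fin r) (Fin r) ℂ} {A Ya Yb : Matrix (Fin r) (Fin r) ℂ}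
    (ha : Dif a A Ya) (hb : Dif b 1 Yb) :
    Dif (fun s => cm adjugate (a s) (b s)) 1 (A * Yb * adjugate A - Yb) := by
  have h := ((ha.mul hb).mul ha.adj).mul hb.adj
  obtain ⟨e1, e2⟩ := mul_adj_cancel ha.det
  simp only [Vale.Agent.P002.cm]
  convert h using 1
  · rw [mul_one, e1, one_mul, adjugate_one]
  · simp only [mul_one, adjugate_one, one_mul, e1, mul_neg, neg_mul, mul_assoc, ← sub_eq_add_neg]
    rw [← mul_assoc A (adjugate A), e1, one_mul]
    abel

theorem Dif.list_prod : ∀ {n : ℕ} {γ : Fin n → ℂ → Matrix (Fin r) (Fin r) ℂ}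
    {Y : Fin n → Matrix (Fin r) (Fin r) ℂ}, (∀ k, Dif (γ k) 1 (Y k)) →
    Dif (fun s => (List.ofFn fun k => γ k s).prod) 1 (∑ k, Y k)
  | 0, γ, Y, _ => by simpa using Dif.const (det_one (R := ℂ) (n := Fin r))
  | n + 1, γ, Y, h => by
    have := (h 0).mul (Dif.list_prod fun k : Fin n => h k.succ)
    simpa [List.ofFn_succ, Fin.sum_univ_succ] using this

theorem Dif.exists_list_prod : ∀ (l : List (ℂ → Matrix (Fin r) (Fin r) ℂ)),
    (∀ γ ∈ l, ∃ Y, Dif γ 1 Y) → ∃ Y, Dif (fun s => (l.map fun γ => γ s).prod) 1 Y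
  | [], _ => ⟨0, by simpa using Dif.const (det_one (R := ℂ) (n := Fin r))⟩
  | γ :: l, h => by
    obtain ⟨Y, hY⟩ := h γ (by simp)
    obtain ⟨Z, hZ⟩ := Dif.exists_list_prod l fun δ hδ => h δ (by simp [hδ])
    exact ⟨_, by simpa using hY.mul hZ⟩

/-- A curve of tuples through `(A, 1)` whose `b`-derivatives are `Y`. -/
def DifT (γ : ℂ → Tup g r ℂ) (A Y : Fin g → Matrix (Fin r) (Fin r) ℂ) : Prop :=
  ∀ i, (∃ Ya, Dif (fun s => γ s (i, false)) (A i) Ya) ∧ Dif (fun s => γ s (i, true)) 1 (Y i)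

theorem DifT.rel {γ : ℂ → Tup g r ℂ} {A Y : Fin g → Matrix (Fin r) (Fin r) ℂ}
    (h : DifT γ A Y) :
    Dif (fun s => rel adjugate (γ s)) 1 (∑ i, (A i * Y i * adjugate (A i) - Y i)) := by
  refine Dif.list_prod fun i => ?_
  obtain ⟨⟨Ya, ha⟩, hb⟩ := h i
  exact ha.cm hb

theorem DifT.mid {γ : ℂ → Tup g r ℂ} {A Y : Fin g → Matrix (Fin r) (Fin r) ℂ}
    (h : DifT γ A Y) (i j : Fin g) : ∃ M, Dif (fun s => mid adjugate i j (γ s)) 1 M := by
  let l : List (ℂ → Matrix (Fin r) (Fin r) ℂ) :=
    ((List.ofFn fun k s => Vale.Agent.P002.cm adjugate (γ s (k, false)) (γ s (k, true))).take j).drop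
      (i.1 + 1)
  obtain ⟨M, hM⟩ := Dif.exists_list_prod l fun δ hδ => by
    obtain ⟨k, rfl⟩ := List.mem_ofFn.1 (List.mem_of_mem_take (List.mem_of_mem_drop hδ))
    obtain ⟨⟨Ya, ha⟩, hb⟩ := h k
    exact ⟨_, ha.cm hb⟩
  refine ⟨M, ?_⟩
  convert hM using 1
  funext s
  simp only [l, Vale.Agent.P002.mid, cmList, List.map_drop, List.map_take, List.map_ofFn, Function.comp_def]

theorem Dif.exists_congr {γ γ' : ℂ → Matrix (Fin r) (Fin r) ℂ}
    {x x' Y : Matrix (Fin r) (Fin r) ℂ} (h : Dif γ x Y) (e : γ' = γ) (e' : x' = x) :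
    ∃ Y', Dif γ' x' Y' :=
  ⟨Y, e ▸ e' ▸ h⟩

theorem Dif.conj_one {γ δ : ℂ → Matrix (Fin r) (Fin r) ℂ} {M Y : Matrix (Fin r) (Fin r) ℂ}
    (hM : Dif γ 1 M) (h : Dif δ 1 Y) : Dif (fun s => γ s * δ s * adjugate (γ s)) 1 Y ∧
      Dif (fun s => adjugate (γ s) * δ s * γ s) 1 Y := by
  constructor
  · simpa using (hM.mul h).mul hM.adj
  · simpa using (hM.adj.mul h).mul hM

theorem DifT.phi {γ : ℂ → Tup g r ℂ} {A Y : Fin g → Matrix (Fin r) (Fin r) ℂ}
    (h : DifT γ A Y) {i j : Fin g} (hij : i < j) :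
    DifT (fun s => phiM i j (γ s)) (Function.update A i (A i * adjugate (A j)))
      (Function.update (Function.update Y i (A j * Y i * adjugate (A j))) j (Y j + Y i)) := by
  have hne : j ≠ i := ne_of_gt hij
  obtain ⟨M, hM⟩ := h.mid i j
  obtain ⟨⟨Yai, hai⟩, hbi⟩ := h i
  obtain ⟨⟨Yaj, haj⟩, hbj⟩ := h j
  have hcj := (hM.mul haj).mul hM.adj
  have hdj := (hM.conj_one hbj).1
  rw [one_mul, adjugate_one, mul_one] at hcj
  intro k
  by_cases hk : k = i
  · subst hk
    refine ⟨?_, ?_⟩
    · have := hai.mul ((hbi.adj.mul hcj.adj).mul hbi)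
      exact Dif.exists_congr this (funext fun s => by simp [phiM, slide, phiQ, quadAt])
        (by simp [adjugate_one])
    · rw [Function.update_of_ne (Ne.symm hne), Function.update_self]
      have := ((((hbi.adj.mul hcj).mul hbi).mul hcj.adj).mul hbi)
      obtain ⟨e1, e2⟩ := mul_adj_cancel haj.det
      convert this using 1
      · funext s; simp [phiM, slide, phiQ, quadAt]
      · simp [adjugate_one, e1]
      · simp [adjugate_one, e1]
        simp only [mul_assoc, mul_add, add_mul, e1, mul_one]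
        simp only [← mul_assoc, e1, one_mul]
        abel
  by_cases hk' : k = j
  · subst hk'
    refine ⟨?_, ?_⟩
    · have := (hM.adj.mul ((hbi.adj.mul hcj).mul hbi)).mul hM
      rw [Function.update_of_ne hk]
      exact Dif.exists_congr this (funext fun s => by simp [phiM, slide, phiQ, quadAt, hk])
        (by simp [adjugate_one])
    · rw [Function.update_self]
      have hd2 : Dif (fun s => Vale.Agent.P002.mid adjugate i k (γ s) * γ s (k, true) *
          adjugate (Vale.Agent.P002.mid adjugate i k (γ s)) * γ s (i, true)) 1 (Y k + Y i) := by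
        simpa using hdj.mul hbi
      convert (hM.conj_one hd2).2 using 1
      funext s
      simp [phiM, slide, phiQ, quadAt, hk]
  · have hA : Function.update A i (A i * adjugate (A j)) k = A k := Function.update_of_ne hk _ _
    have hY : Function.update (Function.update Y i (A j * Y i * adjugate (A j))) j (Y j + Y i) k =
        Y k := by rw [Function.update_of_ne hk', Function.update_of_ne hk]
    rw [hA, hY]
    simpa [phiM, slide, hk, hk'] using h k

theorem DifT.phi_iterate {γ : ℂ → Tup g r ℂ} {A : Fin g → Matrix (Fin r) (Fin r) ℂ}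
    {i j : Fin g} (hij : i < j) {X : Matrix (Fin r) (Fin r) ℂ}
    (h : DifT γ A (Pi.single i X)) : ∀ m : ℕ,
    DifT (fun s => (phiM i j)^[m] (γ s)) (Function.update A i (A i * adjugate (A j) ^ m))
      (Pi.single i (A j ^ m * X * adjugate (A j) ^ m) +
        Pi.single j (∑ n ∈ Finset.range m, A j ^ n * X * adjugate (A j) ^ n))
  | 0 => by simpa using h
  | m + 1 => by
    have hne : j ≠ i := ne_of_gt hij
    have := (DifT.phi_iterate hij h m).phi hij
    simp only [Function.update_self, Function.update_of_ne hne, Function.update_idem, Pi.add_apply,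
      Pi.single_eq_same, Pi.single_eq_of_ne hne, Pi.single_eq_of_ne (Ne.symm hne), add_zero,
      zero_add] at this
    convert this using 1
    · funext s; rw [Function.iterate_succ']; rfl
    · rw [pow_succ, mul_assoc]
    · funext k
      by_cases hk : k = i
      · subst hk
        simp [hne, Ne.symm hne, pow_succ' (A j), pow_succ (adjugate (A j)), mul_assoc]
      by_cases hk' : k = j
      · subst hk'
        simp [hne, Finset.sum_range_succ]
      · simp [hk, hk']

theorem mid_lag {A : Fin g → Matrix (Fin r) (Fin r) ℂ} (hA : ∀ k, (A k).det = 1) (i j : Fin g) :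
    mid adjugate i j (lag A) = 1 := by
  refine List.prod_eq_one fun x hx => ?_
  obtain ⟨k, rfl⟩ := List.mem_ofFn.1 (List.mem_of_mem_take (List.mem_of_mem_drop hx))
  simp [cm, lag, adjugate_one, (mul_adj_cancel (hA k)).1]

theorem psiM_lag {A : Fin g → Matrix (Fin r) (Fin r) ℂ} (hA : ∀ k, (A k).det = 1) {i j : Fin g}
    (hij : i < j) : psiM i j (lag A) = lag (Function.update A i (A i * A j)) := by
  have hne : j ≠ i := ne_of_gt hij
  funext ⟨k, c⟩
  simp only [psiM, slide, quadAt, psiQ, mid_lag hA, lag, cond_false, cond_true, one_mul, mul_one,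
    adjugate_one, (mul_adj_cancel (hA j)).2]
  split_ifs with h1 h2
  · subst h1; cases c <;> simp
  · subst h2; cases c <;> simp [h1]
  · cases c <;> simp [h1]

theorem psiM_iterate_lag {A : Fin g → Matrix (Fin r) (Fin r) ℂ} (hA : ∀ k, (A k).det = 1)
    {i j : Fin g} (hij : i < j) :
    ∀ m : ℕ, (psiM i j)^[m] (lag A) = lag (Function.update A i (A i * A j ^ m))
  | 0 => by simp
  | m + 1 => by
    have hne : j ≠ i := ne_of_gt hij
    rw [Function.iterate_succ_apply', psiM_iterate_lag hA hij m, psiM_lag _ hij]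
    · simp [Function.update_of_ne hne, pow_succ, mul_assoc]
    · intro k
      by_cases hk : k = i
      · subst hk; simp [hA]
      · simp [hk, hA]

end Vale.Agent.P002
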