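import Vale.Agent.P002.Kernel

/-!
# P002: existence of a generic position
-/

namespace Vale.Agent.P002

open Matrix

variable {r g : ℕ}

/-- The product of all the expressions that `Good` requires to be nonzero. -/
noncomputable def goodProd {R : Type*} [CommRing R] (N : Matrix (Fin r) (Fin r) R) : R :=
  (∏ p : Fin r × Fin r with p.1 ≠ p.2, N p.1 p.2) *
    ∏ p : Fin r × Fin r × Fin r with p.1 ≠ p.2.1 ∧ p.1 ≠ p.2.2 ∧ p.2.1 ≠ p.2.2,
      (N p.1 p.2.1 * N p.2.1 p.2.2 * N p.2.2 p.1 - N p.1 p.2.2 * N p.2.2 p.2.1 * N p.2.1 p.1)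

theorem map_goodProd {R R' : Type*} [CommRing R] [CommRing R'] (φ : R →+* R')
    (N : Matrix (Fin r) (Fin r) R) : φ (goodProd N) = goodProd (φ.mapMatrix N) := by
  simp [goodProd, map_mul, map_prod, map_sub]

theorem good_of_goodProd {N : Matrix (Fin r) (Fin r) ℂ} (h : goodProd N ≠ 0) : Good N := by
  simp only [goodProd, mul_ne_zero_iff, Finset.prod_ne_zero_iff, Finset.mem_filter,
    Finset.mem_univ, true_and] at h
  exact ⟨fun a b hab => h.1 (a, b) hab, fun a b c h1 h2 h3 => h.2 (a, b, c) ⟨h1, h2, h3⟩⟩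

theorem Good.of_smul {N : Matrix (Fin r) (Fin r) ℂ} {c : ℂ} (hc : c ≠ 0) (h : Good (c • N)) :
    Good N := by
  refine ⟨fun a b hab e => h.1 a b hab (by simp [e]), fun a b d h1 h2 h3 e => h.2 a b d h1 h2 h3 ?_⟩
  simp only [Matrix.smul_apply, smul_eq_mul]
  linear_combination (c ^ 3) * e

/-- For each pair some conjugate of `diag l` has a nonzero entry there. -/
theorem witness_pair (l : Fin r → ℂ) (hl : Function.Injective l) {a b : Fin r} (hab : a ≠ b) :
    ∃ S S' : Matrix (Fin r) (Fin r) ℂ, S * S' = 1 ∧ (S * diagonal l * S') a b ≠ 0 := by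
  refine ⟨transvection a b 1, transvection a b (-1), ?_, ?_⟩
  · rw [transvection_mul_transvection_same a b hab]; simp [transvection]
  · rw [mul_transvection_apply_same a b a _ _, transvection_mul_apply_same a b b,
      transvection_mul_apply_same a b a]
    simp [hab, Ne.symm hab]
    exact fun e => hab (hl (by linear_combination -e))

/-- For each triple some conjugate of `diag l` has two different cycle products there. -/
theorem witness_triple (l : Fin r → ℂ) (hl : Function.Injective l) {a b c : Fin r}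
    (hab : a ≠ b) (hac : a ≠ c) (hbc : b ≠ c) :
    ∃ S S' : Matrix (Fin r) (Fin r) ℂ, S * S' = 1 ∧
      (S * diagonal l * S') a b * (S * diagonal l * S') b c * (S * diagonal l * S') c a -
        (S * diagonal l * S') a c * (S * diagonal l * S') c b * (S * diagonal l * S') b a ≠ 0 := by
  have hinv : ∀ i j : Fin r, i ≠ j →
      transvection i j (1 : ℂ) * transvection i j (-1) = 1 := fun i j h => by
    rw [transvection_mul_transvection_same i j h]; simp [transvection]
  refine ⟨transvection a b 1 * transvection b c 1 * transvection c a 1,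
    transvection c a (-1) * transvection b c (-1) * transvection a b (-1), ?_, ?_⟩
  · simp only [mul_assoc]
    rw [← mul_assoc (transvection c a (1 : ℂ)), hinv c a (Ne.symm hac), one_mul,
      ← mul_assoc (transvection b c (1 : ℂ)), hinv b c hbc, one_mul, hinv a b hab]
  · have hba := Ne.symm hab
    have hca := Ne.symm hac
    have hcb := Ne.symm hbc
    simp only [← mul_assoc]
    simp [mul_transvection_apply_same, mul_transvection_apply_of_ne, hab, hba, hac, hca, hbc, hcb,
      transvection_mul_apply_same, transvection_mul_apply_of_ne, diagonal_apply, mul_assoc,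
      transvection, Matrix.mul_apply, Matrix.single_apply, Matrix.one_apply, add_mul, mul_add,
      Finset.sum_add_distrib]
    intro e
    have h1 : (l c - l b) * (l a - l c) * (l b - l a) = 0 := by linear_combination e
    rcases mul_eq_zero.1 h1 with h2 | h2
    · rcases mul_eq_zero.1 h2 with h3 | h3
      · exact hcb (hl (sub_eq_zero.1 h3))
      · exact hac (hl (sub_eq_zero.1 h3))
    · exact hba (hl (sub_eq_zero.1 h2))

/-- The variables for the two conjugators. -/
abbrev GVar (r : ℕ) := Bool × Fin r × Fin r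

/-- A generic conjugator. -/
noncomputable def gmat (r : ℕ) (s : Bool) : Matrix (Fin r) (Fin r) (MvPolynomial (GVar r) ℂ) :=
  Matrix.of fun a b => MvPolynomial.X (s, a, b)

/-- The value of the two conjugators. -/
def gpoint (S T : Matrix (Fin r) (Fin r) ℂ) : GVar r → ℂ :=
  fun v => (bif v.1 then T else S) v.2.1 v.2.2

theorem gmat_map (S T : Matrix (Fin r) (Fin r) ℂ) (s : Bool) :
    (MvPolynomial.eval (gpoint S T)).mapMatrix (gmat r s) = bif s then T else S := by
  ext a b; cases s <;> simp [gmat, gpoint]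

theorem map_Cdiag (l : Fin r → ℂ) (x : GVar r → ℂ) :
    (MvPolynomial.eval x).mapMatrix (diagonal fun a => MvPolynomial.C (l a)) = diagonal l := by
  ext a b; by_cases h : a = b
  · subst h; simp
  · simp [h]

theorem adjugate_eq_smul {S S' : Matrix (Fin r) (Fin r) ℂ} (h : S * S' = 1) :
    adjugate S = S.det • S' := by
  calc adjugate S = adjugate S * (S * S') := by rw [h, mul_one]
    _ = S.det • S' := by rw [← mul_assoc, adjugate_mul, smul_mul_assoc, one_mul]

theorem det_ne_zero_of_mul {S S' : Matrix (Fin r) (Fin r) ℂ} (h : S * S' = 1) : S.det ≠ 0 := by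
  intro e
  have := congrArg det h
  simp [e] at this

theorem goodProd_ne_zero (l : Fin r → ℂ) (hl : Function.Injective l)
    (NP : Matrix (Fin r) (Fin r) (MvPolynomial (GVar r) ℂ))
    (h : ∀ S S' : Matrix (Fin r) (Fin r) ℂ, S * S' = 1 → ∃ x : GVar r → ℂ, ∃ c : ℂ, c ≠ 0 ∧
      (MvPolynomial.eval x).mapMatrix NP = c • (S * diagonal l * S')) : goodProd NP ≠ 0 := by
  unfold goodProd
  rw [mul_ne_zero_iff, Finset.prod_ne_zero_iff, Finset.prod_ne_zero_iff]
  refine ⟨fun p hp e => ?_, fun p hp e => ?_⟩
  · obtain ⟨S, S', hS, hne⟩ := witness_pair l hl (Finset.mem_filter.1 hp).2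
    obtain ⟨x, c, hc, hx⟩ := h S S' hS
    have e1 := congrFun (congrFun hx p.1) p.2
    simp only [RingHom.mapMatrix_apply, map_apply, e, map_zero, Matrix.smul_apply, smul_eq_mul] at e1
    exact mul_ne_zero hc hne e1.symm
  · obtain ⟨h1, h2, h3⟩ := (Finset.mem_filter.1 hp).2
    obtain ⟨S, S', hS, hne⟩ := witness_triple l hl h1 h2 h3
    obtain ⟨x, c, hc, hx⟩ := h S S' hS
    have e0 : ∀ a b, MvPolynomial.eval x (NP a b) = c * (S * diagonal l * S') a b :=
      fun a b => congrFun (congrFun hx a) b
    have e1 := congrArg (MvPolynomial.eval x) e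
    simp only [map_sub, map_mul, map_zero, e0] at e1
    exact mul_ne_zero (pow_ne_zero 3 hc) hne (by linear_combination e1)

/-- The linear system whose injectivity separates the three commutants. -/
noncomputable def splitMat {R : Type*} [CommRing R] (a0 : Fin r)
    (S T : Matrix (Fin r) (Fin r) R) :
    Matrix ((Fin r × Fin r) ⊕ Bool) (Fin r ⊕ Fin r ⊕ Fin r) R :=
  Matrix.of fun i j => match i, j with
    | Sum.inl p, Sum.inl k => if p.1 = p.2 ∧ k = p.1 then 1 else 0
    | Sum.inl p, Sum.inr (Sum.inl k) => -(S p.1 k * adjugate S k p.2)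
    | Sum.inl p, Sum.inr (Sum.inr k) => -(T p.1 k * adjugate T k p.2)
    | Sum.inr _, Sum.inl _ => 0
    | Sum.inr s, Sum.inr (Sum.inl k) => if s = false ∧ k = a0 then 1 else 0
    | Sum.inr s, Sum.inr (Sum.inr k) => if s = true ∧ k = a0 then 1 else 0

theorem map_splitMat {R R' : Type*} [CommRing R] [CommRing R'] (φ : R →+* R') (a0 : Fin r)
    (S T : Matrix (Fin r) (Fin r) R) :
    (splitMat a0 S T).map φ = splitMat a0 (φ.mapMatrix S) (φ.mapMatrix T) := by
  have hadj : ∀ (M : Matrix (Fin r) (Fin r) R) a b,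
      φ (adjugate M a b) = adjugate (φ.mapMatrix M) a b :=
    fun M a b => congrFun (congrFun (RingHom.map_adjugate φ M) a) b
  ext i j
  rcases i with p | s <;> rcases j with k | k | k <;>
    simp [splitMat, hadj, apply_ite φ]

/-- The vector of three coefficient families. -/
def three (x y z : Fin r → ℂ) : Fin r ⊕ Fin r ⊕ Fin r → ℂ :=
  Sum.elim x (Sum.elim y z)

theorem splitMat_mulVec (a0 : Fin r) (S T : Matrix (Fin r) (Fin r) ℂ) (x y z : Fin r → ℂ) :
    splitMat a0 S T *ᵥ three x y z = Sum.elim (fun p => (diagonal x - S * diagonal y * adjugate S -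
      T * diagonal z * adjugate T) p.1 p.2) (fun s => bif s then z a0 else y a0) := by
  funext i
  rcases i with ⟨a, b⟩ | s
  · simp only [mulVec, dotProduct, splitMat, of_apply, three, Fintype.sum_sum_type, Sum.elim_inl,
      Sum.elim_inr, Matrix.sub_apply, Matrix.mul_apply (M := S * diagonal y),
      Matrix.mul_apply (M := T * diagonal z), mul_diagonal]
    rw [sub_sub, sub_eq_add_neg, neg_add, ← Finset.sum_neg_distrib, ← Finset.sum_neg_distrib]
    congr 1
    · by_cases h : a = b
      · subst h; simp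
      · simp [h]
    · congr 1 <;> exact Finset.sum_congr rfl fun k _ => by ring
  · cases s <;> simp [mulVec, dotProduct, splitMat, three]

theorem splitMat_witness (l : Fin r → ℂ) (a0 : Fin r) :
    ∃ S T : Matrix (Fin r) (Fin r) ℂ, S.det ≠ 0 ∧ T.det ≠ 0 ∧
      Function.Injective (splitMat a0 S T).mulVec := by
  let R : Matrix (Fin r) (Fin r) ℂ := Matrix.of fun a b => if a = a0 ∧ b ≠ a0 then 1 else 0
  have hR : R * R = 0 := by
    ext a b
    simp only [Matrix.mul_apply, Matrix.zero_apply, R, of_apply]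
    refine Finset.sum_eq_zero fun k _ => ?_
    split_ifs <;> simp_all
  have hS : (1 + R) * (1 - R) = 1 := by
    rw [add_mul, one_mul, mul_sub, mul_one, hR]; abel
  have hT : (1 + Rᵀ) * (1 - Rᵀ) = 1 := by
    rw [add_mul, one_mul, mul_sub, mul_one, ← transpose_mul, hR, transpose_zero]; abel
  have cS := det_ne_zero_of_mul hS
  have cT := det_ne_zero_of_mul hT
  refine ⟨1 + R, 1 + Rᵀ, cS, cT, ?_⟩
  suffices ∀ x y z, splitMat a0 (1 + R) (1 + Rᵀ) *ᵥ three x y z = 0 →
      x = 0 ∧ y = 0 ∧ z = 0 by
    intro v w hvw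
    have h0 : splitMat a0 (1 + R) (1 + Rᵀ) *ᵥ (v - w) = 0 := by rw [mulVec_sub, hvw, sub_self]
    obtain ⟨hx, hy, hz⟩ := this (fun k => (v - w) (Sum.inl k))
      (fun k => (v - w) (Sum.inr (Sum.inl k))) (fun k => (v - w) (Sum.inr (Sum.inr k))) (by
        convert h0 using 2; funext j; rcases j with k | k | k <;> rfl)
    funext j
    rw [← sub_eq_zero]
    rcases j with k | k | k
    · exact congrFun hx k
    · exact congrFun hy k
    · exact congrFun hz k
  intro x y z h
  rw [splitMat_mulVec, adjugate_eq_smul hS, adjugate_eq_smul hT] at h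
  set c := (1 + R).det
  set d := (1 + Rᵀ).det
  have hy0 : y a0 = 0 := congrFun h (Sum.inr false)
  have hz0 : z a0 = 0 := congrFun h (Sum.inr true)
  have hconj : ∀ (N : Matrix (Fin r) (Fin r) ℂ) (w : Fin r → ℂ), N * N = 0 →
      N * diagonal w * N = 0 →
      (1 + N) * diagonal w * (1 - N) = diagonal w + (N * diagonal w - diagonal w * N) := by
    intro N w _ h2
    rw [add_mul, one_mul, mul_sub, mul_one, add_mul, h2]; abel
  have h3 : ∀ w, R * diagonal w * R = 0 := by
    intro w; ext a b
    simp only [Matrix.mul_apply, mul_diagonal, Matrix.zero_apply, R, of_apply]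
    refine Finset.sum_eq_zero fun k _ => ?_
    split_ifs <;> simp_all
  have h4 : ∀ w, Rᵀ * diagonal w * Rᵀ = 0 := by
    intro w
    have := congrArg Matrix.transpose (h3 w)
    simpa [transpose_mul, mul_assoc] using this
  have key : ∀ a b, diagonal x a b - c * (diagonal y a b + (R a b * y b - y a * R a b)) -
      d * (diagonal z a b + (Rᵀ a b * z b - z a * Rᵀ a b)) = 0 := by
    intro a b
    have := congrFun h (Sum.inl (a, b))
    simp only [Sum.elim_inl, Matrix.mul_smul, Matrix.sub_apply, Matrix.smul_apply, Pi.zero_apply] at this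
    rw [hconj R y hR (h3 y), hconj Rᵀ z (by rw [← transpose_mul, hR, transpose_zero]) (h4 z)]
      at this
    simpa only [Matrix.add_apply, Matrix.sub_apply, mul_diagonal, diagonal_mul, smul_eq_mul]
      using this
  have hy : y = 0 := by
    funext b
    by_cases hb : b = a0
    · subst hb; exact hy0
    · have := key a0 b
      simp [R, hb, Ne.symm hb, hy0] at this
      exact this.resolve_left cS
  have hz : z = 0 := by
    funext b
    by_cases hb : b = a0
    · subst hb; exact hz0
    · have := key b a0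
      simp [R, hb, Ne.symm hb, hz0] at this
      exact this.resolve_left cT
  refine ⟨funext fun a => ?_, hy, hz⟩
  simpa [hy, hz] using key a a

/-- A generic position exists, with nowhere zero diagonal at the distinguished handle. -/
theorem exists_pos_diag (hg : 2 ≤ g) (hr : 2 ≤ r) :
    ∃ (A : Fin g → Matrix (Fin r) (Fin r) ℂ) (l : Fin r → ℂ) (e L : Fin g)
      (S S' T T' : Matrix (Fin r) (Fin r) ℂ), Pos A l e L S S' T T' ∧ ∀ a, A e a a ≠ 0 := by
  obtain ⟨l, hl, hl1, hl0⟩ := exists_indep hr
  have hinj := hl.injective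
  let SP := gmat r false
  let TP := gmat r true
  let D : Matrix (Fin r) (Fin r) (MvPolynomial (GVar r) ℂ) := diagonal fun a => MvPolynomial.C (l a)
  let a0 : Fin r := ⟨0, by omega⟩
  have hSP : SP.det ≠ 0 := fun e => by
    have := congrArg (MvPolynomial.eval (gpoint (1 : Matrix (Fin r) (Fin r) ℂ) 1)) e
    rw [RingHom.map_det, gmat_map, map_zero] at this
    simp at this
  have hTP : TP.det ≠ 0 := fun e => by
    have := congrArg (MvPolynomial.eval (gpoint (1 : Matrix (Fin r) (Fin r) ℂ) 1)) e
    rw [RingHom.map_det, gmat_map, map_zero] at this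
    simp at this
  let NE := SP * D * adjugate SP
  let NI := TP * D * adjugate TP
  let NIE := adjugate SP * (TP * D * adjugate TP) * SP
  have hE : goodProd NE ≠ 0 := goodProd_ne_zero l hinj _ fun S S' hS =>
    ⟨gpoint S 1, S.det, det_ne_zero_of_mul hS, by
      simp only [NE, SP, D, map_mul, RingHom.map_adjugate, gmat_map, map_Cdiag, cond_false]
      rw [adjugate_eq_smul hS, Matrix.mul_smul]⟩
  have hI : goodProd NI ≠ 0 := goodProd_ne_zero l hinj _ fun T T' hT =>
    ⟨gpoint 1 T, T.det, det_ne_zero_of_mul hT, by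
      simp only [NI, TP, D, map_mul, RingHom.map_adjugate, gmat_map, map_Cdiag, cond_true]
      rw [adjugate_eq_smul hT, Matrix.mul_smul]⟩
  have hIE : goodProd NIE ≠ 0 := goodProd_ne_zero l hinj _ fun T T' hT =>
    ⟨gpoint 1 T, T.det, det_ne_zero_of_mul hT, by
      simp only [NIE, SP, TP, D, map_mul, RingHom.map_adjugate, gmat_map, map_Cdiag, cond_true,
        cond_false, adjugate_one, one_mul, mul_one]
      rw [adjugate_eq_smul hT, Matrix.mul_smul]⟩
  obtain ⟨S₀, T₀, -, -, h₀⟩ := splitMat_witness l a0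
  obtain ⟨Li, hLi⟩ := (Matrix.mulVecLin (splitMat a0 S₀ T₀)).exists_leftInverse_of_injective
    (LinearMap.ker_eq_bot.2 h₀)
  have hL1 : LinearMap.toMatrix' Li * splitMat a0 S₀ T₀ = 1 := by
    have := congrArg LinearMap.toMatrix' hLi
    rwa [LinearMap.toMatrix'_comp, LinearMap.toMatrix'_id,
      show Matrix.mulVecLin (splitMat a0 S₀ T₀) = Matrix.toLin' (splitMat a0 S₀ T₀) from rfl,
      LinearMap.toMatrix'_toLin'] at this
  let Q : (MvPolynomial (GVar r) ℂ) := ((LinearMap.toMatrix' Li).map (MvPolynomial.C : ℂ →+* (MvPolynomial (GVar r) ℂ)) * splitMat a0 SP TP).det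
  have hQev : ∀ S T, MvPolynomial.eval (gpoint S T) Q =
      (LinearMap.toMatrix' Li * splitMat a0 S T).det := by
    intro S T
    simp only [Q, RingHom.map_det, RingHom.mapMatrix_apply]
    rw [Matrix.map_mul, map_splitMat]
    congr 2
    · ext i j; simp
    · rw [show SP = gmat r false from rfl, show TP = gmat r true from rfl, gmat_map, gmat_map]
      rfl
  have hQ : Q ≠ 0 := fun e => by
    have := hQev S₀ T₀
    rw [e, map_zero, hL1, det_one] at this
    exact zero_ne_one this
  have hDia : ∏ a, NE a a ≠ 0 := Finset.prod_ne_zero_iff.2 fun a _ e => by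
    have h1 : (MvPolynomial.eval (gpoint (1 : Matrix (Fin r) (Fin r) ℂ) 1)).mapMatrix NE =
        diagonal l := by
      simp only [NE, SP, D, map_mul, RingHom.map_adjugate, gmat_map, map_Cdiag, cond_false,
        adjugate_one, one_mul, mul_one]
    have h2 := congrFun (congrFun h1 a) a
    rw [RingHom.mapMatrix_apply, Matrix.map_apply, e, map_zero, diagonal_apply_eq] at h2
    exact hl0 a h2.symm
  have htot : SP.det * TP.det * goodProd NE * goodProd NI * goodProd NIE * Q * ∏ a, NE a a ≠ 0 :=
    mul_ne_zero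
      (mul_ne_zero (mul_ne_zero (mul_ne_zero (mul_ne_zero (mul_ne_zero hSP hTP) hE) hI) hIE) hQ) hDia
  obtain ⟨x, hx⟩ : ∃ x : GVar r → ℂ, MvPolynomial.eval x
      (SP.det * TP.det * goodProd NE * goodProd NI * goodProd NIE * Q * ∏ a, NE a a) ≠ 0 := by
    by_contra h
    push Not at h
    exact htot (MvPolynomial.funext fun x => by simp [h x])
  obtain ⟨S, T, rfl⟩ : ∃ S T, x = gpoint S T :=
    ⟨Matrix.of fun a b => x (false, a, b), Matrix.of fun a b => x (true, a, b), by
      funext ⟨s, a, b⟩; cases s <;> rfl⟩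
  simp only [map_mul, map_prod, mul_ne_zero_iff, hQev, map_goodProd, RingHom.map_det, RingHom.map_adjugate,
    NE, NI, NIE, SP, TP, D, gmat_map, map_Cdiag, cond_true, cond_false] at hx
  obtain ⟨⟨⟨⟨⟨⟨hS, hT⟩, gE⟩, gI⟩, gIE⟩, gQ⟩, gDia⟩ := hx
  set S' := (S.det)⁻¹ • adjugate S with hS'
  set T' := (T.det)⁻¹ • adjugate T with hT'
  have sS : S * S' = 1 := by
    rw [hS', Matrix.mul_smul, mul_adjugate, smul_smul, inv_mul_cancel₀ hS, one_smul]
  have sT : T * T' = 1 := by
    rw [hT', Matrix.mul_smul, mul_adjugate, smul_smul, inv_mul_cancel₀ hT, one_smul]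
  let L : Fin g := ⟨g - 1, by omega⟩
  let e : Fin g := ⟨g - 2, by omega⟩
  have hLe : e ≠ L := fun h => by have := congrArg Fin.val h; simp [L, e] at this; omega
  let A : Fin g → Matrix (Fin r) (Fin r) ℂ := fun i =>
    if i = L then diagonal l else if i = e then S * diagonal l * S' else T * diagonal l * T'
  have hAe : A e = S * diagonal l * S' := by simp [A, hLe]
  have hAi : ∀ i, i ≠ e → i ≠ L → A i = T * diagonal l * T' := fun i h1 h2 => by simp [A, h1, h2]
  have hdia : ∀ a, A e a a ≠ 0 := fun a e0 => by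
    have := Finset.prod_ne_zero_iff.1 gDia a (Finset.mem_univ a)
    refine this ?_
    have h2 : MvPolynomial.eval (gpoint S T) ((SP * D * adjugate SP) a a) =
        (S * diagonal l * adjugate S) a a := by
      have h3 : (MvPolynomial.eval (gpoint S T)).mapMatrix (SP * D * adjugate SP) =
          S * diagonal l * adjugate S := by
        simp only [SP, D, map_mul, RingHom.map_adjugate, gmat_map, map_Cdiag, cond_false]
      exact congrFun (congrFun h3 a) a
    rw [show adjugate S = S.det • S' from adjugate_eq_smul sS, Matrix.mul_smul, ← hAe,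
      Matrix.smul_apply, e0, smul_zero] at h2
    exact h2
  refine ⟨A, l, e, L, S, S', T, T', ⟨hl, hl1, hl0, ?_, ?_, by simp [A], ⟨sS, hAe⟩,
    fun i h1 h2 => ⟨sT, hAi i h1 h2⟩, ?_, fun i h1 h2 => ?_, fun i h1 h2 => ?_, ?_⟩, hdia⟩
  · simp [Fin.lt_def, e, L]; omega
  · intro i hi
    have : i.1 ≠ g - 1 := fun h => hi (Fin.ext h)
    simp [Fin.le_def, e]
    omega
  · refine Good.of_smul hS ?_
    rw [hAe, hS', Matrix.mul_smul, smul_smul, mul_inv_cancel₀ hS, one_smul]
    exact good_of_goodProd gE
  · refine Good.of_smul hT ?_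
    rw [hAi i h1 h2, hT', Matrix.mul_smul, smul_smul, mul_inv_cancel₀ hT, one_smul]
    exact good_of_goodProd gI
  · refine Good.of_smul (mul_ne_zero hS hT) ?_
    have e1 : (S.det * T.det) • (S' * A i * S) =
        adjugate S * (T * diagonal l * adjugate T) * S := by
      rw [hAi i h1 h2, hS', hT']
      simp only [Matrix.mul_smul, Matrix.smul_mul, smul_smul]
      rw [show S.det * T.det * (T.det⁻¹ * S.det⁻¹) = 1 by field_simp, one_smul]
    rw [e1]
    exact good_of_goodProd gIE
  · intro u y z h
    refine ⟨y a0 + z a0, ?_⟩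
    have hker : splitMat a0 S T *ᵥ three (fun a => u a - (y a0 + z a0))
        (fun a => S.det⁻¹ * (y a - y a0)) (fun a => T.det⁻¹ * (z a - z a0)) = 0 := by
      rw [splitMat_mulVec]
      have dc : ∀ (w : Fin r → ℂ) (k c : ℂ), diagonal (fun a => c * (w a - k)) =
          c • (diagonal w - k • (1 : Matrix (Fin r) (Fin r) ℂ)) := by
        intro w k c; ext a b
        by_cases hab : a = b
        · subst hab; simp
        · simp [hab]
      have d1 : diagonal (fun a => u a - (y a0 + z a0)) =
          diagonal u - (y a0 + z a0) • (1 : Matrix (Fin r) (Fin r) ℂ) := by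
        simpa using dc u (y a0 + z a0) 1
      have e2 : diagonal (fun a => u a - (y a0 + z a0)) -
          S * diagonal (fun a => S.det⁻¹ * (y a - y a0)) * adjugate S -
          T * diagonal (fun a => T.det⁻¹ * (z a - z a0)) * adjugate T = 0 := by
        rw [d1, dc, dc, h, hS', hT']
        simp only [Matrix.mul_smul, Matrix.smul_mul, mul_sub, sub_mul, smul_sub, mul_one, one_mul,
          mul_adjugate, smul_smul, add_smul]
        rw [show S.det⁻¹ * y a0 * S.det = y a0 by field_simp,
          show T.det⁻¹ * z a0 * T.det = z a0 by field_simp]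
        abel
      funext i
      rcases i with p | s
      · simp only [Sum.elim_inl]
        exact congrFun (congrFun e2 p.1) p.2
      · cases s <;> simp
    have h0 : (LinearMap.toMatrix' Li * splitMat a0 S T) *ᵥ three (fun a => u a - (y a0 + z a0))
        (fun a => S.det⁻¹ * (y a - y a0)) (fun a => T.det⁻¹ * (z a - z a0)) = 0 := by
      rw [← mulVec_mulVec, hker, mulVec_zero]
    have h1 := eq_zero_of_mulVec_eq_zero gQ h0
    funext a
    exact sub_eq_zero.1 (congrFun h1 (Sum.inl a))

/-- A generic position exists. -/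
theorem exists_pos (hg : 2 ≤ g) (hr : 2 ≤ r) :
    ∃ (A : Fin g → Matrix (Fin r) (Fin r) ℂ) (l : Fin r → ℂ) (e L : Fin g)
      (S S' T T' : Matrix (Fin r) (Fin r) ℂ), Pos A l e L S S' T T' := by
  obtain ⟨A, l, e, L, S, S', T, T', h, -⟩ := exists_pos_diag hg hr
  exact ⟨A, l, e, L, S, S', T, T', h⟩

end Vale.Agent.P002
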