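import Vale.Agent.P002.Flow
import Vale.Agent.P002.Generic

/-!
# P002: parametrised families inside the closure of the integral representations
-/

namespace Vale.Agent.P002

open Matrix Filter Topology
open scoped Matrix.Norms.Operator

variable {r g : ℕ}

/-- A twist at handle `i` conjugated by the `m`-th power of the slide at `(i, j)`. -/
noncomputable def G (i j : Fin g) (m k : ℕ) (s : ℂ) (σ : Tup g r ℂ) : Tup g r ℂ :=
  (phiM i j)^[m] (tau i k s ((psiM i j)^[m] σ))

section smooth

variable {E : Type*} [NormedAddCommGroup E] [NormedSpace ℂ E]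

theorem contDiff_list_prod : ∀ (l : List (E → Matrix (Fin r) (Fin r) ℂ)),
    (∀ F ∈ l, ContDiff ℂ 1 F) → ContDiff ℂ 1 fun x => (l.map fun F => F x).prod
  | [], _ => by simpa using contDiff_const
  | F :: l, h => by
    simpa using (h F (by simp)).mul (contDiff_list_prod l fun G hG => h G (by simp [hG]))

theorem contDiff_exp : ContDiff ℂ 1 (NormedSpace.exp : Matrix (Fin r) (Fin r) ℂ → _) :=
  contDiff_iff_contDiffAt.2 fun x => (NormedSpace.exp_analytic x).contDiffAt

theorem contDiff_tl : ContDiff ℂ 1 (tl : Matrix (Fin r) (Fin r) ℂ → _) := by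
  show ContDiff ℂ 1 fun X : Matrix (Fin r) (Fin r) ℂ => X - (trace X / (r : ℂ)) • 1
  have h1 : ContDiff ℂ 1 fun X : Matrix (Fin r) (Fin r) ℂ => trace X / (r : ℂ) := by
    simp only [div_eq_mul_inv, Matrix.trace, diag_apply]
    exact ContDiff.mul (ContDiff.sum fun a _ => contDiff_entry a a) contDiff_const
  exact contDiff_id.sub (h1.smul contDiff_const)

variable {F : E → Tup g r ℂ}

theorem contDiff_cm (hF : ContDiff ℂ 1 F) (i : Fin g) :
    ContDiff ℂ 1 fun x => cm adjugate (F x (i, false)) (F x (i, true)) := by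
  have h := contDiff_pi.1 hF
  exact (((h (i, false)).mul (h (i, true))).mul (contDiff_adjugate.comp (h (i, false)))).mul
    (contDiff_adjugate.comp (h (i, true)))

theorem contDiff_rel (hF : ContDiff ℂ 1 F) : ContDiff ℂ 1 fun x => rel adjugate (F x) := by
  have := contDiff_list_prod (List.ofFn fun i x => cm adjugate (F x (i, false)) (F x (i, true)))
    fun G hG => by obtain ⟨i, rfl⟩ := List.mem_ofFn.1 hG; exact contDiff_cm hF i
  simpa only [rel, cmList, List.map_ofFn, Function.comp_def] using this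

theorem contDiff_mid (hF : ContDiff ℂ 1 F) (i j : Fin g) :
    ContDiff ℂ 1 fun x => mid adjugate i j (F x) := by
  have := contDiff_list_prod
    (((List.ofFn fun k x => cm adjugate (F x (k, false)) (F x (k, true))).take j).drop (i.1 + 1))
    fun G hG => by
      obtain ⟨k, rfl⟩ := List.mem_ofFn.1 (List.mem_of_mem_take (List.mem_of_mem_drop hG))
      exact contDiff_cm hF k
  simpa only [mid, cmList, List.map_drop, List.map_take, List.map_ofFn, Function.comp_def] using this

theorem contDiff_slide (Q : Matrix (Fin r) (Fin r) ℂ × Matrix (Fin r) (Fin r) ℂ ×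
      Matrix (Fin r) (Fin r) ℂ × Matrix (Fin r) (Fin r) ℂ → Matrix (Fin r) (Fin r) ℂ ×
      Matrix (Fin r) (Fin r) ℂ × Matrix (Fin r) (Fin r) ℂ × Matrix (Fin r) (Fin r) ℂ)
    (hQ : ContDiff ℂ 1 Q) (hF : ContDiff ℂ 1 F) (i j : Fin g) :
    ContDiff ℂ 1 fun x => slide adjugate Q i j (F x) := by
  have h := contDiff_pi.1 hF
  have hM := contDiff_mid hF i j
  have hM' := contDiff_adjugate.comp hM
  have hq : ContDiff ℂ 1 fun x => Q (quadAt adjugate i j (F x)) :=
    hQ.comp ((h (i, false)).prodMk ((h (i, true)).prodMk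
      (((hM.mul (h (j, false))).mul hM').prodMk ((hM.mul (h (j, true))).mul hM'))))
  refine contDiff_pi.2 fun ⟨k, c⟩ => ?_
  simp only [slide]
  split_ifs
  · cases c
    · exact hq.fst
    · exact hq.snd.fst
  · cases c
    · exact (hM'.mul hq.snd.snd.fst).mul hM
    · exact (hM'.mul hq.snd.snd.snd).mul hM
  · exact h _

theorem contDiff_psiM (hF : ContDiff ℂ 1 F) (i j : Fin g) :
    ContDiff ℂ 1 fun x => psiM i j (F x) := by
  refine contDiff_slide _ ?_ hF i j
  unfold psiQ
  have := contDiff_adjugate (r := r)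
  fun_prop

theorem contDiff_phiM (hF : ContDiff ℂ 1 F) (i j : Fin g) :
    ContDiff ℂ 1 fun x => phiM i j (F x) := by
  refine contDiff_slide _ ?_ hF i j
  unfold phiQ
  have := contDiff_adjugate (r := r)
  fun_prop

theorem contDiff_psiM_iterate (hF : ContDiff ℂ 1 F) (i j : Fin g) :
    ∀ m : ℕ, ContDiff ℂ 1 fun x => (psiM i j)^[m] (F x)
  | 0 => hF
  | m + 1 => by
    simp only [Function.iterate_succ_apply']
    exact contDiff_psiM (contDiff_psiM_iterate hF i j m) i j

theorem contDiff_phiM_iterate (hF : ContDiff ℂ 1 F) (i j : Fin g) :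
    ∀ m : ℕ, ContDiff ℂ 1 fun x => (phiM i j)^[m] (F x)
  | 0 => hF
  | m + 1 => by
    simp only [Function.iterate_succ_apply']
    exact contDiff_phiM (contDiff_phiM_iterate hF i j m) i j

theorem contDiff_G (hF : ContDiff ℂ 1 F) {s : E → ℂ} (hs : ContDiff ℂ 1 s) (i j : Fin g)
    (m k : ℕ) : ContDiff ℂ 1 fun x => G i j m k (s x) (F x) := by
  refine contDiff_phiM_iterate ?_ i j m
  have h := contDiff_pi.1 (contDiff_psiM_iterate hF i j m)
  refine contDiff_pi.2 fun c => ?_
  by_cases hc : c = (i, true)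
  · subst hc
    simp only [tau, Function.update_self]
    exact (h _).mul (contDiff_exp.comp (hs.smul (contDiff_tl.comp ((h _).pow k))))
  · simp only [tau, Function.update_of_ne hc]
    exact h c

theorem contDiff_eval (f : MvPolynomial (Var g r) ℂ) (hF : ContDiff ℂ 1 F) :
    ContDiff ℂ 1 fun x => MvPolynomial.eval (coord (F x)) f := by
  induction f using MvPolynomial.induction_on with
  | C a => simpa using contDiff_const
  | add p q hp hq => simpa using hp.add hq
  | mul_X p v hp =>
    simpa [coord] using hp.mul ((contDiff_entry v.2.1 v.2.2).comp (contDiff_pi.1 hF v.1))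

end smooth

theorem G_zero {i j : Fin g} {m : ℕ} (hij : i < j ∨ m = 0) (k : ℕ) {σ : Tup g r ℂ}
    (h : ∀ c, (σ c).det = 1) : G i j m k 0 σ = σ := by
  simp only [G, tau, zero_smul, NormedSpace.exp_zero, mul_one, Function.update_eq_self]
  rcases hij with h' | rfl
  · exact phiM_psiM_iterate h' m h
  · rfl

/-- The starting family of tuples `(A(q), 1)`. -/
noncomputable def Lmat (W W' : Fin g → Matrix (Fin r) (Fin r) ℂ) (l : Fin r → ℂ)
    (q : Fin g → Matrix (Fin r) (Fin r) ℂ × (Fin r → ℂ)) : Fin g → Matrix (Fin r) (Fin r) ℂ :=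
  fun i => diagParam (W i) (W' i)
    ((q i).1, fun a => l a * Complex.exp ((q i).2 a - (∑ b, (q i).2 b) / (r : ℂ)))

/-- The eigenvector data of a tuple `A` with common spectrum `l`. -/
structure Frame (A W W' : Fin g → Matrix (Fin r) (Fin r) ℂ) (l : Fin r → ℂ) : Prop where
  indep : Indep l
  prod_one : ∏ a, l a = 1
  ne_zero : ∀ a, l a ≠ 0
  two_le : 2 ≤ r
  spec : ∀ i, Spec (A i) l (W i) (W' i)

variable {A W W' : Fin g → Matrix (Fin r) (Fin r) ℂ} {l : Fin r → ℂ}

theorem Frame.det (h : Frame A W W' l) (i : Fin g) : (A i).det = 1 :=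
  ((h.spec i).adjugate_eq h.prod_one h.ne_zero).1

theorem Lmat_det (h : Frame A W W' l) (q : Fin g → Matrix (Fin r) (Fin r) ℂ × (Fin r → ℂ))
    (i : Fin g) : (Lmat W W' l q i).det = 1 := by
  simp only [Lmat, diagParam]
  rw [det_exp_conj, det_mul_right_comm, (h.spec i).1, one_mul, det_diagonal,
    Finset.prod_mul_distrib, h.prod_one, one_mul, ← Complex.exp_sum, Finset.sum_sub_distrib,
    Finset.sum_const, Finset.card_univ, Fintype.card_fin, nsmul_eq_mul,
    mul_div_cancel₀ _ (Nat.cast_ne_zero.2 (by have := h.two_le; omega)), sub_self,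
    Complex.exp_zero]

theorem Lmat_zero (h : Frame A W W' l) : Lmat W W' l 0 = A := by
  funext i
  simp [Lmat, diagParam, (h.spec i).2]

theorem contDiff_Lmat :
    ContDiff ℂ 1 fun q : Fin g → Matrix (Fin r) (Fin r) ℂ × (Fin r → ℂ) =>
      lag (Lmat W W' l q) := by
  refine contDiff_pi.2 fun ⟨i, c⟩ => ?_
  cases c
  · have hq : ContDiff ℂ 1 fun q : Fin g → Matrix (Fin r) (Fin r) ℂ × (Fin r → ℂ) => q i :=
      contDiff_apply ℂ _ i
    have hd : ContDiff ℂ 1 fun q : Fin g → Matrix (Fin r) (Fin r) ℂ × (Fin r → ℂ) =>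
        diagLin (W i) (W' i)
          (fun a => l a * Complex.exp ((q i).2 a - (∑ b, (q i).2 b) / (r : ℂ))) := by
      refine (diagLin (W i) (W' i)).contDiff.comp (contDiff_pi.2 fun a => ?_)
      have := contDiff_pi.1 hq.snd
      exact contDiff_const.mul (Complex.contDiff_exp.comp
        ((this a).sub ((ContDiff.sum fun b _ => this b).div_const _)))
    exact ((contDiff_exp.comp hq.fst).mul hd).mul (contDiff_exp.comp hq.fst.neg)
  · exact contDiff_const

/-- A parameter at which handle `j` carries the identity and the others are unchanged. -/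
theorem Frame.exists_special (h : Frame A W W' l) (j : Fin g) :
    ∃ q, Lmat W W' l q j = 1 ∧ ∀ i, i ≠ j → Lmat W W' l q i = A i := by
  let a0 : Fin r := ⟨0, by have := h.two_le; omega⟩
  let w : Fin r → ℂ := fun a =>
    if a = a0 then ∑ b ∈ Finset.univ.erase a0, Complex.log (l b) else -Complex.log (l a)
  have hw0 : ∑ a, w a = 0 := by
    rw [← Finset.add_sum_erase _ _ (Finset.mem_univ a0)]
    have : ∑ a ∈ Finset.univ.erase a0, w a = -∑ b ∈ Finset.univ.erase a0, Complex.log (l b) := by
      rw [← Finset.sum_neg_distrib]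
      exact Finset.sum_congr rfl fun a ha => by simp [w, Finset.ne_of_mem_erase ha]
    rw [this]; simp [w]
  have hw : ∀ a, l a * Complex.exp (w a) = 1 := by
    intro a
    by_cases ha : a = a0
    · subst ha
      simp only [w, if_true, Complex.exp_sum]
      rw [Finset.prod_congr rfl fun b _ => Complex.exp_log (h.ne_zero b),
        Finset.mul_prod_erase _ _ (Finset.mem_univ a0), h.prod_one]
    · simp [w, ha, Complex.exp_neg, Complex.exp_log (h.ne_zero a), h.ne_zero a]
  refine ⟨Pi.single j (0, w), ?_, fun i hi => ?_⟩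
  · simp [Lmat, diagParam, hw0, hw, (h.spec j).1]
  · simp [Lmat, diagParam, hi, (h.spec i).2]

/-- A family inside the closure extending the starting family. -/
structure IsFam (A W W' : Fin g → Matrix (Fin r) (Fin r) ℂ) (l : Fin r → ℂ) {n : ℕ}
    (F : (Fin g → Matrix (Fin r) (Fin r) ℂ × (Fin r → ℂ)) × (Fin n → ℂ) → Tup g r ℂ) : Prop where
  smooth : ContDiff ℂ 1 F
  inV : ∀ p, InV (F p)
  start : ∀ q, F (q, 0) = lag (Lmat W W' l q)

theorem IsFam.base (h : Frame A W W' l) {n : ℕ}
    {F : (Fin g → Matrix (Fin r) (Fin r) ℂ × (Fin r → ℂ)) × (Fin n → ℂ) → Tup g r ℂ}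
    (hF : IsFam A W W' l F) : F 0 = lag A := by
  show F (0, 0) = _
  rw [hF.start, Lmat_zero h]

theorem isFam_init (h : Frame A W W' l) :
    IsFam A W W' l (fun p : (Fin g → Matrix (Fin r) (Fin r) ℂ × (Fin r → ℂ)) × (Fin 0 → ℂ) =>
      lag (Lmat W W' l p.1)) :=
  ⟨contDiff_Lmat.comp contDiff_fst, fun p => inV_lag h.two_le _ (Lmat_det h p.1), fun _ => rfl⟩

theorem psiM_iterate_special (h : Frame A W W' l) {i j : Fin g} {m : ℕ} (hij : i < j ∨ m = 0) :
    ∃ q, (psiM i j)^[m] (lag (Lmat W W' l q)) (i, false) = A i := by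
  rcases hij with hij | rfl
  · obtain ⟨q, hq1, hq2⟩ := h.exists_special j
    refine ⟨q, ?_⟩
    rw [psiM_iterate_lag (Lmat_det h q) hij, hq1, one_pow, mul_one, Function.update_eq_self,
      lag_false, hq2 i (ne_of_lt hij)]
  · exact ⟨0, by rw [Function.iterate_zero, id, Lmat_zero h, lag_false]⟩

/-- One more twist keeps the family inside the closure. -/
theorem inV_step (h : Frame A W W' l) {n : ℕ}
    {F : (Fin g → Matrix (Fin r) (Fin r) ℂ × (Fin r → ℂ)) × (Fin n → ℂ) → Tup g r ℂ}
    (hF : IsFam A W W' l F) {i j : Fin g} {m : ℕ} (hij : i < j ∨ m = 0) (k : ℕ)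
    (p : ((Fin g → Matrix (Fin r) (Fin r) ℂ × (Fin r → ℂ)) × (Fin n → ℂ)) × ℂ) :
    InV (G i j m k p.2 (F p.1)) := by
  intro f hf
  obtain ⟨q, hq⟩ := psiM_iterate_special h hij
  have hphi : Pull ((phiM (r := r) i j)^[m]) := by
    rcases hij with hij | rfl
    · exact (pull_phiM hij).iterate m
    · exact fun f hf => ⟨f, hf, fun _ => rfl⟩
  have hpsi : Pull ((psiM (r := r) i j)^[m]) := by
    rcases hij with hij | rfl
    · exact (pull_psiM hij).iterate m
    · exact fun f hf => ⟨f, hf, fun _ => rfl⟩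
  obtain ⟨f', hf', he⟩ := hphi f hf
  let u := fun x : ((Fin g → Matrix (Fin r) (Fin r) ℂ × (Fin r → ℂ)) × (Fin n → ℂ)) × ℂ =>
    MvPolynomial.eval (coord (G i j m k x.2 (F x.1))) f
  have hu : ContDiff ℂ 1 u :=
    contDiff_eval f (contDiff_G (hF.smooth.comp contDiff_fst) contDiff_snd i j m k)
  let p1 : ((Fin g → Matrix (Fin r) (Fin r) ℂ × (Fin r → ℂ)) × (Fin n → ℂ)) × ℂ := ((q, 0), 0)
  have hspec : Spec ((psiM i j)^[m] (lag (Lmat W W' l q)) (i, false)) l (W i) (W' i) := by
    rw [hq]; exact h.spec i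
  have hloc : ∀ᶠ x in 𝓝 p1, u x = 0 := by
    have hc : Tendsto (fun x : ((Fin g → Matrix (Fin r) (Fin r) ℂ × (Fin r → ℂ)) ×
        (Fin n → ℂ)) × ℂ => (psiM i j)^[m] (F x.1)) (𝓝 p1)
        (𝓝 ((psiM i j)^[m] (lag (Lmat W W' l q)))) := by
      rw [← hF.start]
      exact (contDiff_psiM_iterate (hF.smooth.comp contDiff_fst) i j m).continuous.tendsto p1
    filter_upwards [hc.eventually (flow_lemma hspec h.indep hf' k)] with x hx
    show MvPolynomial.eval (coord (G i j m k x.2 (F x.1))) f = 0
    rw [G, ← he]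
    exact hx (hpsi.inV (hF.inV _)) x.2
  let v := fun s : ℂ => u (p1 + s • (p - p1))
  have hline : ContDiff ℂ 1 fun s : ℂ => p1 + s • (p - p1) :=
    contDiff_const.add (contDiff_id.smul contDiff_const)
  have hv : AnalyticOnNhd ℂ v Set.univ := fun z _ =>
    ((hu.comp hline).differentiable one_ne_zero).analyticAt z
  have hv0 : v =ᶠ[𝓝 0] 0 := by
    have ht : Tendsto (fun s : ℂ => p1 + s • (p - p1)) (𝓝 0) (𝓝 p1) := by
      have := hline.continuous.tendsto 0
      rw [zero_smul, add_zero] at this
      exact this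
    exact ht.eventually hloc
  have := hv.eqOn_zero_of_preconnected_of_eventuallyEq_zero isPreconnected_univ (Set.mem_univ 0)
    hv0 (Set.mem_univ 1)
  simpa [v, u] using this

/-- The tangent vector of a step. -/
noncomputable def vstep (A : Fin g → Matrix (Fin r) (Fin r) ℂ) (i j : Fin g) (m k : ℕ) :
    Tup g r ℂ :=
  deriv (fun s => G i j m k s (lag A)) 0

/-- Appending a step to a family. -/
theorem exists_fam (h : Frame A W W' l) (s : List (Fin g × Fin g × ℕ × ℕ))
    (hs : ∀ t ∈ s, t.1 < t.2.1 ∨ t.2.2.1 = 0) :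
    ∃ n, ∃ F : (Fin g → Matrix (Fin r) (Fin r) ℂ × (Fin r → ℂ)) × (Fin n → ℂ) → Tup g r ℂ,
      IsFam A W W' l F ∧
        ∀ t ∈ s, ∃ d, fderiv ℂ F 0 d = vstep A t.1 t.2.1 t.2.2.1 t.2.2.2 := by
  induction s with
  | nil => exact ⟨0, _, isFam_init h, by simp⟩
  | cons t s ih =>
    obtain ⟨n, F, hF, hd⟩ := ih fun u hu => hs u (by simp [hu])
    obtain ⟨i, j, m, k⟩ := t
    have hij : i < j ∨ m = 0 := hs (i, j, m, k) (by simp)
    let X := Fin g → Matrix (Fin r) (Fin r) ℂ × (Fin r → ℂ)
    let ini : (Fin (n + 1) → ℂ) →L[ℂ] (Fin n → ℂ) :=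
      ContinuousLinearMap.pi fun a => ContinuousLinearMap.proj a.castSucc
    let F' : X × (Fin (n + 1) → ℂ) → Tup g r ℂ :=
      fun p => G i j m k (p.2 (Fin.last n)) (F (p.1, ini p.2))
    have hsm : ContDiff ℂ 1 F' :=
      contDiff_G (hF.smooth.comp (contDiff_fst.prodMk (ini.contDiff.comp contDiff_snd)))
        ((contDiff_apply ℂ ℂ (Fin.last n)).comp contDiff_snd) i j m k
    have hzero : ∀ (q : X) (t : Fin (n + 1) → ℂ), t (Fin.last n) = 0 → F' (q, t) = F (q, ini t) :=
      fun q t ht => by
        simp only [F', ht]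
        exact G_zero hij k (hF.inV _).isRep.1
    refine ⟨n + 1, F', ⟨hsm, fun p => inV_step h hF hij k ((p.1, ini p.2), p.2 (Fin.last n)),
      fun q => ?_⟩, ?_⟩
    · rw [hzero q 0 rfl, map_zero, hF.start]
    · have hdiff : DifferentiableAt ℂ F' 0 := hsm.differentiable one_ne_zero 0
      intro u hu
      rw [List.mem_cons] at hu
      rcases hu with rfl | hu
      · let e : ℂ →L[ℂ] X × (Fin (n + 1) → ℂ) :=
          (ContinuousLinearMap.inr ℂ X _).comp
            (ContinuousLinearMap.pi fun a => if a = Fin.last n then ContinuousLinearMap.id ℂ ℂ else 0)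
        refine ⟨e 1, ?_⟩
        have he : (fun s => G i j m k s (lag A)) = fun s => F' (e s) := by
          funext s
          have h1 : ini (e s).2 = 0 := by
            funext a
            simp [ini, e, Fin.castSucc_ne_last]
          have h2 : (e s).2 (Fin.last n) = s := by simp [e]
          have h3 : (e s).1 = 0 := by simp [e]
          simp only [F', h1, h2, h3, hF.start, Lmat_zero h]
        simp only [vstep, he]
        have := hdiff.hasFDerivAt.comp_hasDerivAt_of_eq (0 : ℂ) e.hasDerivAt (map_zero e).symm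
        exact this.deriv.symm
      · obtain ⟨d, hd'⟩ := hd u hu
        let emb : (Fin n → ℂ) →L[ℂ] (Fin (n + 1) → ℂ) := ContinuousLinearMap.pi
          fun a => Fin.lastCases 0 (fun b => ContinuousLinearMap.proj b) a
        let ι := (ContinuousLinearMap.id ℂ X).prodMap emb
        refine ⟨ι d, ?_⟩
        have he : F = fun p => F' (ι p) := by
          funext ⟨q, t⟩
          have h1 : ini (emb t) = t := by funext a; simp [ini, emb]
          show F (q, t) = F' (q, emb t)
          rw [hzero q _ (by simp [emb]), h1]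
        have hc : HasFDerivAt (fun p => F' (ι p)) ((fderiv ℂ F' 0).comp ι) 0 :=
          (show HasFDerivAt F' (fderiv ℂ F' 0) (ι 0) by
            rw [map_zero]; exact hdiff.hasFDerivAt).comp 0 ι.hasFDerivAt
        rw [← hd', ← (he ▸ hc : HasFDerivAt F _ 0).fderiv.symm]
        rfl

theorem vstep_spec (h : Frame A W W' l) {i j : Fin g} {m : ℕ} (hij : i < j ∨ m = 0) (k : ℕ) :
    (∀ c, vstep A i j m k (c, true) = Yvec A i j m k c) ∧
      ∀ c, trace (adjugate (A c) * vstep A i j m k (c, false)) = 0 := by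
  have hr : r ≠ 0 := by have := h.two_le; omega
  let A₁ := Function.update A i (A i * A j ^ m)
  have hA₁ : ∀ c, (A₁ c).det = 1 := by
    intro c
    simp only [A₁, Function.update_apply]
    split_ifs
    · simp [h.det]
    · exact h.det c
  have hps : (psiM i j)^[m] (lag A) = lag A₁ := by
    rcases hij with hij | rfl
    · exact psiM_iterate_lag h.det hij m
    · simp [A₁]
  set X := tl (A₁ i ^ k) with hX
  have h0 : DifT (fun s => tau i k s (lag A₁)) A₁ (Pi.single i X) := by
    intro c
    refine ⟨⟨0, ?_⟩, ?_⟩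
    · simpa [tau, lag] using Dif.const (hA₁ c)
    · by_cases hc : c = i
      · subst hc
        refine ⟨?_, det_one, by rw [Pi.single_eq_same]; exact trace_tl hr _, ?_⟩
        · simp [tau, lag]
        · rw [Pi.single_eq_same, mul_one]
          have := hasDerivAt_exp_smul_const (𝕂 := ℂ) X (0 : ℂ)
          rw [zero_smul, NormedSpace.exp_zero, one_mul] at this
          have e : (fun s => tau c k s (lag A₁) (c, true)) = fun s => NormedSpace.exp (s • X) := by
            funext s; simp [tau, lag, hX]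
          rw [e]; exact this
      · rw [Pi.single_eq_of_ne hc]
        simpa [tau, lag, hc] using Dif.const (det_one (R := ℂ) (n := Fin r))
  have h1 : DifT (fun s => G i j m k s (lag A)) A (Yvec A i j m k) := by
    rcases hij with hij | rfl
    · have := h0.phi_iterate hij m
      simp only [G, hps]
      have hne : j ≠ i := ne_of_gt hij
      convert this using 1
      · simp only [A₁, Function.update_self, Function.update_of_ne hne, Function.update_idem]
        have hc : A j * adjugate (A j) = 1 := (mul_adj_cancel (h.det j)).1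
        rw [mul_assoc, ← (show Commute (A j) (adjugate (A j)) from
          hc.trans (mul_adj_cancel (h.det j)).2.symm).mul_pow, hc, one_pow, mul_one,
          Function.update_eq_self]
      · simp [Yvec, A₁, hX, Function.update_of_ne hne]
    · simpa [G, A₁, Yvec, hX] using h0
  choose Ya hYa using fun c => (h1 c).1
  have hder : HasDerivAt (fun s => G i j m k s (lag A))
      (fun c : Fin g × Bool => bif c.2 then Yvec A i j m k c.1 else Ya c.1 * A c.1) 0 := by
    refine hasDerivAt_pi.2 fun ⟨c, b⟩ => ?_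
    cases b
    · exact (hYa c).der
    · exact (h1 c).2.der.congr_deriv (mul_one _)
  unfold vstep
  erw [hder.deriv]
  refine ⟨fun c => rfl, fun c => ?_⟩
  simp only [cond_false]
  rw [← mul_assoc, (trace_conj (h.det c) _).2, (hYa c).tr]

theorem Lmat_tangent (h : Frame A W W' l) {n : ℕ}
    {F : (Fin g → Matrix (Fin r) (Fin r) ℂ × (Fin r → ℂ)) × (Fin n → ℂ) → Tup g r ℂ}
    (hF : IsFam A W W' l F) {v : Tup g r ℂ} (hb : ∀ c, v (c, true) = 0)
    (ha : ∀ c, trace (adjugate (A c) * v (c, false)) = 0) : ∃ d, fderiv ℂ F 0 d = v := by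
  let E : Fin g → Matrix (Fin r) (Fin r) ℂ := fun i => W' i * v (i, false) * W i
  let X : Fin g → Matrix (Fin r) (Fin r) ℂ := fun i => W i * (Matrix.of fun a b =>
    if a = b then 0 else E i a b / (l b - l a)) * W' i
  let w : Fin g → Fin r → ℂ := fun i a => E i a a / l a
  have hw : ∀ i, ∑ a, w i a = 0 := by
    intro i
    obtain ⟨-, hadj, -, -⟩ := (h.spec i).adjugate_eq h.prod_one h.ne_zero
    rw [← ha i, hadj]
    have : trace (W i * diagonal (fun a => (l a)⁻¹) * W' i * v (i, false)) =
        trace (diagonal (fun a => (l a)⁻¹) * E i) := by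
      simp only [E, mul_assoc]
      rw [trace_mul_comm]
      simp only [mul_assoc]
    rw [this]
    simp [trace, w, diagonal_mul, div_eq_inv_mul]
  let q : Fin g → Matrix (Fin r) (Fin r) ℂ × (Fin r → ℂ) := fun i => (X i, w i)
  refine ⟨(q, 0), ?_⟩
  have hcomp : HasDerivAt (fun s : ℂ => F (s • q, 0)) (fderiv ℂ F 0 (q, 0)) 0 := by
    have hl : HasDerivAt (fun s : ℂ => ((s • q, 0) :
        (Fin g → Matrix (Fin r) (Fin r) ℂ × (Fin r → ℂ)) × (Fin n → ℂ))) (q, 0) 0 := by
      exact (((hasDerivAt_id (0 : ℂ)).smul_const q).prodMk (hasDerivAt_const (0 : ℂ)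
        (0 : Fin n → ℂ))).congr_deriv (by rw [one_smul])
    exact (hF.smooth.differentiable one_ne_zero 0).hasFDerivAt.comp_hasDerivAt_of_eq (0 : ℂ) hl
      (by rw [zero_smul]; rfl)
  refine hcomp.unique ?_
  simp only [hF.start]
  refine hasDerivAt_pi.2 fun ⟨i, c⟩ => ?_
  cases c
  · have hm : HasDerivAt (fun s : ℂ => diagLin (W i) (W' i)
        (fun a => l a * Complex.exp (s * w i a)))
        (diagLin (W i) (W' i) (fun a => l a * w i a)) 0 := by
      refine (diagLin (W i) (W' i)).hasFDerivAt.comp_hasDerivAt (0 : ℂ) (hasDerivAt_pi.2 fun a => ?_)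
      simpa using (((hasDerivAt_id (0 : ℂ)).mul_const (w i a)).cexp.const_mul (l a))
    have he1 : HasDerivAt (fun s : ℂ => NormedSpace.exp (s • X i)) (X i) 0 := by
      have := hasDerivAt_exp_smul_const (𝕂 := ℂ) (X i) (0 : ℂ)
      rw [zero_smul, NormedSpace.exp_zero, one_mul] at this
      exact this
    have he2 : HasDerivAt (fun s : ℂ => NormedSpace.exp (s • -X i)) (-X i) 0 := by
      have := hasDerivAt_exp_smul_const (𝕂 := ℂ) (-X i) (0 : ℂ)
      rw [zero_smul, NormedSpace.exp_zero, one_mul] at this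
      exact this
    have := (he1.mul hm).mul he2
    refine (this.congr_deriv ?_).congr_of_eventuallyEq (Eventually.of_forall fun s => ?_)
    · simp [diagLin_apply]
      have hS := (h.spec i).1
      have hv : v (i, false) = W i * E i * W' i := by
        simp only [E, mul_assoc, hS, mul_one]
        rw [← mul_assoc, hS, one_mul]
      let Z : Matrix (Fin r) (Fin r) ℂ := Matrix.of fun a b =>
        if a = b then 0 else E i a b / (l b - l a)
      have hZ : Z * diagonal l + diagonal (fun a => l a * w i a) - diagonal l * Z = E i := by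
        ext a b
        rw [Matrix.sub_apply, Matrix.add_apply, mul_diagonal, diagonal_mul]
        by_cases hab : a = b
        · subst hab; simp [Z, w, mul_div_cancel₀ _ (h.ne_zero a)]
        · have hne : l b - l a ≠ 0 :=
            sub_ne_zero.2 fun e => hab (h.indep.injective e).symm
          simp only [Z, of_apply, hab, if_false, diagonal_apply_ne _ hab, add_zero]
          linear_combination div_mul_cancel₀ (E i a b) hne
      rw [hv]
      conv_rhs => rw [← hZ, mul_sub, sub_mul, mul_add, add_mul, ← conj_mul hS, ← conj_mul hS]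
      simp only [X, Z, mul_assoc, sub_eq_add_neg]
    · simp [lag, Lmat, diagParam, q, ← Finset.mul_sum, hw, diagLin_apply]
  · simpa [lag, hb] using hasDerivAt_const (0 : ℂ) (1 : Matrix (Fin r) (Fin r) ℂ)

end Vale.Agent.P002
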