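import Vale.Agent.P002.Tangent

/-!
# P002: a rational chart of the representation variety

Given the first `g - 1` handles, all but the last column of `a_g` and the vector `b_g e`, the last
column of `a_g` solves a square linear system, and `b_g` is an intertwiner.
-/

namespace Vale.Agent.P002

open Matrix Filter Topology Polynomial
open scoped Matrix.Norms.Operator

set_option backward.isDefEq.respectTransparency false

variable {r g : ℕ}

theorem adjugate_eq_det_updateCol {R : Type*} [CommRing R] (N : Matrix (Fin r) (Fin r) R)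
    (q l : Fin r) : adjugate N q l = (N.updateCol q (Pi.single l 1)).det := by
  have := congrFun (cramer_eq_adjugate_mulVec N (Pi.single l 1)) q
  rw [cramer_apply, mulVec_single_one] at this
  exact this.symm

theorem det_updateCol_eq {R : Type*} [CommRing R] (N : Matrix (Fin r) (Fin r) R) (q : Fin r)
    (x : Fin r → R) : (N.updateCol q x).det = ∑ l, adjugate N q l * x l := by
  rw [← cramer_apply, cramer_eq_adjugate_mulVec]
  rfl

/-- `a` with its column `q` removed. -/
def col0 (q : Fin r) (a : Matrix (Fin r) (Fin r) ℂ) : Matrix (Fin r) (Fin r) ℂ := a.updateCol q 0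

theorem col0_updateCol (q : Fin r) (a : Matrix (Fin r) (Fin r) ℂ) :
    (col0 q a).updateCol q (fun l => a l q) = a := by
  ext i j
  by_cases h : j = q
  · subst h; simp [col0]
  · simp [col0, Matrix.updateCol_apply, h]

/-- The part of the characteristic polynomial depending on the column `q`. -/
noncomputable def lam (q : Fin r) (a : Matrix (Fin r) (Fin r) ℂ) (l : Fin r) : ℂ[X] :=
  adjugate (charmatrix (col0 q a)) q l

theorem charpoly_updateCol (q : Fin r) (a : Matrix (Fin r) (Fin r) ℂ) (v : Fin r → ℂ) :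
    (a.updateCol q v).charpoly = (col0 q a).charpoly - ∑ l, Polynomial.C (v l) * lam q a l := by
  have h1 : ∀ l, adjugate (charmatrix (a.updateCol q v)) q l = lam q a l := fun l => by
    rw [lam, adjugate_eq_det_updateCol, adjugate_eq_det_updateCol]
    congr 1
    ext i j
    by_cases hj : j = q
    · subst hj; simp
    · simp [Matrix.updateCol_apply, hj, charmatrix_apply, col0]
  have h2 : ∀ w : Fin r → ℂ, (charmatrix (a.updateCol q w)) = (charmatrix (col0 q a)).updateCol q
      (fun i => (if i = q then Polynomial.X else 0) - Polynomial.C (w i)) := fun w => by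
    ext i j
    by_cases hj : j = q
    · subst hj
      by_cases hi : i = j
      · subst hi; simp [charmatrix_apply]
      · simp [charmatrix_apply, hi, Matrix.updateCol_apply]
    · simp [Matrix.updateCol_apply, hj, charmatrix_apply, col0]
  have h3 : (col0 q a).charpoly = ∑ l, lam q a l * (if l = q then Polynomial.X else 0) := by
    have h4 := h2 0
    simp only [Pi.zero_apply, map_zero, sub_zero] at h4
    rw [show a.updateCol q (0 : Fin r → ℂ) = col0 q a from rfl] at h4
    rw [Matrix.charpoly]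
    conv_lhs => rw [h4, det_updateCol_eq]
    rfl
  rw [Matrix.charpoly, h2, det_updateCol_eq, h3, ← Finset.sum_sub_distrib]
  exact Finset.sum_congr rfl fun l _ => by rw [lam]; ring

theorem det_updateCol_col0 (q : Fin r) (a : Matrix (Fin r) (Fin r) ℂ) (v : Fin r → ℂ) :
    (a.updateCol q v).det = ∑ l, adjugate (col0 q a) q l * v l := by
  rw [← det_updateCol_eq]
  congr 1
  ext i j
  by_cases hj : j = q
  · subst hj; simp
  · simp [Matrix.updateCol_apply, hj, col0]

theorem mul_updateCol (W a : Matrix (Fin r) (Fin r) ℂ) (q : Fin r) (v : Fin r → ℂ) :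
    W * a.updateCol q v = (W * a).updateCol q (W *ᵥ v) := by
  ext i j
  by_cases hj : j = q
  · subst hj; simp [Matrix.mul_apply, mulVec, dotProduct]
  · simp [Matrix.mul_apply, Matrix.updateCol_apply, hj]

/-- The matrix of the linear system for the column `q`. -/
noncomputable def chartM (q : Fin r) (W a : Matrix (Fin r) (Fin r) ℂ) :
    Matrix (Fin r) (Fin r) ℂ :=
  Matrix.of fun k l => if (k : ℕ) = 0 then adjugate (col0 q a) q l
    else (lam q a l).coeff k - ∑ m, W m l * (lam q (W * a) m).coeff k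

/-- The right hand side of the linear system for the column `q`. -/
noncomputable def chartRhs (q : Fin r) (W a : Matrix (Fin r) (Fin r) ℂ) : Fin r → ℂ :=
  fun k => if (k : ℕ) = 0 then 1
    else (col0 q a).charpoly.coeff k - (col0 q (W * a)).charpoly.coeff k

theorem col0_col0 (q : Fin r) (a : Matrix (Fin r) (Fin r) ℂ) : col0 q (col0 q a) = col0 q a := by
  ext i j; by_cases hj : j = q <;> simp [col0, Matrix.updateCol_apply, hj]

theorem col0_mul_col0 (q : Fin r) (W a : Matrix (Fin r) (Fin r) ℂ) :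
    col0 q (W * col0 q a) = col0 q (W * a) := by
  ext i j
  by_cases hj : j = q
  · subst hj; simp [col0]
  · simp [col0, Matrix.updateCol_apply, hj, Matrix.mul_apply]

theorem chartM_col0 (q : Fin r) (W a : Matrix (Fin r) (Fin r) ℂ) :
    chartM q W (col0 q a) = chartM q W a := by
  ext k l; simp only [chartM, of_apply, lam, col0_col0, col0_mul_col0]

theorem chartRhs_col0 (q : Fin r) (W a : Matrix (Fin r) (Fin r) ℂ) :
    chartRhs q W (col0 q a) = chartRhs q W a := by
  funext k; simp only [chartRhs, col0_col0, col0_mul_col0]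

theorem coeff_charpoly_diff (q : Fin r) (W a : Matrix (Fin r) (Fin r) ℂ) (v : Fin r → ℂ) (k : Fin r)
    (hk : (k : ℕ) ≠ 0) :
    (W * a.updateCol q v).charpoly.coeff k - (a.updateCol q v).charpoly.coeff k =
      (chartM q W a *ᵥ v) k - chartRhs q W a k := by
  rw [mul_updateCol, charpoly_updateCol, charpoly_updateCol]
  simp only [chartRhs, hk, if_false, Polynomial.coeff_sub, Polynomial.finsetSum_coeff,
    Polynomial.coeff_C_mul, mulVec, dotProduct, chartM, of_apply, sub_mul, Finset.sum_sub_distrib,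
    Finset.sum_mul]
  have e2 : ∀ l : Fin r, v l * (lam q a l).coeff k = (lam q a l).coeff k * v l := fun l => mul_comm _ _
  have e3 : ∑ x, ∑ y, W x y * v y * (lam q (W * a) x).coeff k =
      ∑ x, ∑ y, W y x * (lam q (W * a) y).coeff k * v x := by
    rw [Finset.sum_comm]
    exact Finset.sum_congr rfl fun x _ => Finset.sum_congr rfl fun y _ => by ring
  rw [e3]
  simp only [e2]
  ring

/-- The linear system expresses that `det a = 1` and that `W a` and `a` have the same
characteristic polynomial. -/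
theorem chart_iff {q : Fin r} {W a : Matrix (Fin r) (Fin r) ℂ} (hW : W.det = 1) (v : Fin r → ℂ) :
    chartM q W a *ᵥ v = chartRhs q W a ↔
      (a.updateCol q v).det = 1 ∧
        (W * a.updateCol q v).charpoly = (a.updateCol q v).charpoly := by
  have h0 : ∀ k : Fin r, (k : ℕ) = 0 →
      (chartM q W a *ᵥ v) k = (a.updateCol q v).det ∧ chartRhs q W a k = 1 := fun k hk => by
    simp [chartM, chartRhs, mulVec, dotProduct, hk, det_updateCol_col0]
  have hr : 0 < r := q.pos
  constructor
  · intro h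
    obtain ⟨e1, e2⟩ := h0 ⟨0, hr⟩ rfl
    have hd : (a.updateCol q v).det = 1 := by rw [← e1, congrFun h _, e2]
    refine ⟨hd, Polynomial.ext fun k => ?_⟩
    rcases lt_trichotomy k r with hk | hk | hk
    · rcases Nat.eq_zero_or_pos k with rfl | hk0
      · have hcz : ∀ M : Matrix (Fin r) (Fin r) ℂ, M.charpoly.coeff 0 = (-1) ^ r * M.det := fun M => by
          rw [det_eq_sign_charpoly_coeff M, Fintype.card_fin, ← mul_assoc, ← mul_pow]
          simp
        rw [hcz, hcz, det_mul, hW, one_mul]
      · have := coeff_charpoly_diff q W a v ⟨k, hk⟩ (by simp; omega)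
        rw [congrFun h ⟨k, hk⟩, sub_self] at this
        exact sub_eq_zero.1 this
    · subst hk
      have h1 := (charpoly_monic (W * a.updateCol q v)).coeff_natDegree
      have h2 := (charpoly_monic (a.updateCol q v)).coeff_natDegree
      rw [charpoly_natDegree_eq_dim, Fintype.card_fin] at h1 h2
      rw [h1, h2]
    · rw [Polynomial.coeff_eq_zero_of_natDegree_lt (by simpa [charpoly_natDegree_eq_dim] using hk),
        Polynomial.coeff_eq_zero_of_natDegree_lt (by simpa [charpoly_natDegree_eq_dim] using hk)]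
  · rintro ⟨hd, hc⟩
    funext k
    by_cases hk : (k : ℕ) = 0
    · obtain ⟨e1, e2⟩ := h0 k hk
      rw [e1, e2, hd]
    · have := coeff_charpoly_diff q W a v k hk
      rw [hc, sub_self] at this
      exact sub_eq_zero.1 this.symm

/-- The vectors `u, c u, c² u, …` as columns. -/
noncomputable def kryl (c : Matrix (Fin r) (Fin r) ℂ) (u : Fin r → ℂ) : Matrix (Fin r) (Fin r) ℂ :=
  Matrix.of fun i k => (c ^ (k : ℕ) *ᵥ u) i

theorem mul_kryl (M c : Matrix (Fin r) (Fin r) ℂ) (u : Fin r → ℂ) (i k : Fin r) :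
    (M * kryl c u) i k = (M *ᵥ (c ^ (k : ℕ) *ᵥ u)) i := rfl

/-- The intertwiner sending `e` to `u`. -/
noncomputable def intertw (a c : Matrix (Fin r) (Fin r) ℂ) (e u : Fin r → ℂ) :
    Matrix (Fin r) (Fin r) ℂ :=
  ((kryl a e).det)⁻¹ • (kryl c u * adjugate (kryl a e))

theorem intertw_spec {a c : Matrix (Fin r) (Fin r) ℂ} {e : Fin r → ℂ} (u : Fin r → ℂ)
    (hK : (kryl a e).det ≠ 0) (hc : c.charpoly = a.charpoly) :
    intertw a c e u * kryl a e = kryl c u ∧ intertw a c e u * a = c * intertw a c e u := by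
  have h1 : intertw a c e u * kryl a e = kryl c u := by
    rw [intertw, Matrix.smul_mul, mul_assoc, adjugate_mul, Matrix.mul_smul, mul_one, smul_smul,
      inv_mul_cancel₀ hK, one_smul]
  refine ⟨h1, ?_⟩
  set b := intertw a c e u
  have hk : ∀ k : ℕ, k < r → b *ᵥ (a ^ k *ᵥ e) = c ^ k *ᵥ u := fun k hk => by
    funext i
    have := congrFun (congrFun h1 i) ⟨k, hk⟩
    rwa [mul_kryl] at this
  have hall : ∀ k : ℕ, k ≤ r → b *ᵥ (a ^ k *ᵥ e) = c ^ k *ᵥ u := by
    intro k hk'
    rcases lt_or_eq_of_le hk' with h | rfl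
    · exact hk k h
    · have hexp : ∀ (M : Matrix (Fin k) (Fin k) ℂ) (x : Fin k → ℂ), M.charpoly = a.charpoly →
          M ^ k *ᵥ x = -∑ j ∈ Finset.range k, a.charpoly.coeff j • (M ^ j *ᵥ x) := by
        intro M x hM
        have hcm := charpoly_monic a
        have hCH := aeval_self_charpoly M
        rw [hM, hcm.as_sum, charpoly_natDegree_eq_dim, Fintype.card_fin] at hCH
        simp only [map_add, map_sum, map_pow, map_mul, Polynomial.aeval_X, Polynomial.aeval_C,
          ← Algebra.smul_def] at hCH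
        rw [eq_neg_of_add_eq_zero_left hCH, neg_mulVec, Matrix.sum_mulVec]
        simp only [smul_mulVec]
      rw [hexp a e rfl, hexp c u hc, mulVec_neg, mulVec_sum]
      exact congrArg _ (Finset.sum_congr rfl fun j hj => by
        rw [mulVec_smul, hk j (Finset.mem_range.1 hj)])
  have h2 : b * a * kryl a e = c * b * kryl a e := by
    ext i k
    rw [mul_kryl, mul_kryl, ← mulVec_mulVec, mulVec_mulVec e a , ← pow_succ',
      hall _ k.2, ← mulVec_mulVec, hk _ k.2, mulVec_mulVec, ← pow_succ']
  calc b * a = b * a * (kryl a e * (((kryl a e).det)⁻¹ • adjugate (kryl a e))) := by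
        rw [Matrix.mul_smul, mul_adjugate, smul_smul, inv_mul_cancel₀ hK, one_smul, mul_one]
    _ = c * b := by
        rw [← mul_assoc, h2, mul_assoc, Matrix.mul_smul, mul_adjugate, smul_smul,
          inv_mul_cancel₀ hK, one_smul, mul_one]

theorem intertw_unique {a c b : Matrix (Fin r) (Fin r) ℂ} {e : Fin r → ℂ}
    (hK : (kryl a e).det ≠ 0) (hb : b * a = c * b) : intertw a c e (b *ᵥ e) = b := by
  have h1 : b * kryl a e = kryl c (b *ᵥ e) := by
    ext i k
    rw [mul_kryl]
    have : ∀ n : ℕ, b * a ^ n = c ^ n * b := fun n =>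
      (show SemiconjBy b a c from hb).pow_right n
    rw [mulVec_mulVec, this, ← mulVec_mulVec]
    rfl
  rw [intertw, ← h1, mul_assoc, mul_adjugate, Matrix.mul_smul, mul_one, smul_smul,
    inv_mul_cancel₀ hK, one_smul]

theorem kryl_smul (d : ℂ) (a : Matrix (Fin r) (Fin r) ℂ) (e : Fin r → ℂ) :
    kryl (d • a) e = kryl a e * diagonal fun k : Fin r => d ^ (k : ℕ) := by
  ext i k
  rw [mul_diagonal]
  simp [kryl, _root_.smul_pow, smul_mulVec, mul_comm]

/-- Membership in the domain of the chart. -/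
def GoodPt (L : Fin g) (q : Fin r) (σ : Tup g r ℂ) : Prop :=
  (chartM q (pre L.1 σ) (σ (L, false))).det ≠ 0 ∧ (kryl (σ (L, false)) 1).det ≠ 0

theorem good_facts {L : Fin g} (hL : L.1 + 1 = g) {σ : Tup g r ℂ} (hσ : IsRep σ) :
    σ (L, true) * σ (L, false) = pre L.1 σ * σ (L, false) * σ (L, true) ∧
      (pre L.1 σ * σ (L, false)).charpoly = (σ (L, false)).charpoly := by
  set A := σ (L, false)
  set B := σ (L, true)
  obtain ⟨a1, a2⟩ := mul_adj_cancel (show A.det = 1 from hσ.1 _)
  obtain ⟨b1, b2⟩ := mul_adj_cancel (show B.det = 1 from hσ.1 _)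
  have hpost : post (L.1 + 1) σ = 1 := by
    unfold post
    rw [List.drop_of_length_le (by simp [cmList, hL]), List.prod_nil]
  have h := hσ.2
  rw [rel_split σ L, hpost, mul_one] at h
  have h1 : B * A = pre L.1 σ * A * B := by
    calc B * A = pre L.1 σ * cm adjugate A B * (B * A) := by rw [h, one_mul]
      _ = pre L.1 σ * A * B := by
        simp only [cm, mul_assoc]
        rw [← mul_assoc (adjugate B) B, b2, one_mul, a2, mul_one]
  refine ⟨h1, ?_⟩
  calc (pre L.1 σ * A).charpoly = (B * (A * adjugate B)).charpoly := by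
        rw [← mul_assoc, h1, mul_assoc, b1, mul_one]
    _ = A.charpoly := by rw [Matrix.charpoly_mul_comm, mul_assoc, b2, mul_one]

theorem isRep_of_chart {L : Fin g} (hL : L.1 + 1 = g) {σ : Tup g r ℂ}
    (hdet : ∀ k, (σ k).det = 1)
    (h : σ (L, true) * σ (L, false) = pre L.1 σ * σ (L, false) * σ (L, true)) : IsRep σ := by
  refine ⟨hdet, ?_⟩
  have hpost : post (L.1 + 1) σ = 1 := by
    unfold post
    rw [List.drop_of_length_le (by simp [cmList, hL]), List.prod_nil]
  obtain ⟨a1, a2⟩ := mul_adj_cancel (hdet (L, false))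
  obtain ⟨b1, b2⟩ := mul_adj_cancel (hdet (L, true))
  rw [rel_split σ L, hpost, mul_one]
  simp only [cm]
  simp only [← mul_assoc]
  rw [← h, mul_assoc (σ (L, true)), a1, mul_one, b1]

/-- Polynomial paths in the special linear group. -/
theorem exists_sl_path (hr : 2 ≤ r) {M₀ M₁ : Matrix (Fin r) (Fin r) ℂ} (h₀ : M₀.det = 1)
    (h₁ : M₁.det = 1) : ∃ γ : ℂ → Matrix (Fin r) (Fin r) ℂ, ContDiff ℂ 1 γ ∧
      γ 0 = M₀ ∧ γ 1 = M₁ ∧ ∀ s, (γ s).det = 1 := by
  have : Nontrivial (Fin r) := Fin.nontrivial_iff_two_le.2 hr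
  have key : ∀ M : SpecialLinearGroup (Fin r) ℂ, ∃ γ : ℂ → Matrix (Fin r) (Fin r) ℂ,
      ContDiff ℂ 1 γ ∧ γ 0 = 1 ∧ γ 1 = M ∧ ∀ s, (γ s).det = 1 := by
    intro M
    have hmul : ∀ A B : SpecialLinearGroup (Fin r) ℂ,
        (∃ γ : ℂ → Matrix (Fin r) (Fin r) ℂ,
          ContDiff ℂ 1 γ ∧ γ 0 = 1 ∧ γ 1 = A ∧ ∀ s, (γ s).det = 1) →
        (∃ γ : ℂ → Matrix (Fin r) (Fin r) ℂ,
          ContDiff ℂ 1 γ ∧ γ 0 = 1 ∧ γ 1 = B ∧ ∀ s, (γ s).det = 1) →
        ∃ γ : ℂ → Matrix (Fin r) (Fin r) ℂ,
          ContDiff ℂ 1 γ ∧ γ 0 = 1 ∧ γ 1 = ↑(A * B) ∧ ∀ s, (γ s).det = 1 := by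
      rintro A B ⟨γ, c, e0, e1, d⟩ ⟨δ, c', f0, f1, d'⟩
      exact ⟨fun s => γ s * δ s, c.mul c', by show γ 0 * δ 0 = 1; rw [e0, f0, mul_one],
        by show γ 1 * δ 1 = _; rw [e1, f1]; rfl, fun s => by rw [det_mul, d, d', one_mul]⟩
    have htr : ∀ (a b : Fin r) (hab : a ≠ b) (z : ℂ), ∃ γ : ℂ → Matrix (Fin r) (Fin r) ℂ,
        ContDiff ℂ 1 γ ∧ γ 0 = 1 ∧ γ 1 = ↑(SpecialLinearGroup.transvection hab z) ∧
          ∀ s, (γ s).det = 1 := by
      intro a b hab z
      refine ⟨fun s => transvection a b (s * z), ?_, by simp [transvection], ?_,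
        fun s => det_transvection_of_ne a b hab _⟩
      · refine contDiff_matrix fun i j => ?_
        simp only [transvection, Matrix.add_apply, Matrix.single_apply]
        split_ifs
        · exact contDiff_const.add (contDiff_id.mul contDiff_const)
        · exact contDiff_const
      · simp only [one_mul]; rfl
    induction M using SpecialLinearGroup.diagonal_transvection_induction' with
    | htransvec a b hab z => exact htr a b hab z
    | hmul A B hA hB => exact hmul A B hA hB
    | hdiag a b hab hz =>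
      rw [diag2n_decompose hab hz]
      refine hmul _ _ (hmul _ _ (hmul _ _ (hmul _ _ (hmul _ _ ?_ ?_) ?_) ?_) ?_) ?_
      all_goals exact htr _ _ _ _
  obtain ⟨γ, c, e0, e1, d⟩ := key ⟨adjugate M₀ * M₁, by simp [det_adjugate, h₀, h₁]⟩
  refine ⟨fun s => M₀ * γ s, contDiff_const.mul c, by show M₀ * γ 0 = M₀; rw [e0, mul_one], ?_,
    fun s => by rw [det_mul, h₀, d, one_mul]⟩
  show M₀ * γ 1 = M₁
  rw [e1]
  show M₀ * (adjugate M₀ * M₁) = M₁
  rw [← mul_assoc, (mul_adj_cancel h₀).1, one_mul]

end Vale.Agent.P002
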