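import Vale.Agent.P002.Tangent

/-!
# P002: a representation with scalar commutant is a limit of ones whose first `g - 1` handles have
scalar commutant
-/

namespace Vale.Agent.P002

open Matrix Filter Topology
open scoped Matrix.Norms.Operator

set_option backward.isDefEq.respectTransparency false

variable {r g : ℕ}

/-- The commutation map with the members of the tuple selected by `p`. -/
noncomputable def commLin (p : Fin g × Bool → Bool) :
    Tup g r ℂ →ₗ[ℂ] (Matrix (Fin r) (Fin r) ℂ →ₗ[ℂ] Tup g r ℂ) :=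
  LinearMap.mk₂ ℂ (fun σ c k => bif p k then c * σ k - σ k * c else 0)
    (fun σ τ c => by
      funext k; cases hk : p k <;> simp [hk, mul_add, add_mul]; abel)
    (fun z σ c => by funext k; cases hk : p k <;> simp [hk, smul_sub])
    (fun σ c d => by
      funext k; cases hk : p k <;> simp [hk, mul_add, add_mul]; abel)
    (fun z σ c => by funext k; cases hk : p k <;> simp [hk, smul_sub])

/-- `commLin` as continuous linear maps. -/
noncomputable def commCLM (p : Fin g × Bool → Bool) (σ : Tup g r ℂ) :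
    Matrix (Fin r) (Fin r) ℂ →L[ℂ] Tup g r ℂ :=
  LinearMap.toContinuousLinearMap (commLin p σ)

theorem contDiff_commCLM (p : Fin g × Bool → Bool) : ContDiff ℂ 1 (commCLM (r := r) p) :=
  (LinearMap.toContinuousLinearMap
    ((LinearMap.toContinuousLinearMap : (Matrix (Fin r) (Fin r) ℂ →ₗ[ℂ] Tup g r ℂ) ≃ₗ[ℂ]
      (Matrix (Fin r) (Fin r) ℂ →L[ℂ] Tup g r ℂ)).toLinearMap.comp (commLin p))).contDiff

/-- The matrices commuting with the selected members. -/
noncomputable def ComK (p : Fin g × Bool → Bool) (σ : Tup g r ℂ) :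
    Submodule ℂ (Matrix (Fin r) (Fin r) ℂ) :=
  LinearMap.ker (commCLM p σ).toLinearMap

theorem mem_ComK {p : Fin g × Bool → Bool} {σ : Tup g r ℂ} {c : Matrix (Fin r) (Fin r) ℂ} :
    c ∈ ComK p σ ↔ ∀ k, p k = true → c * σ k = σ k * c := by
  constructor
  · intro h k hk
    have := congrFun (show commCLM p σ c = 0 from h) k
    simp [commCLM, commLin, hk, sub_eq_zero] at this
    exact this
  · intro h
    show commCLM p σ c = 0
    funext k
    cases hk : p k <;> simp [commCLM, commLin, hk]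
    rw [h k hk, sub_self]

theorem one_mem_ComK (p : Fin g × Bool → Bool) (σ : Tup g r ℂ) : (1 : Matrix (Fin r) (Fin r) ℂ) ∈
    ComK p σ := mem_ComK.2 fun k _ => by rw [one_mul, mul_one]

theorem ComK_le_one_iff (hr : r ≠ 0) {p : Fin g × Bool → Bool} {σ : Tup g r ℂ} :
    Module.finrank ℂ (ComK p σ) ≤ 1 ↔
      ∀ c ∈ ComK p σ, ∃ z : ℂ, c = z • (1 : Matrix (Fin r) (Fin r) ℂ) := by
  have h1 : (1 : Matrix (Fin r) (Fin r) ℂ) ≠ 0 := by
    intro e
    have := congrArg trace e
    simp [trace_one, hr] at this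
  have hsp : Submodule.span ℂ {(1 : Matrix (Fin r) (Fin r) ℂ)} ≤ ComK p σ :=
    (Submodule.span_singleton_le_iff_mem _ _).2 (one_mem_ComK p σ)
  constructor
  · intro h c hc
    have e := Submodule.eq_of_le_of_finrank_le hsp (by rwa [finrank_span_singleton h1])
    rw [← e] at hc
    obtain ⟨z, hz⟩ := Submodule.mem_span_singleton.1 hc
    exact ⟨z, hz.symm⟩
  · intro h
    rw [← finrank_span_singleton (K := ℂ) h1]
    refine Submodule.finrank_mono fun c hc => ?_
    obtain ⟨z, rfl⟩ := h c hc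
    exact Submodule.smul_mem _ z (Submodule.mem_span_singleton_self _)

theorem isSchur_iff (hr : r ≠ 0) {σ : Tup g r ℂ} :
    IsSchur σ ↔ Module.finrank ℂ (ComK (fun _ => true) σ) ≤ 1 := by
  rw [ComK_le_one_iff hr]
  exact ⟨fun h c hc => h c fun k => mem_ComK.1 hc k rfl,
    fun h c hc => h c (mem_ComK.2 fun k _ => hc k)⟩

theorem usc_ComK (p : Fin g × Bool → Bool) (ρ : Tup g r ℂ) :
    ∀ᶠ x in 𝓝 ρ, Module.finrank ℂ (ComK p x) ≤ Module.finrank ℂ (ComK p ρ) :=
  (ker_family ρ (contDiff_commCLM p).contDiffAt).1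

theorem exists_comm_section {p : Fin g × Bool → Bool} {ρ : Tup g r ℂ}
    (hconst : ∀ᶠ x in 𝓝 ρ, IsRep x →
      Module.finrank ℂ (ComK p x) = Module.finrank ℂ (ComK p ρ))
    {c₀ : Matrix (Fin r) (Fin r) ℂ} (hc : c₀ ∈ ComK p ρ) :
    ∃ c : Tup g r ℂ → Matrix (Fin r) (Fin r) ℂ, ContDiffAt ℂ 1 c ρ ∧ c ρ = c₀ ∧
      ∀ᶠ x in 𝓝 ρ, IsRep x → c x ∈ ComK p x := by
  obtain ⟨c, h1, h2, h3⟩ := (ker_family ρ (contDiff_commCLM p).contDiffAt).2 c₀ hc
  exact ⟨c, h1, h2, (h3.and hconst).mono fun x hx hrep => hx.1 (hx.2 hrep)⟩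

/-- The velocity along tangent curves of a function vanishing on representations. -/
theorem fderiv_eq_zero_of_rep (hr : r ≠ 0) {ρ : Tup g r ℂ} (hρ : IsRep ρ) (hS : IsSchur ρ)
    {F : Type*} [NormedAddCommGroup F] [NormedSpace ℂ F] {f : Tup g r ℂ → F}
    (hf : DifferentiableAt ℂ f ρ) (h : ∀ᶠ x in 𝓝 ρ, IsRep x → f x = 0) {v : Tup g r ℂ}
    (hv : v ∈ TanR ρ) : fderiv ℂ f ρ v = 0 := by
  obtain ⟨γ, hγ0, hγ, hγr⟩ := exists_curve hr hρ hS hv
  have h1 := hf.hasFDerivAt.comp_hasDerivAt_of_eq (0 : ℂ) hγ hγ0.symm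
  have h2 : (f ∘ γ) =ᶠ[𝓝 0] fun _ => (0 : F) := by
    have ht : Tendsto γ (𝓝 0) (𝓝 ρ) := hγ0 ▸ hγ.continuousAt.tendsto
    exact ((ht.eventually h).and hγr).mono fun s hs => hs.1 hs.2
  exact h1.unique ((hasDerivAt_const (0 : ℂ) (0 : F)).congr_of_eventuallyEq h2)

theorem section_deriv (hr : r ≠ 0) {p : Fin g × Bool → Bool} {ρ : Tup g r ℂ} (hρ : IsRep ρ)
    (hS : IsSchur ρ) {c : Tup g r ℂ → Matrix (Fin r) (Fin r) ℂ} (hc : ContDiffAt ℂ 1 c ρ)
    (hmem : ∀ᶠ x in 𝓝 ρ, IsRep x → c x ∈ ComK p x) {v : Tup g r ℂ} (hv : v ∈ TanR ρ)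
    {k : Fin g × Bool} (hk : p k = true) :
    c ρ * v k - v k * c ρ = ρ k * fderiv ℂ c ρ v - fderiv ℂ c ρ v * ρ k := by
  have hd := hc.differentiableAt one_ne_zero
  have hP : HasFDerivAt (fun x : Tup g r ℂ => x k) (ContinuousLinearMap.proj k :
      Tup g r ℂ →L[ℂ] Matrix (Fin r) (Fin r) ℂ) ρ := hasFDerivAt_apply k ρ
  have hF := (hd.hasFDerivAt.mul' hP).sub (hP.mul' hd.hasFDerivAt)
  have h0 := fderiv_eq_zero_of_rep hr hρ hS hF.differentiableAt
    (hmem.mono fun x hx hrep => sub_eq_zero.2 (mem_ComK.1 (hx hrep) k hk)) hv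
  rw [hF.fderiv] at h0
  simp [sub_eq_zero] at h0
  rw [sub_eq_sub_iff_add_eq_add]
  exact h0

theorem exists_trace_repr (f : Matrix (Fin r) (Fin r) ℂ →ₗ[ℂ] ℂ) :
    ∃ u : Matrix (Fin r) (Fin r) ℂ, ∀ x, f x = trace (u * x) := by
  refine ⟨Matrix.of fun a b => f (Matrix.single b a 1), fun X => ?_⟩
  conv_lhs => rw [Matrix.matrix_eq_sum_single X]
  simp only [map_sum, trace, diag_apply, Matrix.mul_apply]
  rw [Finset.sum_comm]
  refine Finset.sum_congr rfl fun a _ => Finset.sum_congr rfl fun b _ => ?_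
  rw [show Matrix.single b a (X b a) = X b a • Matrix.single b a (1 : ℂ) by simp, map_smul]
  simp [mul_comm]

theorem finrank_perp_le (S : Submodule ℂ (Matrix (Fin r) (Fin r) ℂ))
    {V : Submodule ℂ (Matrix (Fin r) (Fin r) ℂ)} (h : ∀ y ∈ S, ∀ x ∈ V, trace (y * x) = 0) :
    Module.finrank ℂ V + Module.finrank ℂ S ≤ r * r := by
  let Ψ : Matrix (Fin r) (Fin r) ℂ →ₗ[ℂ] Module.Dual ℂ S :=
    LinearMap.mk₂ ℂ (fun x (y : S) => trace ((y : Matrix (Fin r) (Fin r) ℂ) * x))
      (fun x x' y => by simp [mul_add]) (fun z x y => by simp)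
      (fun x y y' => by simp [add_mul]) (fun z x y => by simp)
  have hsurj : LinearMap.range Ψ = ⊤ := by
    rw [LinearMap.range_eq_top]
    intro φ
    obtain ⟨f, hf⟩ := LinearMap.exists_extend φ
    obtain ⟨u, hu⟩ := exists_trace_repr f
    refine ⟨u, LinearMap.ext fun y => ?_⟩
    show trace ((y : Matrix (Fin r) (Fin r) ℂ) * u) = φ y
    rw [trace_mul_comm, ← hu, ← hf]
    rfl
  have h1 := LinearMap.finrank_range_add_finrank_ker Ψ
  rw [hsurj, finrank_top, Subspace.dual_finrank_eq] at h1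
  have h2 : V ≤ LinearMap.ker Ψ := fun x hx => LinearMap.ext fun y => h y y.2 x hx
  have h3 := Submodule.finrank_mono h2
  simp [Module.finrank_matrix] at h1
  omega

/-- `ad c`. -/
noncomputable def adc (c : Matrix (Fin r) (Fin r) ℂ) :
    Matrix (Fin r) (Fin r) ℂ →ₗ[ℂ] Matrix (Fin r) (Fin r) ℂ :=
  LinearMap.mulLeft ℂ c - LinearMap.mulRight ℂ c

theorem finrank_range_adc (c : Matrix (Fin r) (Fin r) ℂ) :
    Module.finrank ℂ (LinearMap.range (adc c)) + Module.finrank ℂ (Cen c) = r * r := by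
  have h := LinearMap.finrank_range_add_finrank_ker (adc c)
  have e : LinearMap.ker (adc c) = Cen c := by
    ext x
    simp only [adc, Cen, LinearMap.mem_ker, LinearMap.sub_apply, LinearMap.mulLeft_apply,
      LinearMap.mulRight_apply, sub_eq_zero]
    exact eq_comm
  rw [e] at h
  simpa [Module.finrank_matrix] using h

theorem trace_CenComm_mul {a y : Matrix (Fin r) (Fin r) ℂ} (hy : y ∈ CenComm a) :
    trace (y * a) = 0 := by
  induction hy using Submodule.span_induction with
  | mem x hx =>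
    obtain ⟨c, hc, c', hc', rfl⟩ := hx
    rw [sub_mul, trace_sub, mul_assoc c c' a, mem_Cen.1 hc', ← mul_assoc c,
      trace_mul_comm (c * a) c', ← mul_assoc, sub_self]
  | zero => simp
  | add x y _ _ hx hy => rw [add_mul, trace_add, hx, hy, add_zero]
  | smul z x _ hx => rw [Matrix.smul_mul, trace_smul, hx, smul_zero]

/-- The selection of the handles other than the last one. -/
def selRest (L : Fin g) : Fin g × Bool → Bool := fun k => decide (k.1 ≠ L)

/-- The restriction to the handles other than `L`. -/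
noncomputable def resRest (L : Fin g) (ρ : Tup g r ℂ) :
    TanR ρ →ₗ[ℂ] ({k : Fin g × Bool // selRest L k = true} → Matrix (Fin r) (Fin r) ℂ) :=
  LinearMap.pi fun k => (LinearMap.proj k.1).comp (TanR ρ).subtype

theorem card_rest (L : Fin g) :
    Fintype.card {k : Fin g × Bool // selRest L k = true} = 2 * (g - 1) := by
    rw [Fintype.card_congr ((Equiv.subtypeEquivRight fun k => by simp [selRest]).trans
      (Equiv.prodSubtypeFstEquivSubtypeProd (α := Fin g) (β := Bool) (p := fun i => i ≠ L))),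
      Fintype.card_prod, Fintype.card_bool, Fintype.card_subtype_compl, Fintype.card_subtype_eq,
      Fintype.card_fin, mul_comm]

theorem count_image (hr : r ≠ 0) {ρ : Tup g r ℂ} (hρ : IsRep ρ) (L : Fin g)
    {c : Matrix (Fin r) (Fin r) ℂ} (hc : c ∈ ComK (selRest L) ρ)
    (hext : ∀ v ∈ TanR ρ, ∃ X : Matrix (Fin r) (Fin r) ℂ, ∀ k, selRest L k = true →
      c * v k - v k * c = ρ k * adc c X - adc c X * ρ k) :
    Module.finrank ℂ (LinearMap.range (resRest L ρ)) +
        Fintype.card {k : Fin g × Bool // selRest L k = true} ≤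
      Fintype.card {k : Fin g × Bool // selRest L k = true} * Module.finrank ℂ (Cen c) +
        Module.finrank ℂ (LinearMap.range (adc c)) := by
  classical
  set A := ρ (L, false) with hA
  set B := ρ (L, true) with hB
  let κ := {k : Fin g × Bool // selRest L k = true}
  have hne : ∀ k : Fin g × Bool, trace (adjugate (ρ k) * ρ k) ≠ 0 := fun k => by
    rw [(mul_adj_cancel (hρ.1 k)).2, trace_one, Fintype.card_fin]
    exact Nat.cast_ne_zero.2 hr
  have htan : ∀ v ∈ TanR ρ, ∀ k, trace (adjugate (ρ k) * v k) = 0 := fun v hv k => by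
    have := congrArg Prod.fst (show fderiv ℂ Requ ρ v = 0 from hv)
    rw [fderiv_Requ_fst hρ] at this
    exact congrFun this k
  let res : TanR ρ →ₗ[ℂ] (κ → Matrix (Fin r) (Fin r) ℂ) :=
    LinearMap.pi fun k => (LinearMap.proj k.1).comp (TanR ρ).subtype
  let E : (κ → Matrix (Fin r) (Fin r) ℂ) →ₗ[ℂ] (κ → Matrix (Fin r) (Fin r) ℂ) :=
    LinearMap.pi fun k => (adc c).comp (LinearMap.proj k)
  let F : Matrix (Fin r) (Fin r) ℂ →ₗ[ℂ] (κ → Matrix (Fin r) (Fin r) ℂ) :=
    LinearMap.pi fun k => adc (ρ k.1)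
  let E' := E.domRestrict (LinearMap.range res)
  have h1 := LinearMap.finrank_range_add_finrank_ker E'
  have hEr : Module.finrank ℂ (LinearMap.range E') ≤
      Module.finrank ℂ (LinearMap.range (adc c)) := by
    refine le_trans (Submodule.finrank_mono (t := Submodule.map F (LinearMap.range (adc c))) ?_)
      (Submodule.finrank_map_le _ _)
    rintro _ ⟨⟨_, ⟨v, rfl⟩⟩, rfl⟩
    obtain ⟨X, hX⟩ := hext v.1 v.2
    exact ⟨adc c X, ⟨X, rfl⟩, funext fun k => (hX k.1 k.2).symm⟩
  have hEk : Module.finrank ℂ (LinearMap.ker E') + Fintype.card κ ≤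
      Fintype.card κ * Module.finrank ℂ (Cen c) := by
    let D : κ → Submodule ℂ (Matrix (Fin r) (Fin r) ℂ) := fun k => Cen c ⊓
      LinearMap.ker ((Matrix.traceLinearMap (Fin r) ℂ ℂ).comp (LinearMap.mulLeft ℂ (adjugate (ρ k.1))))
    have hD : ∀ k, Module.finrank ℂ (D k) + 1 ≤ Module.finrank ℂ (Cen c) := by
      intro k
      refine Submodule.finrank_lt_finrank_of_lt (lt_of_le_of_ne inf_le_left fun e => ?_)
      have : ρ k.1 ∈ D k := by rw [e]; exact mem_Cen.2 ((mem_ComK.1 hc k.1 k.2).symm)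
      exact hne k.1 this.2
    have hmem : ∀ (x : LinearMap.ker E') k, x.1.1 k ∈ D k := by
      intro x k
      refine Submodule.mem_inf.2 ⟨mem_Cen.2 ?_, ?_⟩
      · have := congrFun (LinearMap.mem_ker.1 x.2) k
        exact (sub_eq_zero.1 (show c * x.1.1 k - x.1.1 k * c = 0 from this)).symm
      · obtain ⟨v, hv⟩ := x.1.2
        rw [← hv]
        exact htan v.1 v.2 k.1
    let j : LinearMap.ker E' →ₗ[ℂ] (∀ k, D k) :=
      { toFun := fun x k => ⟨x.1.1 k, hmem x k⟩
        map_add' := fun x y => rfl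
        map_smul' := fun z x => rfl }
    have hj := LinearMap.finrank_le_finrank_of_injective (f := j) (fun x y e => Subtype.ext
      (Subtype.ext (funext fun k => congrArg Subtype.val (congrFun e k))))
    rw [Module.finrank_pi_fintype] at hj
    calc _ ≤ ∑ k, (Module.finrank ℂ (D k) + 1) := by
            rw [Finset.sum_add_distrib, Finset.sum_const, Finset.card_univ, smul_eq_mul, mul_one]
            exact Nat.add_le_add_right hj _
      _ ≤ ∑ _k : κ, Module.finrank ℂ (Cen c) := Finset.sum_le_sum fun k _ => hD k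
      _ = _ := by rw [Finset.sum_const, Finset.card_univ, smul_eq_mul]
  have h1' : Module.finrank ℂ (LinearMap.range E') + Module.finrank ℂ (LinearMap.ker E') =
      Module.finrank ℂ (LinearMap.range (resRest L ρ)) := h1
  have eκ : Fintype.card κ = Fintype.card {k : Fin g × Bool // selRest L k = true} := rfl
  rw [eκ] at hEk
  omega

theorem count_kernel (hr : r ≠ 0) {ρ : Tup g r ℂ} (hρ : IsRep ρ) (L : Fin g)
    (hperp : ∀ v ∈ TanR ρ, ∀ y ∈ CenComm (ρ (L, false)), trace (y * v (L, false)) = 0) :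
    Module.finrank ℂ (LinearMap.ker (resRest L ρ)) +
      (Module.finrank ℂ (CenComm (ρ (L, false))) + 2) ≤
        r * r + Module.finrank ℂ (Cen (ρ (L, false))) := by
  classical
  set A := ρ (L, false) with hA
  set B := ρ (L, true) with hB
  let κ := {k : Fin g × Bool // selRest L k = true}
  have hne : ∀ k : Fin g × Bool, trace (adjugate (ρ k) * ρ k) ≠ 0 := fun k => by
    rw [(mul_adj_cancel (hρ.1 k)).2, trace_one, Fintype.card_fin]
    exact Nat.cast_ne_zero.2 hr
  have htan : ∀ v ∈ TanR ρ, ∀ k, trace (adjugate (ρ k) * v k) = 0 := fun v hv k => by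
    have := congrArg Prod.fst (show fderiv ℂ Requ ρ v = 0 from hv)
    rw [fderiv_Requ_fst hρ] at this
    exact congrFun this k
  let res : TanR ρ →ₗ[ℂ] (κ → Matrix (Fin r) (Fin r) ℂ) :=
    LinearMap.pi fun k => (LinearMap.proj k.1).comp (TanR ρ).subtype
  have h2 := LinearMap.finrank_range_add_finrank_ker res
  let K2 : Submodule ℂ (Tup g r ℂ) := Submodule.map (TanR ρ).subtype (LinearMap.ker res)
  have hK2 : Module.finrank ℂ K2 = Module.finrank ℂ (LinearMap.ker res) :=
    Submodule.finrank_map_subtype_eq _ _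
  have hzero : ∀ x ∈ K2, ∀ k : Fin g × Bool, k.1 ≠ L → x k = 0 := by
    rintro _ ⟨y, hy, rfl⟩ k hk
    exact congrFun (LinearMap.mem_ker.1 hy) ⟨k, by simp [selRest, hk]⟩
  have hK2T : ∀ x ∈ K2, x ∈ TanR ρ := by
    rintro _ ⟨y, -, rfl⟩
    exact y.2
  let α : K2 →ₗ[ℂ] Matrix (Fin r) (Fin r) ℂ :=
    (LinearMap.proj (L, false) : Tup g r ℂ →ₗ[ℂ] Matrix (Fin r) (Fin r) ℂ).domRestrict K2
  have h3 := LinearMap.finrank_range_add_finrank_ker α
  have hdA : A.det = 1 := hρ.1 _
  have hdB : B.det = 1 := hρ.1 _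
  have hαr : Module.finrank ℂ (LinearMap.range α) +
      (Module.finrank ℂ (CenComm A) + 1) ≤ r * r := by
    have hS' : Module.finrank ℂ (CenComm A ⊔ Submodule.span ℂ {adjugate A} :
        Submodule ℂ (Matrix (Fin r) (Fin r) ℂ)) = Module.finrank ℂ (CenComm A) + 1 := by
      have hA0 : adjugate A ≠ 0 := fun e => hne (L, false) (by rw [← hA, e, zero_mul, trace_zero])
      have := Submodule.finrank_sup_add_finrank_inf_eq (CenComm A)
        (Submodule.span ℂ {adjugate A})
      rw [finrank_span_singleton hA0, show CenComm A ⊓ Submodule.span ℂ {adjugate A} = ⊥ from ?_,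
        finrank_bot] at this
      · omega
      · rw [eq_bot_iff]
        intro y hy
        obtain ⟨z, rfl⟩ := Submodule.mem_span_singleton.1 hy.2
        have h0 := trace_CenComm_mul hy.1
        rw [Matrix.smul_mul, trace_smul, smul_eq_mul] at h0
        rw [Submodule.mem_bot, (mul_eq_zero.1 h0).resolve_right (hne (L, false)), zero_smul]
    rw [← hS']
    refine finrank_perp_le _ ?_
    rintro y hy _ ⟨x, rfl⟩
    obtain ⟨y1, hy1, y2, hy2, rfl⟩ := Submodule.mem_sup.1 hy
    obtain ⟨z, rfl⟩ := Submodule.mem_span_singleton.1 hy2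
    rw [add_mul, trace_add, Matrix.smul_mul, trace_smul]
    rw [show trace (y1 * α x) = 0 from hperp x.1 (hK2T _ x.2) y1 hy1,
      show trace (adjugate A * α x) = 0 from htan x.1 (hK2T _ x.2) (L, false), smul_zero, add_zero]
  have hαk : Module.finrank ℂ (LinearMap.ker α) + 1 ≤ Module.finrank ℂ (Cen A) := by
    let W : Submodule ℂ (Matrix (Fin r) (Fin r) ℂ) :=
      Cen A ⊓ LinearMap.ker (Matrix.traceLinearMap (Fin r) ℂ ℂ)
    have hW : Module.finrank ℂ W < Module.finrank ℂ (Cen A) := by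
      refine Submodule.finrank_lt_finrank_of_lt (lt_of_le_of_ne inf_le_left fun e => ?_)
      have : (1 : Matrix (Fin r) (Fin r) ℂ) ∈ W := by
        rw [show W = Cen A from e]; exact mem_Cen.2 (by rw [one_mul, mul_one])
      have h0 : trace (1 : Matrix (Fin r) (Fin r) ℂ) = 0 := this.2
      rw [trace_one, Fintype.card_fin] at h0
      exact Nat.cast_ne_zero.2 hr h0
    have hval : ∀ x : LinearMap.ker α, x.1.1 = single1 L 0 (x.1.1 (L, true)) := by
      intro x
      have e := eq_single1 (i := L) (fun k hk => hzero x.1.1 x.1.2 k hk)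
      rwa [show x.1.1 (L, false) = 0 from x.2] at e
    have hmem : ∀ x : LinearMap.ker α, adjugate B * x.1.1 (L, true) ∈ W := by
      intro x
      set δ := x.1.1 (L, true)
      have ht : trace (adjugate B * δ) = 0 := htan x.1.1 (hK2T _ x.1.2) (L, true)
      have h0 : (fderiv ℂ Requ ρ x.1.1).2 = 0 :=
        congrArg Prod.snd (show fderiv ℂ Requ ρ x.1.1 = 0 from hK2T _ x.1.2)
      rw [hval x, fderiv_Requ_single hρ L (by simp) ht] at h0
      obtain ⟨p1, p2⟩ := mul_adj_cancel (det_pre hρ.1 L.1)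
      have h1 : cmVar A B 0 (δ * adjugate B) = 0 := by
        have := congrArg (fun M => adjugate (pre L.1 ρ) * M * pre L.1 ρ) h0
        simp only [mul_assoc, p2, mul_one, mul_zero, zero_mul] at this
        rw [← mul_assoc (adjugate (pre L.1 ρ)), p2, one_mul] at this
        simpa [hA, hB] using this
      obtain ⟨a1, a2⟩ := mul_adj_cancel hdA
      obtain ⟨b1, b2⟩ := mul_adj_cancel hdB
      refine Submodule.mem_inf.2 ⟨mem_Cen.2 ?_, ?_⟩
      · set Y := δ * adjugate B with hY
        have hδ : δ = Y * B := by rw [hY, mul_assoc, b2, mul_one]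
        simp only [cmVar, mul_zero, zero_mul, sub_zero, zero_add, sub_eq_zero] at h1
        have hw := mul_adj_cancel (det_cm hdA hdB)
        have e2 : adjugate (cm adjugate A B) * A * Y =
            Y * adjugate (cm adjugate A B) * A := by
          have := congrArg (fun M => adjugate (cm adjugate A B) * M * A) h1
          simp only [mul_assoc, a2, mul_one] at this
          rw [← mul_assoc (adjugate (cm adjugate A B)) (cm adjugate A B), hw.2, one_mul] at this
          simpa only [mul_assoc] using this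
        have e3 : adjugate (cm adjugate A B) * A = B * A * adjugate B := by
          have hcm : cm adjugate A B * (B * A * adjugate B * adjugate A) = 1 := by
            rw [show cm adjugate A B * (B * A * adjugate B * adjugate A) =
              A * B * ((adjugate A * ((adjugate B * B) * A)) * adjugate B) * adjugate A by
              simp only [cm, mul_assoc], b2, one_mul, a2, one_mul, mul_assoc A B, b1, mul_one, a1]
          have : adjugate (cm adjugate A B) = B * A * adjugate B * adjugate A := by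
            calc adjugate (cm adjugate A B) = adjugate (cm adjugate A B) *
                  (cm adjugate A B * (B * A * adjugate B * adjugate A)) := by rw [hcm, mul_one]
              _ = _ := by rw [← mul_assoc, hw.2, one_mul]
          rw [this, mul_assoc, a2, mul_one]
        rw [e3, mul_assoc Y, e3] at e2
        have h5 := congrArg (fun M => adjugate B * M * B) e2
        simp only [mul_assoc] at h5
        rw [← mul_assoc (adjugate B) B, b2, one_mul, mul_one] at h5
        rw [hδ]
        simp only [mul_assoc]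
        exact h5.symm
      · exact ht
    let j0 : K2 →ₗ[ℂ] Matrix (Fin r) (Fin r) ℂ :=
      ((LinearMap.mulLeft ℂ (adjugate B)).comp
        (LinearMap.proj (L, true) : Tup g r ℂ →ₗ[ℂ] Matrix (Fin r) (Fin r) ℂ)).domRestrict K2
    let j : LinearMap.ker α →ₗ[ℂ] W := (j0.domRestrict (LinearMap.ker α)).codRestrict W hmem
    have hj := LinearMap.finrank_le_finrank_of_injective (f := j) fun x y e => by
      have e' : adjugate B * x.1.1 (L, true) = adjugate B * y.1.1 (L, true) :=
        congrArg Subtype.val e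
      have e'' : x.1.1 (L, true) = y.1.1 (L, true) := by
        have := congrArg (fun M => B * M) e'
        simpa only [← mul_assoc, (mul_adj_cancel hdB).1, one_mul] using this
      refine Subtype.ext (Subtype.ext ?_)
      rw [hval x, hval y, e'']
    omega
  have hK2' : Module.finrank ℂ K2 = Module.finrank ℂ (LinearMap.ker (resRest L ρ)) := hK2
  omega

/-- The dimension count: no stratum with a constant centraliser and a persistent non-scalar
commutant of the other handles fills the representation variety. -/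
theorem count_false (hg : 2 ≤ g) (hr : r ≠ 0) {ρ : Tup g r ℂ} (hρ : IsRep ρ) (hS : IsSchur ρ)
    (L : Fin g)
    (hperp : ∀ v ∈ TanR ρ, ∀ y ∈ CenComm (ρ (L, false)), trace (y * v (L, false)) = 0)
    {c : Matrix (Fin r) (Fin r) ℂ} (hc : c ∈ ComK (selRest L) ρ) (hns : ∀ z : ℂ, c ≠ z • 1)
    (hext : ∀ v ∈ TanR ρ, ∃ X : Matrix (Fin r) (Fin r) ℂ, ∀ k, selRest L k = true →
      c * v k - v k * c = ρ k * adc c X - adc c X * ρ k) : False := by
  have hI := count_image hr hρ L hc hext
  have hK := count_kernel hr hρ L hperp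
  rw [card_rest] at hI
  have h2 := LinearMap.finrank_range_add_finrank_ker (resRest L ρ)
  set A := ρ (L, false)
  have hzA := finrank_Cen_le A
  have hzc := finrank_Cen_add_le hns
  have had := finrank_range_adc c
  have hT := finrank_TanR hr hρ hS
  obtain ⟨g', rfl⟩ : ∃ g', g = g' + 2 := ⟨g - 2, by omega⟩
  rw [show g' + 2 - 1 = g' + 1 from rfl] at hI
  have ea : 2 * (g' + 1) * Module.finrank ℂ (Cen c) =
      2 * (g' * Module.finrank ℂ (Cen c)) + 2 * Module.finrank ℂ (Cen c) := by ring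
  have eb : g' * Module.finrank ℂ (Cen c) + g' ≤ g' * (r * r) := by
    calc g' * Module.finrank ℂ (Cen c) + g' = g' * (Module.finrank ℂ (Cen c) + 1) := by ring
      _ ≤ g' * (r * r) := Nat.mul_le_mul_left _ (by omega)
  have ec : 2 * (g' + 2) * (r * r) = 2 * (g' * (r * r)) + 4 * (r * r) := by ring
  omega

theorem exists_ginverse (c : Matrix (Fin r) (Fin r) ℂ) : ∃ G, c * G * c = c := by
  obtain ⟨s, hs⟩ := (Matrix.mulVecLin c).rangeRestrict.exists_rightInverse_of_surjective
    (LinearMap.range_rangeRestrict _)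
  obtain ⟨s', hs'⟩ := LinearMap.exists_extend s
  refine ⟨LinearMap.toMatrix' s', Matrix.ext_of_mulVec_single fun k => ?_⟩
  rw [← mulVec_mulVec, ← mulVec_mulVec, LinearMap.toMatrix'_mulVec]
  set y : LinearMap.range (Matrix.mulVecLin c) :=
    ⟨c *ᵥ Pi.single k 1, ⟨Pi.single k 1, rfl⟩⟩
  rw [show s' (c *ᵥ Pi.single k 1) = s y from LinearMap.congr_fun hs' y]
  exact congrArg Subtype.val (LinearMap.congr_fun hs y)

theorem exists_idempotent {c : Matrix (Fin r) (Fin r) ℂ} (htr : trace c = 0)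
    (hnil : c ^ r ≠ 0) :
    ∃ e : Matrix (Fin r) (Fin r) ℂ, e * e = e ∧ e ≠ 0 ∧ e ≠ 1 ∧
      ∀ x, c * x = x * c → e * x = x * e := by
  have hr : r ≠ 0 := by rintro rfl; exact hnil (Subsingleton.elim _ _)
  obtain ⟨l, hl⟩ := IsAlgClosed.exists_root c.charpoly
    (fun h => by
      have h1 := congrArg Polynomial.natDegree (show c.charpoly = c.charpoly from rfl)
      rw [Polynomial.degree_eq_natDegree (Matrix.charpoly_monic c).ne_zero,
        Matrix.charpoly_natDegree_eq_dim, Fintype.card_fin] at h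
      exact hr (by exact_mod_cast h))
  have hne := (Matrix.charpoly_monic c).ne_zero
  obtain ⟨q, hq, hql⟩ := Polynomial.exists_eq_pow_rootMultiplicity_mul_and_not_dvd c.charpoly hne l
  set k := Polynomial.rootMultiplicity l c.charpoly with hk
  have hk0 : 0 < k := (Polynomial.rootMultiplicity_pos hne).2 hl
  have hqd : q.natDegree ≠ 0 := by
    intro h0
    obtain ⟨z, hz⟩ := Polynomial.natDegree_eq_zero.1 h0
    have hm := Matrix.charpoly_monic c
    rw [hq, ← hz] at hm
    have hz1 : z = 1 := by simpa [Polynomial.Monic, Polynomial.leadingCoeff_mul] using hm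
    have hp : c.charpoly = (Polynomial.X - Polynomial.C l) ^ k := by
      rw [hq, ← hz, hz1, map_one, mul_one]
    have hkr : k = r := by
      have := congrArg Polynomial.natDegree hp
      simpa [Matrix.charpoly_natDegree_eq_dim] using this.symm
    have : Nonempty (Fin r) := ⟨⟨0, Nat.pos_of_ne_zero hr⟩⟩
    have htl := Matrix.trace_eq_neg_charpoly_coeff c
    rw [hp, hkr, htr, Fintype.card_fin, sub_eq_add_neg, ← map_neg,
      Polynomial.coeff_X_add_C_pow, Nat.sub_sub_self (Nat.pos_of_ne_zero hr), pow_one,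
      Nat.choose_symm_of_eq_add (show r = r - 1 + 1 by omega), Nat.choose_one_right] at htl
    have hl0 : l = 0 := by
      have : l * (r : ℂ) = 0 := by linear_combination -htl
      exact (mul_eq_zero.1 this).resolve_right (Nat.cast_ne_zero.2 hr)
    have := Matrix.aeval_self_charpoly c
    rw [hp, hkr, hl0] at this
    exact hnil (by simpa using this)
  have hcop : IsCoprime ((Polynomial.X - Polynomial.C l) ^ k) q :=
    ((Polynomial.prime_X_sub_C l).coprime_iff_not_dvd.2 hql).pow_left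
  obtain ⟨a, b, hab⟩ := hcop
  obtain ⟨m, hm⟩ := IsAlgClosed.exists_root q (fun h => hqd (by
    have hq0 : q ≠ 0 := fun e => hne (by rw [hq, e, mul_zero])
    rw [Polynomial.degree_eq_natDegree hq0] at h
    exact_mod_cast h))
  set φ := Polynomial.aeval (R := ℂ) c
  have hch : φ ((Polynomial.X - Polynomial.C l) ^ k * q) = 0 := by
    rw [← hq]; exact Matrix.aeval_self_charpoly c
  have hsing : ∀ z : ℂ, c.charpoly.IsRoot z → ∀ s : Polynomial ℂ, s.IsRoot z → φ s ≠ 1 := by
    intro z hz s hs e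
    obtain ⟨w, hw⟩ := Polynomial.dvd_iff_isRoot.2 hs
    have h0 : (Matrix.scalar (Fin r) z - c).det = 0 := by rw [← Matrix.eval_charpoly]; exact hz
    have h1 := congrArg Matrix.det e
    rw [hw, map_mul, det_mul, det_one, map_sub, Polynomial.aeval_X, Polynomial.aeval_C] at h1
    have h2 : (c - algebraMap ℂ (Matrix (Fin r) (Fin r) ℂ) z).det = 0 := by
      rw [show c - algebraMap ℂ (Matrix (Fin r) (Fin r) ℂ) z =
        -(Matrix.scalar (Fin r) z - c) by rw [neg_sub]; rfl, det_neg, h0, mul_zero]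
    rw [h2, zero_mul] at h1
    exact zero_ne_one h1
  refine ⟨φ (b * q), ?_, fun e0 => ?_, fun e1 => ?_, fun x hx => ?_⟩
  · rw [← map_mul, ← sub_eq_zero, ← map_sub]
    have : b * q * (b * q) - b * q =
        -(a * b) * ((Polynomial.X - Polynomial.C l) ^ k * q) := by
      linear_combination (b * q) * hab
    rw [this, map_mul, hch, mul_zero]
  · refine hsing l hl (a * (Polynomial.X - Polynomial.C l) ^ k)
      (by simp [Polynomial.IsRoot, zero_pow hk0.ne']) ?_
    have := congrArg φ hab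
    rw [map_add, e0, add_zero, map_one] at this
    exact this
  · refine hsing m ?_ (b * q) (by simp [Polynomial.IsRoot, show q.eval m = 0 from hm]) e1
    rw [hq]
    simp [Polynomial.IsRoot, show q.eval m = 0 from hm]
  · exact (commute_aeval hx.symm (b * q)).symm

/-- Near a representation with scalar commutant there is one whose first `g - 1` handles have scalar
commutant. -/
theorem exists_rest_schur (hg : 2 ≤ g) (hr : r ≠ 0) (L : Fin g) {σ : Tup g r ℂ} (hσ : IsRep σ)
    (hS : IsSchur σ) {N : Set (Tup g r ℂ)} (hN : N ∈ 𝓝 σ) :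
    ∃ ρ ∈ N, IsRep ρ ∧ IsSchur ρ ∧ Module.finrank ℂ (ComK (selRest L) ρ) ≤ 1 := by
  classical
  set p := selRest L
  let qa : Fin g × Bool → Bool := fun k => decide (k = (L, false))
  let f : Tup g r ℂ → ℕ := fun x =>
    Module.finrank ℂ (ComK qa x) + Module.finrank ℂ (ComK p x)
  obtain ⟨N', hN'sub, hN'o, hσN'⟩ : ∃ N', N' ⊆ N ∩ {x | IsSchur x} ∧ IsOpen N' ∧ σ ∈ N' := by
    refine mem_nhds_iff.1 (Filter.inter_mem hN ?_)
    filter_upwards [usc_ComK (fun _ => true) σ] with x hx
    exact (isSchur_iff hr).2 (hx.trans ((isSchur_iff hr).1 hS))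
  have hex : ∃ n, ∃ x ∈ N', IsRep x ∧ f x = n := ⟨_, σ, hσN', hσ, rfl⟩
  obtain ⟨ρ, hρN, hρ, hfρ⟩ := Nat.find_spec hex
  by_contra hno
  push Not at hno
  have hconst : ∀ᶠ x in 𝓝 ρ, x ∈ N' ∧ (IsRep x →
      Module.finrank ℂ (ComK qa x) = Module.finrank ℂ (ComK qa ρ) ∧
        Module.finrank ℂ (ComK p x) = Module.finrank ℂ (ComK p ρ)) := by
    filter_upwards [hN'o.mem_nhds hρN, usc_ComK qa ρ, usc_ComK p ρ] with x hx ha hp
    refine ⟨hx, fun hrep => ?_⟩
    have := Nat.find_min' hex ⟨x, hx, hrep, rfl⟩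
    simp only [f] at hfρ this
    omega
  obtain ⟨O, hOsub, hOo, hρO⟩ := eventually_nhds_iff.1 hconst
  have hperp : ∀ x ∈ O, IsRep x → ∀ v ∈ TanR x, ∀ y ∈ CenComm (x (L, false)),
      trace (y * v (L, false)) = 0 := by
    intro x hx hrep v hv y hy
    have hsx : IsSchur x := (hN'sub (hOsub x hx).1).2
    have hc : ∀ᶠ x' in 𝓝 x, IsRep x' →
        Module.finrank ℂ (ComK qa x') = Module.finrank ℂ (ComK qa x) := by
      filter_upwards [hOo.mem_nhds hx] with x' hx' hr'
      rw [((hOsub x' hx').2 hr').1, ((hOsub x hx).2 hrep).1]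
    have hq : qa (L, false) = true := by simp [qa]
    induction hy using Submodule.span_induction with
    | mem y hy =>
      obtain ⟨c, hcm, c', hcm', rfl⟩ := hy
      obtain ⟨cs, hcs1, hcs2, hcs3⟩ := exists_comm_section hc (c₀ := c) (mem_ComK.2 fun k hk => by
        rw [show k = (L, false) by simpa [qa] using hk]; exact mem_Cen.1 hcm)
      have h := section_deriv hr hrep hsx hcs1 hcs3 hv hq
      rw [hcs2] at h
      have h2 := congrArg (fun M => trace (M * c')) h
      simp only [sub_mul, trace_sub] at h2 ⊢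
      rw [trace_mul_comm (v (L, false) * c) c', trace_mul_comm (c * v (L, false)) c',
        trace_mul_comm (x (L, false) * _) c', ← mul_assoc c' (x (L, false)),
        mem_Cen.1 hcm', mul_assoc (x (L, false)), trace_mul_comm (x (L, false)) (c' * _),
        mul_assoc c', ← mul_assoc, trace_mul_comm _ c'] at h2
      simp only [mul_assoc] at h2 ⊢
      rw [trace_mul_comm c (c' * v (L, false))]
      simp only [mul_assoc]
      linear_combination -h2
    | zero => simp
    | add y y' _ _ hy hy' => rw [add_mul, trace_add, hy, hy', add_zero]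
    | smul z y _ hy => rw [Matrix.smul_mul, trace_smul, hy, smul_zero]
  have hnoO : ∀ x ∈ O, IsRep x → 1 < Module.finrank ℂ (ComK p x) := fun x hx hrep =>
    hno x (hN'sub (hOsub x hx).1).1 hrep (hN'sub (hOsub x hx).1).2
  have hsec : ∀ x ∈ O, IsRep x → ∀ᶠ x' in 𝓝 x, IsRep x' →
      Module.finrank ℂ (ComK p x') = Module.finrank ℂ (ComK p x) := fun x hx hrep => by
    filter_upwards [hOo.mem_nhds hx] with x' hx' hr'
    rw [((hOsub x' hx').2 hr').2, ((hOsub x hx).2 hrep).2]
  -- no idempotents in the commutants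
  have hnilp : ∀ x ∈ O, IsRep x → ∀ c ∈ ComK p x, trace c = 0 → c ^ r = 0 := by
    intro x hx hrep c hc htr
    by_contra hnil
    obtain ⟨e, he, he0, he1, hecomm⟩ := exists_idempotent htr hnil
    have hsx : IsSchur x := (hN'sub (hOsub x hx).1).2
    have hemem : e ∈ ComK p x := mem_ComK.2 fun k hk => hecomm _ (mem_ComK.1 hc k hk)
    refine count_false hg hr hrep hsx L (hperp x hx hrep) hemem (fun z hz => ?_) fun v hv => ?_
    · have hzz : z * z = z := by
        have h0 : (z * z - z) • (1 : Matrix (Fin r) (Fin r) ℂ) = 0 := by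
          rw [sub_smul, sub_eq_zero, mul_smul]
          rw [hz] at he
          simpa [smul_smul] using he
        have h1 := congrArg trace h0
        rw [trace_smul, trace_one, Fintype.card_fin, trace_zero, smul_eq_mul] at h1
        exact sub_eq_zero.1 ((mul_eq_zero.1 h1).resolve_right (Nat.cast_ne_zero.2 hr))
      rcases mul_eq_zero.1 (show z * (z - 1) = 0 by rw [mul_sub, mul_one, hzz, sub_self]) with h | h
      · exact he0 (by rw [hz, h, zero_smul])
      · exact he1 (by rw [hz, sub_eq_zero.1 h, one_smul])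
    · obtain ⟨cs, hcs1, hcs2, hcs3⟩ := exists_comm_section (hsec x hx hrep) hemem
      set δ := fderiv ℂ cs x v with hδ
      refine ⟨e * δ * (1 - e) - (1 - e) * δ * e, fun k hk => ?_⟩
      have h := section_deriv hr hrep hsx hcs1 hcs3 hv hk
      rw [hcs2, ← hδ] at h
      have hek := mem_ComK.1 hemem k hk
      have e1 : adc e (e * δ * (1 - e) - (1 - e) * δ * e) = e * δ + δ * e - e * δ * e - e * δ * e := by
        simp only [adc, LinearMap.sub_apply, LinearMap.mulLeft_apply, LinearMap.mulRight_apply,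
          mul_sub, sub_mul, mul_one, one_mul, mul_assoc, he]
        simp only [← mul_assoc, he]
        abel
      rw [e1]
      have h1 := congrArg (fun M => e * M) h
      have h2 := congrArg (fun M => M * e) h
      have h3 := congrArg (fun M => e * M * e) h
      have q1 : ∀ M, e * (x k * M) = x k * (e * M) := fun M => by
        rw [← mul_assoc, hek, mul_assoc]
      simp only [mul_sub, sub_mul, mul_assoc, q1, he] at h1 h2 h3
      simp only [← mul_assoc, he] at h1 h2 h3
      have q2 : ∀ M, M * x k * e = M * e * x k := fun M => by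
        rw [mul_assoc, ← hek, ← mul_assoc]
      simp only [q2] at h1 h2 h3
      simp only [mul_add, add_mul, mul_sub, sub_mul, ← mul_assoc]
      linear_combination (norm := abel) h1 + h2 - h3 - h3
  have h1 := hnoO ρ hρO hρ
  obtain ⟨c₀, hc₀, hns⟩ : ∃ c₀ ∈ ComK p ρ, ∀ z : ℂ, c₀ ≠ z • (1 : Matrix (Fin r) (Fin r) ℂ) := by
    by_contra h
    push Not at h
    have := (ComK_le_one_iff hr).2 h
    omega
  have hρS : IsSchur ρ := (hN'sub (hOsub ρ hρO).1).2
  obtain ⟨cs, hcs1, hcs2, hcs3⟩ := exists_comm_section (hsec ρ hρO hρ) hc₀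
  let c1 : Tup g r ℂ → Matrix (Fin r) (Fin r) ℂ := fun x => tl (cs x)
  have hc1 : ∀ᶠ x in 𝓝 ρ, x ∈ O ∧ ContDiffAt ℂ 1 c1 x ∧ c1 x ≠ 0 ∧
      (IsRep x → c1 x ∈ ComK p x ∧ c1 x ^ r = 0) := by
    have hd : ContDiffAt ℂ 1 c1 ρ := contDiff_tl.contDiffAt.comp ρ hcs1
    have hne : c1 ρ ≠ 0 := by
      intro e
      exact hns _ (sub_eq_zero.1 (show tl c₀ = 0 by rw [← hcs2]; exact e))
    filter_upwards [hOo.mem_nhds hρO, hd.eventually (by simp),
      hd.continuousAt.eventually_ne hne, hcs3] with x hx hxd hxn hxm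
    refine ⟨hx, hxd, hxn, fun hrep => ?_⟩
    have hm : c1 x ∈ ComK p x := Submodule.sub_mem _ (hxm hrep)
      (Submodule.smul_mem _ _ (one_mem_ComK p x))
    exact ⟨hm, hnilp x hx hrep _ hm (trace_tl hr _)⟩
  obtain ⟨O1, hO1, hO1o, hρO1⟩ := eventually_nhds_iff.1 hc1
  let P : ℕ → Prop := fun n => ∃ x ∈ O1, IsRep x ∧ c1 x ^ n ≠ 0
  obtain ⟨m, hmP, hmax⟩ : ∃ m, P m ∧ ∀ n, m < n → ¬ P n := by
    refine ⟨Nat.findGreatest P r, ?_, fun n hn hP => ?_⟩
    · refine Nat.findGreatest_spec (m := 1) (Nat.one_le_iff_ne_zero.2 hr) ⟨ρ, hρO1, hρ, ?_⟩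
      rw [pow_one]; exact (hO1 ρ hρO1).2.2.1
    · rcases le_or_gt n r with h | h
      · exact absurd (Nat.le_findGreatest h hP) (not_le.2 hn)
      · obtain ⟨x, hx, hrep, hne⟩ := hP
        exact hne (pow_eq_zero_of_le h.le ((hO1 x hx).2.2.2 hrep).2)
  have hm1 : 1 ≤ m := by
    by_contra h
    exact hmax 1 (by omega) ⟨ρ, hρO1, hρ, by rw [pow_one]; exact (hO1 ρ hρO1).2.2.1⟩
  obtain ⟨x0, hx0, hx0r, hx0m⟩ := hmP
  obtain ⟨O2, hO2, hO2o, hx0O2⟩ : ∃ O2, (∀ x ∈ O2, x ∈ O1 ∧ c1 x ^ m ≠ 0) ∧ IsOpen O2 ∧ x0 ∈ O2 :=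
    eventually_nhds_iff.1 ((hO1o.eventually_mem hx0).and
      (((hO1 x0 hx0).2.1.continuousAt.pow m).eventually_ne hx0m))
  let c : Tup g r ℂ → Matrix (Fin r) (Fin r) ℂ := fun x => c1 x ^ m
  let kr : Tup g r ℂ → ℕ := fun x => Module.finrank ℂ (LinearMap.ker (Matrix.mulVecLin (c x)))
  have hex2 : ∃ n, ∃ x ∈ O2, IsRep x ∧ kr x = n := ⟨_, x0, hx0O2, hx0r, rfl⟩
  obtain ⟨x1, hx1, hx1r, hkx1⟩ := Nat.find_spec hex2
  obtain ⟨hx1O1, hcne⟩ := hO2 x1 hx1
  have hx1O : x1 ∈ O := (hO1 x1 hx1O1).1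
  have hsx : IsSchur x1 := (hN'sub (hOsub x1 hx1O).1).2
  have hcd : ContDiffAt ℂ 1 c x1 := ((hO1 x1 hx1O1).2.1).pow m
  let toL : Matrix (Fin r) (Fin r) ℂ →L[ℂ] ((Fin r → ℂ) →L[ℂ] (Fin r → ℂ)) :=
    LinearMap.toContinuousLinearMap
      ((LinearMap.toContinuousLinearMap : ((Fin r → ℂ) →ₗ[ℂ] (Fin r → ℂ)) ≃ₗ[ℂ]
        ((Fin r → ℂ) →L[ℂ] (Fin r → ℂ))).toLinearMap.comp
        (Matrix.toLin' : Matrix (Fin r) (Fin r) ℂ ≃ₗ[ℂ] _).toLinearMap)
  have hLd : ContDiffAt ℂ 1 (fun x => toL (c x)) x1 := toL.contDiff.contDiffAt.comp x1 hcd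
  obtain ⟨hker, hkersec⟩ := ker_family x1 hLd
  have hkconst : ∀ᶠ x in 𝓝 x1, IsRep x → kr x = kr x1 := by
    filter_upwards [hker, hO2o.mem_nhds hx1] with x hx hxO hrep
    have := Nat.find_min' hex2 ⟨x, hxO, hrep, rfl⟩
    exact le_antisymm hx (hkx1.le.trans this)
  have hcomm : c x1 ∈ ComK p x1 := mem_ComK.2 fun k hk => by
    have hcm := mem_ComK.1 ((hO1 x1 hx1O1).2.2.2 hx1r).1 k hk
    exact (show Commute (c1 x1) (x1 k) from hcm).pow_left m
  have hsq : ∀ x ∈ O1, IsRep x → c x * c x = 0 := by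
    intro x hx hrep
    show c1 x ^ m * c1 x ^ m = 0
    rw [← pow_add]
    by_contra hne
    exact hmax (m + m) (by omega) ⟨x, hx, hrep, hne⟩
  refine count_false hg hr hx1r hsx L (hperp x1 hx1O hx1r) hcomm (fun z hz => ?_) fun v hv => ?_
  · have h0 := hsq x1 hx1O1 hx1r
    rw [hz, Matrix.smul_mul, one_mul, smul_smul] at h0
    have h0' := congrArg trace h0
    rw [trace_smul, trace_one, Fintype.card_fin, trace_zero, smul_eq_mul] at h0'
    have hz0 : z = 0 := mul_self_eq_zero.1 ((mul_eq_zero.1 h0').resolve_right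
      (Nat.cast_ne_zero.2 hr))
    exact hcne (by rw [show c1 x1 ^ m = c x1 from rfl, hz, hz0, zero_smul])
  · have hdiff := hcd.differentiableAt one_ne_zero
    set δ := fderiv ℂ c x1 v
    set C := c x1 with hC
    have hsqd : C * δ + δ * C = 0 := by
      have := fderiv_eq_zero_of_rep hr hx1r hsx (hdiff.hasFDerivAt.mul' hdiff.hasFDerivAt).differentiableAt
        ((hO1o.eventually_mem hx1O1).mono fun x hx hrep => hsq x hx hrep) hv
      rw [(hdiff.hasFDerivAt.mul' hdiff.hasFDerivAt).fderiv] at this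
      simpa using this
    obtain ⟨G, hG⟩ := exists_ginverse C
    have hker2 : (1 - C * G) * δ * (1 - G * C) = 0 := by
      refine Matrix.ext_of_mulVec_single fun k => ?_
      rw [← mulVec_mulVec, ← mulVec_mulVec, zero_mulVec]
      set u := (1 - G * C) *ᵥ Pi.single k 1
      have hu : C *ᵥ u = 0 := by
        rw [mulVec_mulVec, mul_sub, mul_one, ← mul_assoc, hG, sub_self, zero_mulVec]
      obtain ⟨w, hw1, hw2, hw3⟩ := hkersec u (by simpa [toL] using hu)
      have h0 := fderiv_eq_zero_of_rep hr hx1r hsx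
        ((hLd.clm_apply hw1).differentiableAt one_ne_zero)
        ((hw3.and hkconst).mono fun x hx hrep => hx.1 (hx.2 hrep)) hv
      rw [((hLd.differentiableAt one_ne_zero).hasFDerivAt.clm_apply
        (hw1.differentiableAt one_ne_zero).hasFDerivAt).fderiv] at h0
      have e : fderiv ℂ (fun x => toL (c x)) x1 v = toL δ := by
        rw [HasFDerivAt.fderiv (f := fun x => toL (c x)) (toL.hasFDerivAt.comp x1 hdiff.hasFDerivAt)]
        rfl
      have h4 : C *ᵥ fderiv ℂ w x1 v + δ *ᵥ u = 0 := by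
        change toL (c x1) (fderiv ℂ w x1 v) + fderiv ℂ (fun x => toL (c x)) x1 v (w x1) = 0 at h0
        rw [e, hw2] at h0
        exact h0
      rw [eq_neg_of_add_eq_zero_right h4, mulVec_neg, mulVec_mulVec, sub_mul, one_mul, hG, sub_self,
        zero_mulVec, neg_zero]
    refine ⟨G * δ * (1 - G * C) * (1 - C * G) - δ * G * C * G, fun k hk => ?_⟩
    have hmemc : ∀ᶠ x in 𝓝 x1, IsRep x → c x ∈ ComK p x :=
      (hO1o.eventually_mem hx1O1).mono fun x hx hrep => mem_ComK.2 fun k hk =>
        (show Commute (c1 x) (x k) from mem_ComK.1 ((hO1 x hx).2.2.2 hrep).1 k hk).pow_left m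
    have h := section_deriv hr hx1r hsx hcd hmemc hv hk
    have e : adc C (G * δ * (1 - G * C) * (1 - C * G) - δ * G * C * G) = δ := by
      have a1 : C * G * δ * (1 - G * C) = δ * (1 - G * C) := by
        have := hker2
        rw [mul_assoc, sub_mul, one_mul, sub_eq_zero] at this
        rw [mul_assoc (C * G) δ]
        exact this.symm
      have a2 : C * δ = -(δ * C) := eq_neg_of_add_eq_zero_left hsqd
      have a3 : (1 - C * G) * C = 0 := by rw [sub_mul, one_mul, hG, sub_self]
      have a4 : (1 - G * C) * (1 - C * G) = 1 - G * C - C * G := by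
        have : G * C * (C * G) = 0 := by
          rw [show G * C * (C * G) = G * (C * C) * G by simp only [mul_assoc],
            hsq x1 hx1O1 hx1r, mul_zero, zero_mul]
        rw [mul_sub, mul_one, sub_mul, one_mul, this]
        abel
      simp only [adc, LinearMap.sub_apply, LinearMap.mulLeft_apply, LinearMap.mulRight_apply]
      rw [mul_sub, sub_mul]
      rw [show C * (G * δ * (1 - G * C) * (1 - C * G)) =
          C * G * δ * (1 - G * C) * (1 - C * G) by simp only [mul_assoc], a1, mul_assoc δ, a4,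
        show C * (δ * G * C * G) = C * δ * G * C * G by simp only [mul_assoc], a2,
        show G * δ * (1 - G * C) * (1 - C * G) * C =
          G * δ * (1 - G * C) * ((1 - C * G) * C) by simp only [mul_assoc], a3, mul_zero,
        show δ * G * C * G * C = δ * G * (C * G * C) by simp only [mul_assoc], hG]
      rw [show -(δ * C) * G * C * G = -(δ * (C * G * C) * G) by simp only [neg_mul, mul_assoc], hG]
      simp only [mul_sub, mul_one, mul_assoc]
      abel
    rw [e]
    exact h

end Vale.Agent.P002
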