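import Vale.Agent.P002.Chart
import Vale.Agent.P002.Perturb

/-!
# P002: the closure of the integral representations contains the whole domain of the chart

Along an entire path of chart parameters the representations with a prescribed value of `b_g e`
form a covering; invariance under the centre of `SL_r` and analytic continuation of the symmetric
functions of the sheets give the result.
-/

namespace Vale.Agent.P002

open Matrix Filter Topology
open scoped Matrix.Norms.Operator

set_option backward.isDefEq.respectTransparency false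

variable {r g : ℕ}

/-- All coefficients of a polynomial valued function are continuously differentiable. -/
def PolyCD {E : Type*} [NormedAddCommGroup E] [NormedSpace ℂ E] (F : E → Polynomial ℂ) : Prop :=
  ∀ n, ContDiff ℂ 1 fun x => (F x).coeff n

section polycd

variable {E : Type*} [NormedAddCommGroup E] [NormedSpace ℂ E] {F G : E → Polynomial ℂ}

theorem polyCD_const (p : Polynomial ℂ) : PolyCD fun _ : E => p := fun _ => contDiff_const

theorem PolyCD.mul (hF : PolyCD F) (hG : PolyCD G) : PolyCD fun x => F x * G x := fun n => by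
  simp only [Polynomial.coeff_mul]
  exact ContDiff.sum fun p _ => (hF p.1).mul (hG p.2)

theorem polyCD_sum {ι : Type*} (s : Finset ι) {F : ι → E → Polynomial ℂ}
    (h : ∀ i ∈ s, PolyCD (F i)) : PolyCD fun x => ∑ i ∈ s, F i x := fun n => by
  simp only [Polynomial.finsetSum_coeff]
  exact ContDiff.sum fun i hi => h i hi n

theorem polyCD_prod {ι : Type*} (s : Finset ι) {F : ι → E → Polynomial ℂ}
    (h : ∀ i ∈ s, PolyCD (F i)) : PolyCD fun x => ∏ i ∈ s, F i x := by
  classical
  induction s using Finset.induction_on with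
  | empty => simpa using polyCD_const (E := E) 1
  | insert i s hi ih =>
    simp only [Finset.prod_insert hi]
    exact (h i (Finset.mem_insert_self i s)).mul (ih fun j hj => h j (Finset.mem_insert_of_mem hj))

theorem polyCD_det {M : E → Matrix (Fin r) (Fin r) (Polynomial ℂ)}
    (h : ∀ i j, PolyCD fun x => M x i j) : PolyCD fun x => (M x).det := by
  simp only [Matrix.det_apply']
  exact polyCD_sum _ fun s _ => (polyCD_const _).mul (polyCD_prod _ fun i _ => h _ _)

theorem polyCD_charmatrix {M : E → Matrix (Fin r) (Fin r) ℂ} (h : ContDiff ℂ 1 M) (i j : Fin r) :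
    PolyCD fun x => charmatrix (M x) i j := by
  intro n
  simp only [charmatrix_apply, Polynomial.coeff_sub, Polynomial.coeff_C]
  refine contDiff_const.sub ?_
  split_ifs
  · exact (contDiff_entry i j).comp h
  · exact contDiff_const

theorem polyCD_charpoly {M : E → Matrix (Fin r) (Fin r) ℂ} (h : ContDiff ℂ 1 M) :
    PolyCD fun x => (M x).charpoly :=
  polyCD_det fun i j => polyCD_charmatrix h i j

theorem polyCD_adjugate {M : E → Matrix (Fin r) (Fin r) ℂ} (h : ContDiff ℂ 1 M) (i j : Fin r) :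
    PolyCD fun x => adjugate (charmatrix (M x)) i j := by
  simp only [adjugate_apply]
  refine polyCD_det fun a b => ?_
  simp only [Matrix.updateRow_apply]
  by_cases ha : a = j
  · simp only [ha, if_true]; exact polyCD_const _
  · simp only [ha, if_false]; exact polyCD_charmatrix h a b

theorem contDiff_updateCol {M : E → Matrix (Fin r) (Fin r) ℂ} {v : E → Fin r → ℂ} (q : Fin r)
    (hM : ContDiff ℂ 1 M) (hv : ContDiff ℂ 1 v) : ContDiff ℂ 1 fun x => (M x).updateCol q (v x) := by
  refine contDiff_matrix fun i j => ?_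
  simp only [Matrix.updateCol_apply]
  split_ifs
  · exact contDiff_pi.1 hv i
  · exact (contDiff_entry i j).comp hM

theorem contDiff_mulVec {M : E → Matrix (Fin r) (Fin r) ℂ} {v : E → Fin r → ℂ}
    (hM : ContDiff ℂ 1 M) (hv : ContDiff ℂ 1 v) : ContDiff ℂ 1 fun x => M x *ᵥ v x := by
  refine contDiff_pi.2 fun i => ?_
  simp only [mulVec, dotProduct]
  exact ContDiff.sum fun j _ => ((contDiff_entry i j).comp hM).mul (contDiff_pi.1 hv j)

theorem contDiff_mat_pow {M : E → Matrix (Fin r) (Fin r) ℂ} (hM : ContDiff ℂ 1 M) :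
    ∀ n : ℕ, ContDiff ℂ 1 fun x => M x ^ n
  | 0 => by simpa using contDiff_const
  | n + 1 => by simp only [pow_succ]; exact (contDiff_mat_pow hM n).mul hM

theorem contDiff_kryl {M : E → Matrix (Fin r) (Fin r) ℂ} {v : E → Fin r → ℂ}
    (hM : ContDiff ℂ 1 M) (hv : ContDiff ℂ 1 v) : ContDiff ℂ 1 fun x => kryl (M x) (v x) :=
  contDiff_matrix fun i k => contDiff_pi.1 (contDiff_mulVec (contDiff_mat_pow hM (k : ℕ)) hv) i

theorem contDiff_pre {Φ : E → Tup g r ℂ} (hΦ : ContDiff ℂ 1 Φ) (n : ℕ) :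
    ContDiff ℂ 1 fun x => pre n (Φ x) := by
  have := contDiff_list_prod
    ((List.ofFn fun k x => cm adjugate (Φ x (k, false)) (Φ x (k, true))).take n)
    fun G hG => by
      obtain ⟨i, rfl⟩ := List.mem_ofFn.1 (List.mem_of_mem_take hG)
      exact contDiff_cm hΦ i
  simpa only [pre, cmList, List.map_take, List.map_ofFn, Function.comp_def] using this

theorem contDiff_chartM (q : Fin r) {W a : E → Matrix (Fin r) (Fin r) ℂ}
    (hW : ContDiff ℂ 1 W) (ha : ContDiff ℂ 1 a) : ContDiff ℂ 1 fun x => chartM q (W x) (a x) := by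
  have hc : ∀ {b : E → Matrix (Fin r) (Fin r) ℂ}, ContDiff ℂ 1 b →
      ContDiff ℂ 1 fun x => col0 q (b x) := fun hb => contDiff_updateCol q hb contDiff_const
  refine contDiff_matrix fun k l => ?_
  simp only [chartM, of_apply, lam]
  split_ifs
  · exact (contDiff_entry q l).comp (contDiff_adjugate.comp (hc ha))
  · exact (polyCD_adjugate (hc ha) q l _).sub
      (ContDiff.sum fun m _ => ((contDiff_entry m l).comp hW).mul
        (polyCD_adjugate (hc (hW.mul ha)) q m _))

theorem contDiff_chartRhs (q : Fin r) {W a : E → Matrix (Fin r) (Fin r) ℂ}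
    (hW : ContDiff ℂ 1 W) (ha : ContDiff ℂ 1 a) :
    ContDiff ℂ 1 fun x => chartRhs q (W x) (a x) := by
  have hc : ∀ {b : E → Matrix (Fin r) (Fin r) ℂ}, ContDiff ℂ 1 b →
      ContDiff ℂ 1 fun x => col0 q (b x) := fun hb => contDiff_updateCol q hb contDiff_const
  refine contDiff_pi.2 fun k => ?_
  simp only [chartRhs]
  split_ifs
  · exact contDiff_const
  · exact (polyCD_charpoly (hc ha) _).sub (polyCD_charpoly (hc (hW.mul ha)) _)

end polycd

/-- The zero set of an entire function that is not identically zero is countable. -/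
theorem countable_zeros {G : ℂ → ℂ} (hG : ContDiff ℂ 1 G) {z : ℂ} (hz : G z ≠ 0) :
    {s | G s = 0}.Countable := by
  have han : AnalyticOnNhd ℂ G Set.univ :=
    (hG.differentiable one_ne_zero).differentiableOn.analyticOnNhd isOpen_univ
  have hfin : ∀ n : ℕ, ({s | G s = 0} ∩ Metric.closedBall 0 n).Finite := by
    intro n
    by_contra hinf
    obtain ⟨x, -, hx⟩ := Set.Infinite.exists_accPt_of_subset_isCompact hinf
      (isCompact_closedBall (0 : ℂ) n) Set.inter_subset_right
    have hfr : ∃ᶠ y in 𝓝[≠] x, G y = 0 := by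
      rw [frequently_nhdsWithin_iff]
      exact (accPt_iff_frequently.1 hx).mono fun y hy => ⟨hy.2.1, hy.1⟩
    exact hz (han.eqOn_zero_of_preconnected_of_frequently_eq_zero isPreconnected_univ
      (Set.mem_univ x) hfr (Set.mem_univ z))
  have hU : {s | G s = 0} ⊆ ⋃ n : ℕ, ({s | G s = 0} ∩ Metric.closedBall 0 n) := fun s hs =>
    Set.mem_iUnion.2 ⟨⌈‖s‖⌉₊, hs, mem_closedBall_zero_iff.2 (Nat.le_ceil _)⟩
  exact (Set.countable_iUnion fun n => (hfin n).countable).mono hU

/-- The exponent of the entries of `b_L` in a monomial. -/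
def dB (L : Fin g) (m : Var g r →₀ ℕ) : ℕ :=
  ∑ v : Var g r, if v.1 = (L, true) then m v else 0

theorem eval_scale (L : Fin g) (f : MvPolynomial (Var g r) ℂ) (σ : Tup g r ℂ) (y : ℂ) :
    MvPolynomial.eval (coord (Function.update σ (L, true) (y • σ (L, true)))) f =
      ∑ m ∈ f.support, y ^ dB L m * (f.coeff m * ∏ v, coord σ v ^ m v) := by
  rw [MvPolynomial.eval_eq']
  refine Finset.sum_congr rfl fun m _ => ?_
  have h1 : ∀ v : Var g r, coord (Function.update σ (L, true) (y • σ (L, true))) v ^ m v =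
      y ^ (if v.1 = (L, true) then m v else 0) * coord σ v ^ m v := by
    intro v
    by_cases hv : v.1 = (L, true)
    · simp [coord, hv, mul_pow]
    · simp [coord, hv]
  simp only [h1, Finset.prod_mul_distrib, Finset.prod_pow_eq_pow_sum, dB]
  ring

/-- A polynomial of a tuple whose `b_L` is scaled by a root of `y ^ r * det = 1`, cleared of
denominators. -/
theorem scale_sum (hr : r ≠ 0) (L : Fin g) (f : MvPolynomial (Var g r) ℂ) (σ : Tup g r ℂ) (y : ℂ)
    (hy : y ^ r * (σ (L, true)).det = 1) :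
    (σ (L, true)).det ^ f.support.sup (dB L) *
        MvPolynomial.eval (coord (Function.update σ (L, true) (y • σ (L, true)))) f =
      ∑ j : Fin r, y ^ (j : ℕ) * ∑ m ∈ f.support.filter (fun m => dB L m % r = j),
        (f.coeff m * ∏ v, coord σ v ^ m v) *
          (σ (L, true)).det ^ (f.support.sup (dB L) - dB L m / r) := by
  rw [eval_scale, Finset.mul_sum,
    ← Finset.sum_fiberwise f.support
      (fun m => (⟨dB L m % r, Nat.mod_lt _ (Nat.pos_of_ne_zero hr)⟩ : Fin r))]
  refine Finset.sum_congr rfl fun j _ => ?_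
  simp only [Finset.mul_sum, Fin.ext_iff]
  refine Finset.sum_congr rfl fun m hm => ?_
  obtain ⟨hm1, hm2⟩ := Finset.mem_filter.1 hm
  set D := (σ (L, true)).det
  set N := f.support.sup (dB L)
  have hle : dB L m / r ≤ N := (Nat.div_le_self _ _).trans (Finset.le_sup hm1)
  have e1 : y ^ dB L m = y ^ (j : ℕ) * (y ^ r) ^ (dB L m / r) := by
    rw [← pow_mul, ← pow_add]
    congr 1
    have := Nat.mod_add_div (dB L m) r
    omega
  have e2 : D ^ N = D ^ (N - dB L m / r) * D ^ (dB L m / r) := by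
    rw [← pow_add, Nat.sub_add_cancel hle]
  have e3 : D ^ (dB L m / r) * (y ^ r) ^ (dB L m / r) = 1 := by
    rw [← mul_pow, mul_comm, hy, one_pow]
  rw [e1, e2]
  linear_combination (y ^ (j : ℕ) * (f.coeff m * ∏ v, coord σ v ^ m v) *
    D ^ (N - dB L m / r)) * e3

/-- Analytic continuation of the symmetric functions of the sheets `y • b_L`, `y ^ r det b_L = 1`. -/
theorem vanish_of_sheets (hr : r ≠ 0) (L : Fin g) (f : MvPolynomial (Var g r) ℂ) {R : ℂ → Tup g r ℂ}
    {Ω : Set ℂ} (hΩo : IsOpen Ω) (hΩc : IsPreconnected Ω) (h0 : (0 : ℂ) ∈ Ω) (h1 : (1 : ℂ) ∈ Ω)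
    (hR : ∀ s ∈ Ω, ContDiffAt ℂ 1 R s) (hd0 : (R 0 (L, true)).det = 1)
    (hd1 : (R 1 (L, true)).det = 1) {U : Set (Tup g r ℂ)} (hU : U ∈ 𝓝 (R 0))
    (hsheet : ∀ s ∈ Ω, ∀ y : ℂ, y ^ r * (R s (L, true)).det = 1 →
      Function.update (R s) (L, true) (y • R s (L, true)) ∈ U → ∀ ζ : ℂ, ζ ^ r = 1 →
        MvPolynomial.eval
          (coord (Function.update (R s) (L, true) ((ζ * y) • R s (L, true)))) f = 0) :
    MvPolynomial.eval (coord (R 1)) f = 0 := by
  let D : ℂ → ℂ := fun s => (R s (L, true)).det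
  let E : Fin r → ℂ → ℂ := fun j s => ∑ m ∈ f.support.filter (fun m => dB L m % r = j),
    (f.coeff m * ∏ v, coord (R s) v ^ m v) * D s ^ (f.support.sup (dB L) - dB L m / r)
  have hDd : ∀ s ∈ Ω, ContDiffAt ℂ 1 D s := fun s hs =>
    contDiff_det.contDiffAt.comp s (contDiffAt_pi.1 (hR s hs) (L, true))
  have hEd : ∀ j, DifferentiableOn ℂ (E j) Ω := by
    intro j s hs
    have hc : ∀ v : Var g r, ContDiffAt ℂ 1 (fun t => coord (R t) v) s := fun v =>
      (contDiff_entry v.2.1 v.2.2).contDiffAt.comp s (contDiffAt_pi.1 (hR s hs) v.1)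
    refine (ContDiffAt.differentiableAt ?_ one_ne_zero).differentiableWithinAt
    exact ContDiffAt.sum fun m _ =>
      (contDiffAt_const.mul (contDiffAt_prod fun v _ => (hc v).pow _)).mul ((hDd s hs).pow _)
  let h : ℂ → ℂ := fun s => Complex.exp (-Complex.log (D s) / r)
  have hh : ∀ s, D s ≠ 0 → h s ^ r * D s = 1 := by
    intro s hs
    simp only [h]
    rw [← Complex.exp_nat_mul, mul_div_cancel₀ _ (Nat.cast_ne_zero.2 hr), Complex.exp_neg,
      Complex.exp_log hs, inv_mul_cancel₀ hs]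
  have hDc : ContinuousAt D 0 := (hDd 0 h0).continuousAt
  have hD0 : D 0 = 1 := hd0
  have hhc : ContinuousAt h 0 := by
    refine Complex.continuous_exp.continuousAt.comp (ContinuousAt.div_const ?_ _)
    exact ((continuousAt_clog (by rw [hD0]; exact Complex.one_mem_slitPlane)).comp hDc).neg
  let τ : ℂ → Tup g r ℂ := fun s => Function.update (R s) (L, true) (h s • R s (L, true))
  have hτc : ContinuousAt τ 0 := by
    refine continuousAt_pi.2 fun k => ?_
    have hR' := continuousAt_pi.1 (hR 0 h0).continuousAt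
    simp only [τ, Function.update_apply]
    split_ifs
    · exact hhc.smul (hR' (L, true))
    · exact hR' k
  have hτ0 : τ 0 = R 0 := by simp [τ, h, hD0]
  have hev : ∀ᶠ s in 𝓝 (0 : ℂ), τ s ∈ U ∧ s ∈ Ω ∧ D s ≠ 0 :=
    Filter.Eventually.and (show ∀ᶠ s in 𝓝 (0 : ℂ), τ s ∈ U from hτc.preimage_mem_nhds (by rw [hτ0]; exact hU))
      (Filter.Eventually.and (show ∀ᶠ s in 𝓝 (0 : ℂ), s ∈ Ω from hΩo.mem_nhds h0) (hDc.eventually_ne (by rw [hD0]; exact one_ne_zero)))
  have hzero : ∀ j, ∀ᶠ s in 𝓝 (0 : ℂ), E j s = 0 := by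
    intro j
    filter_upwards [hev] with s ⟨hs1, hs2, hs3⟩
    let ω := Complex.exp (2 * Real.pi * Complex.I / r)
    have hω : IsPrimitiveRoot ω r := Complex.isPrimitiveRoot_exp r hr
    have hv : (fun j : Fin r => h s ^ (j : ℕ) * E j s) = 0 := by
      refine Matrix.eq_zero_of_forall_index_sum_pow_mul_eq_zero (f := fun i : Fin r => ω ^ (i : ℕ))
        (fun i i' hii => Fin.ext (hω.pow_inj i.2 i'.2 hii)) fun i => ?_
      have hζ : (ω ^ (i : ℕ)) ^ r = 1 := by
        rw [← pow_mul, mul_comm, pow_mul, hω.pow_eq_one, one_pow]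
      have e1 := hsheet s hs2 (h s) (hh s hs3) hs1 _ hζ
      have e2 := scale_sum hr L f (R s) (ω ^ (i : ℕ) * h s)
        (by rw [mul_pow, hζ, one_mul]; exact hh s hs3)
      rw [e1, mul_zero] at e2
      rw [e2]
      exact Finset.sum_congr rfl fun j _ => by simp only [E, D]; rw [mul_pow, mul_assoc]
    exact (mul_eq_zero.1 (congrFun hv j)).resolve_left (pow_ne_zero _ (Complex.exp_ne_zero _))
  have hE1 : ∀ j, E j 1 = 0 := fun j =>
    ((hEd j).analyticOnNhd hΩo).eqOn_zero_of_preconnected_of_eventuallyEq_zero hΩc h0 (hzero j) h1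
  have e := scale_sum hr L f (R 1) 1 (by rw [one_pow, hd1, one_mul])
  rw [hd1, one_pow, one_mul, one_smul, Function.update_eq_self] at e
  rw [e]
  refine Finset.sum_eq_zero fun j _ => ?_
  have := hE1 j
  simp only [E, D, hd1] at this
  rw [this, mul_zero]

/-- Every representation in the domain of the chart lies in the closure of the integral ones, as
soon as some flowable base representation is approached by that domain. -/
theorem inV_of_good (hr : 2 ≤ r) {L : Fin g} (hL : L.1 + 1 = g) (q : Fin r) {σ₀ : Tup g r ℂ}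
    {l : Fin r → ℂ} {S S' : Matrix (Fin r) (Fin r) ℂ} (hspec : Spec (σ₀ (L, false)) l S S')
    (hl : Indep l) (hloc : ∀ᶠ ρ in 𝓝 σ₀, IsRep ρ → InV ρ)
    (hacc : ∀ N ∈ 𝓝 σ₀, ∃ σ₁ ∈ N, IsRep σ₁ ∧ GoodPt L q σ₁)
    {σ : Tup g r ℂ} (hσ : IsRep σ) (hgood : GoodPt L q σ) : InV σ := by
  classical
  intro f hf
  have hr0 : r ≠ 0 := by omega
  obtain ⟨U, hU, hUo, hU0⟩ := eventually_nhds_iff.1 (hloc.and (flow_torus hspec hl hf))
  obtain ⟨σ₁, hσ₁U, hσ₁, hgood₁⟩ := hacc U (hUo.mem_nhds hU0)
  -- invariance under the centre near the base point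
  have hcentre : ∀ ρ ∈ U, IsRep ρ → ∀ ζ : ℂ, ζ ^ r = 1 →
      MvPolynomial.eval (coord (Function.update ρ (L, true) (ζ • ρ (L, true)))) f = 0 := by
    intro ρ hρU hρ ζ hζ
    obtain ⟨P, P', w, hP, -, hy⟩ := (hU ρ hρU).2 ((hU ρ hρU).1 hρ)
    have h := hy (fun _ => ζ) (by rw [Finset.prod_const, Finset.card_univ, Fintype.card_fin, hζ])
    have e : P * diagonal (fun _ => ζ) * P' = ζ • (1 : Matrix (Fin r) (Fin r) ℂ) := by
      rw [show (diagonal fun _ => ζ : Matrix (Fin r) (Fin r) ℂ) = ζ • 1 from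
        (Matrix.smul_one_eq_diagonal ζ).symm, Matrix.mul_smul, mul_one, Matrix.smul_mul, hP]
    rwa [e, Matrix.mul_smul, mul_one] at h
  -- paths of parameters
  choose γ hγ hγ0 hγ1 hγd using fun k => exists_sl_path hr (hσ₁.1 k) (hσ.1 k)
  let ρ₀ : ℂ → Tup g r ℂ := fun s k => if k.1 = L then 1 else γ k s
  have hρ₀cd : ContDiff ℂ 1 ρ₀ := contDiff_pi.2 fun k => by
    by_cases hk : k.1 = L
    · simp only [ρ₀, hk, if_true]; exact contDiff_const
    · simp only [ρ₀, hk, if_false]; exact hγ k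
  let W : ℂ → Matrix (Fin r) (Fin r) ℂ := fun s => pre L.1 (ρ₀ s)
  let a0 : ℂ → Matrix (Fin r) (Fin r) ℂ := fun s => (1 - s) • σ₁ (L, false) + s • σ (L, false)
  let u : ℂ → Fin r → ℂ := fun s => (1 - s) • (σ₁ (L, true) *ᵥ 1) + s • (σ (L, true) *ᵥ 1)
  let d : ℂ → ℂ := fun s => (chartM q (W s) (a0 s)).det
  let Q : ℂ → Matrix (Fin r) (Fin r) ℂ := fun s => (d s • a0 s).updateCol q
    (adjugate (chartM q (W s) (a0 s)) *ᵥ chartRhs q (W s) (a0 s))
  let G : ℂ → ℂ := fun s => d s * (kryl (Q s) 1).det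
  let a : ℂ → Matrix (Fin r) (Fin r) ℂ := fun s => (d s)⁻¹ • Q s
  let v : ℂ → Fin r → ℂ := fun s =>
    (d s)⁻¹ • (adjugate (chartM q (W s) (a0 s)) *ᵥ chartRhs q (W s) (a0 s))
  let b : ℂ → Matrix (Fin r) (Fin r) ℂ := fun s => intertw (a s) (W s * a s) 1 (u s)
  let D : ℂ → ℂ := fun s => (b s).det
  let R : ℂ → Tup g r ℂ := fun s => Function.update (Function.update (ρ₀ s) (L, false) (a s)) (L, true) (b s)
  have ha0cd : ContDiff ℂ 1 a0 :=
    ((contDiff_const.sub contDiff_id).smul contDiff_const).add (contDiff_id.smul contDiff_const)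
  have hucd : ContDiff ℂ 1 u :=
    ((contDiff_const.sub contDiff_id).smul contDiff_const).add (contDiff_id.smul contDiff_const)
  have hWcd : ContDiff ℂ 1 W := contDiff_pre hρ₀cd _
  have hdcd : ContDiff ℂ 1 d := contDiff_det.comp (contDiff_chartM q hWcd ha0cd)
  have hQcd : ContDiff ℂ 1 Q := contDiff_updateCol q (hdcd.smul ha0cd)
    (contDiff_mulVec (contDiff_adjugate.comp (contDiff_chartM q hWcd ha0cd))
      (contDiff_chartRhs q hWcd ha0cd))
  have hGcd : ContDiff ℂ 1 G := hdcd.mul (contDiff_det.comp (contDiff_kryl hQcd contDiff_const))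
  have hWdet : ∀ s, (W s).det = 1 := fun s => det_pre (fun k => by
    by_cases hk : k.1 = L
    · simp only [ρ₀, hk, if_true]; exact det_one
    · simp only [ρ₀, hk, if_false]; exact hγd k s) _
  have hav : ∀ s, d s ≠ 0 → a s = (a0 s).updateCol q (v s) := by
    intro s hs
    ext i j
    by_cases hj : j = q
    · subst hj; simp [a, Q, v]
    · simp [a, Q, Matrix.updateCol_apply, hj, hs]
  have hsys : ∀ s, d s ≠ 0 → (a s).det = 1 ∧ (W s * a s).charpoly = (a s).charpoly := by
    intro s hs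
    rw [hav s hs]
    refine (chart_iff (hWdet s) (v s)).1 ?_
    simp only [v, mulVec_smul, mulVec_mulVec, mul_adjugate, smul_mulVec, one_mulVec, smul_smul]
    rw [inv_mul_cancel₀ hs, one_smul]
  have hkr : ∀ s, G s ≠ 0 → (kryl (a s) 1).det ≠ 0 := by
    intro s hs
    obtain ⟨h1, h2⟩ := mul_ne_zero_iff.1 hs
    simp only [a, kryl_smul, det_mul, det_diagonal]
    exact mul_ne_zero h2 (Finset.prod_ne_zero_iff.2 fun k _ => pow_ne_zero _ (inv_ne_zero h1))
  have hint : ∀ s, G s ≠ 0 → b s * a s = W s * a s * b s := fun s hs =>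
    (intertw_spec (u s) (hkr s hs) (hsys s (mul_ne_zero_iff.1 hs).1).2).2
  -- the end points
  have hend : ∀ (s₀ : ℂ) (τ : Tup g r ℂ), IsRep τ → GoodPt L q τ → (∀ k, γ k s₀ = τ k) →
      a0 s₀ = τ (L, false) → u s₀ = τ (L, true) *ᵥ 1 → G s₀ ≠ 0 ∧ R s₀ = τ := by
    intro s₀ τ hτ hg' hγs ha' hu'
    have hW' : W s₀ = pre L.1 τ := pre_congr _ fun k hk c => by
      have : k ≠ L := fun e => by subst e; exact lt_irrefl _ hk
      simp [ρ₀, this, hγs]
    have hd' : d s₀ ≠ 0 := by simp only [d, hW', ha']; exact hg'.1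
    obtain ⟨hrel, hchar⟩ := good_facts hL hτ
    have hva : a s₀ = τ (L, false) := by
      have hcol : chartM q (W s₀) (a0 s₀) *ᵥ (fun i => τ (L, false) i q) =
          chartRhs q (W s₀) (a0 s₀) := by
        refine (chart_iff (hWdet s₀) _).2 ?_
        rw [ha', show (τ (L, false)).updateCol q (fun i => τ (L, false) i q) = τ (L, false) from
          Matrix.updateCol_eq_self _ _, hW']
        exact ⟨hτ.1 _, hchar⟩
      rw [hav s₀ hd']
      simp only [v]
      rw [← hcol, mulVec_mulVec, adjugate_mul, smul_mulVec, one_mulVec, smul_smul,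
        inv_mul_cancel₀ hd', one_smul, ha']
      exact Matrix.updateCol_eq_self _ _
    have hG' : G s₀ ≠ 0 := by
      refine mul_ne_zero hd' ?_
      have : Q s₀ = d s₀ • a s₀ := by simp only [a]; rw [smul_inv_smul₀ hd']
      rw [this, kryl_smul, det_mul, det_diagonal, hva]
      exact mul_ne_zero hg'.2 (Finset.prod_ne_zero_iff.2 fun k _ => pow_ne_zero _ hd')
    refine ⟨hG', ?_⟩
    have hb' : b s₀ = τ (L, true) := by
      simp only [b, hu', hW', hva]
      exact intertw_unique hg'.2 hrel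
    funext k
    obtain ⟨i, c⟩ := k
    by_cases hi : i = L
    · subst hi; cases c <;> simp [R, hva, hb']
    · cases c <;> simp [R, ρ₀, hi, hγs]
  obtain ⟨hG0, hR0⟩ := hend 0 σ₁ hσ₁ hgood₁ hγ0 (by simp [a0]) (by simp [u])
  obtain ⟨hG1, hR1⟩ := hend 1 σ hσ hgood hγ1 (by simp [a0]) (by simp [u])
  have hrep : ∀ s, G s ≠ 0 → ∀ y : ℂ, y ^ r * D s = 1 →
      IsRep (Function.update (R s) (L, true) (y • R s (L, true))) := by
    intro s hs y hy
    refine isRep_of_chart hL (fun k => ?_) ?_
    · obtain ⟨i, c⟩ := k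
      by_cases hi : i = L
      · subst hi; cases c
        · simpa [R] using (hsys s (mul_ne_zero_iff.1 hs).1).1
        · simpa [R, det_smul, D] using hy
      · simpa [R, ρ₀, hi] using hγd _ s
    · have hpre : pre L.1 (Function.update (R s) (L, true) (y • R s (L, true))) = W s :=
        pre_congr _ fun k hk c => by
          have : k ≠ L := fun e => by subst e; exact lt_irrefl _ hk
          simp [R, this]
      rw [hpre]
      simp [R, Matrix.smul_mul, Matrix.mul_smul, hint s hs]
  have hRcd : ∀ s, G s ≠ 0 → ContDiffAt ℂ 1 R s := by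
    intro s hs
    have ha : ContDiffAt ℂ 1 a s :=
      (hdcd.contDiffAt.inv (mul_ne_zero_iff.1 hs).1).smul hQcd.contDiffAt
    have hb : ContDiffAt ℂ 1 b s := by
      have hk : ∀ {v : ℂ → Fin r → ℂ} {M : ℂ → Matrix (Fin r) (Fin r) ℂ}, ContDiffAt ℂ 1 v s →
          ContDiffAt ℂ 1 M s → ContDiffAt ℂ 1 (fun t => kryl (M t) (v t)) s := fun hv hM =>
        (contDiff_kryl (E := Matrix (Fin r) (Fin r) ℂ × (Fin r → ℂ)) contDiff_fst
          contDiff_snd).contDiffAt.comp s (hM.prodMk hv)
      have h1 := hk (v := fun _ => 1) contDiffAt_const ha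
      have h2 := hk hucd.contDiffAt (hWcd.contDiffAt.mul ha)
      exact ((contDiff_det.contDiffAt.comp s h1).inv (hkr s hs)).smul
        (h2.mul (contDiff_adjugate.contDiffAt.comp s h1))
    refine contDiffAt_pi.2 fun k => ?_
    simp only [R, Function.update_apply]
    split_ifs
    · exact hb
    · exact ha
    · exact (contDiff_pi.1 hρ₀cd k).contDiffAt
  have hΩo : IsOpen {s | G s ≠ 0} := isOpen_ne_fun hGcd.continuous continuous_const
  have hΩc : IsPreconnected {s | G s ≠ 0} := by
    have h := ((countable_zeros hGcd hG1).isConnected_compl_of_one_lt_rank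
      (by rw [Complex.rank_real_complex]; exact Cardinal.one_lt_two)).isPreconnected
    exact h
  have hR01 : ∀ (s₀ : ℂ) (τ : Tup g r ℂ), IsRep τ → R s₀ = τ → (R s₀ (L, true)).det = 1 :=
    fun s₀ τ hτ e => by rw [e]; exact hτ.1 _
  have key := vanish_of_sheets hr0 L f hΩo hΩc hG0 hG1 hRcd (hR01 0 σ₁ hσ₁ hR0) (hR01 1 σ hσ hR1)
    (U := U) (by rw [hR0]; exact hUo.mem_nhds hσ₁U) fun s hs y hy hmem ζ hζ => by
      have hy' : y ^ r * D s = 1 := by simpa [R, D] using hy
      have := hcentre _ hmem (hrep s hs y hy') ζ hζ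
      simpa only [Function.update_idem, Function.update_self, smul_smul] using this
  rwa [hR1] at key

end Vale.Agent.P002
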