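import Vale.Agent.P002.Moves

/-!
# P002: the closure of the integral representations

`VanI f` says that the polynomial `f` vanishes at every integral representation of the surface
group; `InV σ` says that every such polynomial vanishes at `σ`.
-/

namespace Vale.Agent.P002

open Matrix

/-- A tuple of matrices for the generators `a_i = (i,false)`, `b_i = (i,true)`. -/
abbrev Tup (g r : ℕ) (R : Type*) := Fin g × Bool → Matrix (Fin r) (Fin r) R

/-- The matrix entries as variables. -/
abbrev Var (g r : ℕ) := (Fin g × Bool) × Fin r × Fin r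

variable {g r : ℕ}

/-- The entries of a tuple. -/
def coord {R : Type*} (σ : Tup g r R) : Var g r → R := fun v => σ v.1 v.2.1 v.2.2

/-- The integer special linear tuples, read as complex matrices. -/
def castT (τ : Fin g × Bool → SpecialLinearGroup (Fin r) ℤ) : Tup g r ℂ :=
  fun k => (Int.castRingHom ℂ).mapMatrix (τ k : Matrix (Fin r) (Fin r) ℤ)

/-- Complex representations of the surface group in `SL_r`. -/
def IsRep (σ : Tup g r ℂ) : Prop := (∀ k, (σ k).det = 1) ∧ rel adjugate σ = 1

/-- `f` vanishes at every integral representation. -/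
def VanI (f : MvPolynomial (Var g r) ℂ) : Prop :=
  ∀ τ : Fin g × Bool → SpecialLinearGroup (Fin r) ℤ,
    rel (fun x => x⁻¹) τ = 1 → MvPolynomial.eval (coord (castT τ)) f = 0

/-- `σ` is in the Zariski closure of the integral representations. -/
def InV (σ : Tup g r ℂ) : Prop := ∀ f, VanI f → MvPolynomial.eval (coord σ) f = 0

/-- The tuple of generic matrices. -/
noncomputable def gen : Tup g r (MvPolynomial (Var g r) ℂ) :=
  fun k => Matrix.of fun a b => MvPolynomial.X (k, a, b)

theorem gen_map (σ : Tup g r ℂ) (k : Fin g × Bool) :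
    (MvPolynomial.eval (coord σ)).mapMatrix (gen k) = σ k := by
  ext a b; simp [gen, coord]

theorem eval_subst {T : Tup g r (MvPolynomial (Var g r) ℂ)} {σ σ' : Tup g r ℂ}
    (h : ∀ k, (MvPolynomial.eval (coord σ)).mapMatrix (T k) = σ' k) (f : MvPolynomial (Var g r) ℂ) :
    MvPolynomial.eval (coord σ) (MvPolynomial.bind₁ (coord T) f) =
      MvPolynomial.eval (coord σ') f := by
  change MvPolynomial.eval₂Hom (RingHom.id ℂ) (coord σ) _ = MvPolynomial.eval₂Hom _ _ f
  rw [MvPolynomial.eval₂Hom_bind₁]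
  congr 2
  funext v
  simp only [coord, ← h v.1]
  rfl

/-- `T` pulls the vanishing ideal of the integral representations back into itself. -/
def Pull (T : Tup g r ℂ → Tup g r ℂ) : Prop :=
  ∀ f, VanI f → ∃ f', VanI f' ∧
    ∀ σ, MvPolynomial.eval (coord σ) f' = MvPolynomial.eval (coord (T σ)) f

theorem Pull.inV {T : Tup g r ℂ → Tup g r ℂ} (hT : Pull T) {σ : Tup g r ℂ} (h : InV σ) :
    InV (T σ) := by
  intro f hf
  obtain ⟨f', hf', he⟩ := hT f hf
  rw [← he]; exact h f' hf'

theorem Pull.comp {S T : Tup g r ℂ → Tup g r ℂ} (hS : Pull S) (hT : Pull T) : Pull (S ∘ T) := by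
  intro f hf
  obtain ⟨f', hf', he⟩ := hS f hf
  obtain ⟨f'', hf'', he'⟩ := hT f' hf'
  exact ⟨f'', hf'', fun σ => by rw [he', he]; rfl⟩

theorem Pull.iterate {T : Tup g r ℂ → Tup g r ℂ} (hT : Pull T) : ∀ n, Pull T^[n]
  | 0 => fun f hf => ⟨f, hf, fun _ => rfl⟩
  | n + 1 => by
    rw [Function.iterate_succ]
    exact (hT.iterate n).comp hT

theorem pull_of (T : Tup g r ℂ → Tup g r ℂ) (TP : Tup g r (MvPolynomial (Var g r) ℂ))
    (h1 : ∀ σ k, (MvPolynomial.eval (coord σ)).mapMatrix (TP k) = T σ k)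
    (h2 : ∀ τ : Fin g × Bool → SpecialLinearGroup (Fin r) ℤ, rel (fun x => x⁻¹) τ = 1 →
      ∃ τ', rel (fun x => x⁻¹) τ' = 1 ∧ T (castT τ) = castT τ') : Pull T := by
  intro f hf
  refine ⟨MvPolynomial.bind₁ (coord TP) f, fun τ hτ => ?_, fun σ => eval_subst (h1 σ) f⟩
  obtain ⟨τ', hτ', he⟩ := h2 τ hτ
  rw [eval_subst (h1 _) f, he]
  exact hf τ' hτ'

/-- From integer special linear matrices to complex matrices. -/
def toC (r : ℕ) : SpecialLinearGroup (Fin r) ℤ →* Matrix (Fin r) (Fin r) ℂ :=
  (Int.castRingHom ℂ).mapMatrix.toMonoidHom.comp SpecialLinearGroup.coeMonoidHom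

theorem toC_inv (x : SpecialLinearGroup (Fin r) ℤ) : toC r x⁻¹ = adjugate (toC r x) :=
  RingHom.map_adjugate (Int.castRingHom ℂ) (x : Matrix (Fin r) (Fin r) ℤ)

theorem castT_eq (τ : Fin g × Bool → SpecialLinearGroup (Fin r) ℤ) :
    castT τ = fun k => toC r (τ k) := rfl

/-- The slide `ψ` on matrix tuples. -/
def psiM (i j : Fin g) : Tup g r ℂ → Tup g r ℂ := slide adjugate (psiQ adjugate) i j

/-- The slide `φ` on matrix tuples. -/
def phiM (i j : Fin g) : Tup g r ℂ → Tup g r ℂ := slide adjugate (phiQ adjugate) i j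

theorem pull_psiM {i j : Fin g} (hij : i < j) : Pull (psiM (r := r) i j) := by
  refine pull_of _ (slide adjugate (psiQ adjugate) i j gen) (fun σ k => ?_) (fun τ hτ => ?_)
  · have := congrFun (map_slide_psi (M := Matrix (Fin r) (Fin r) (MvPolynomial (Var g r) ℂ))
      adjugate adjugate (MvPolynomial.eval (coord σ)).mapMatrix.toMonoidHom
      (fun x => RingHom.map_adjugate _ x) i j gen) k
    simp only [RingHom.toMonoidHom_eq_coe, MonoidHom.coe_coe, gen_map] at this
    exact this
  · refine ⟨slide (fun x => x⁻¹) (psiQ fun x => x⁻¹) i j τ, ?_, ?_⟩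
    · rw [rel_slide _ psiQ_comm i j hij, hτ]
    · exact (map_slide_psi (fun x : SpecialLinearGroup (Fin r) ℤ => x⁻¹) adjugate (toC r)
        toC_inv i j τ).symm

theorem pull_phiM {i j : Fin g} (hij : i < j) : Pull (phiM (r := r) i j) := by
  refine pull_of _ (slide adjugate (phiQ adjugate) i j gen) (fun σ k => ?_) (fun τ hτ => ?_)
  · have := congrFun (map_slide_phi (M := Matrix (Fin r) (Fin r) (MvPolynomial (Var g r) ℂ))
      adjugate adjugate (MvPolynomial.eval (coord σ)).mapMatrix.toMonoidHom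
      (fun x => RingHom.map_adjugate _ x) i j gen) k
    simp only [RingHom.toMonoidHom_eq_coe, MonoidHom.coe_coe, gen_map] at this
    exact this
  · refine ⟨slide (fun x => x⁻¹) (phiQ fun x => x⁻¹) i j τ, ?_, ?_⟩
    · rw [rel_slide _ phiQ_comm i j hij, hτ]
    · exact (map_slide_phi (fun x : SpecialLinearGroup (Fin r) ℤ => x⁻¹) adjugate (toC r)
        toC_inv i j τ).symm

theorem pull_twist (i : Fin g) (n : ℕ) : Pull (twist (M := Matrix (Fin r) (Fin r) ℂ) i n) := by
  refine pull_of _ (twist i n gen) (fun σ k => ?_) (fun τ hτ => ?_)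
  · have := congrFun (map_twist (M := Matrix (Fin r) (Fin r) (MvPolynomial (Var g r) ℂ))
      (MvPolynomial.eval (coord σ)).mapMatrix.toMonoidHom i n gen) k
    simp only [RingHom.toMonoidHom_eq_coe, MonoidHom.coe_coe, gen_map] at this
    exact this
  · refine ⟨twist i n τ, ?_, ?_⟩
    · rw [rel_twist, hτ]
    · exact (map_twist (toC r) i n τ).symm

theorem phiM_psiM {i j : Fin g} (hij : i < j) {σ : Tup g r ℂ} (h : ∀ k, (σ k).det = 1) :
    phiM i j (psiM i j σ) = σ := by
  let σ' : Fin g × Bool → SpecialLinearGroup (Fin r) ℂ := fun k => ⟨σ k, h k⟩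
  let c : SpecialLinearGroup (Fin r) ℂ →* Matrix (Fin r) (Fin r) ℂ :=
    SpecialLinearGroup.coeMonoidHom
  have hc : ∀ x, c x⁻¹ = adjugate (c x) := fun x => rfl
  have h1 := map_slide_psi (fun x : SpecialLinearGroup (Fin r) ℂ => x⁻¹) adjugate c hc i j σ'
  have h2 := map_slide_phi (fun x : SpecialLinearGroup (Fin r) ℂ => x⁻¹) adjugate c hc i j
    (slide (fun x => x⁻¹) (psiQ fun x => x⁻¹) i j σ')
  rw [h1, slide_phi_psi i j hij] at h2
  exact h2.symm

theorem det_psiM {i j : Fin g} {σ : Tup g r ℂ} (h : ∀ k, (σ k).det = 1) :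
    ∀ k, (psiM i j σ k).det = 1 := by
  let σ' : Fin g × Bool → SpecialLinearGroup (Fin r) ℂ := fun k => ⟨σ k, h k⟩
  let c : SpecialLinearGroup (Fin r) ℂ →* Matrix (Fin r) (Fin r) ℂ :=
    SpecialLinearGroup.coeMonoidHom
  have hc : ∀ x, c x⁻¹ = adjugate (c x) := fun x => rfl
  intro k
  have h1 := congrFun
    (map_slide_psi (fun x : SpecialLinearGroup (Fin r) ℂ => x⁻¹) adjugate c hc i j σ') k
  change _ = psiM i j σ k at h1
  rw [← h1]
  exact (slide _ _ i j σ' k).2

theorem phiM_psiM_iterate {i j : Fin g} (hij : i < j) (m : ℕ) :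
    ∀ {σ : Tup g r ℂ}, (∀ k, (σ k).det = 1) → (phiM i j)^[m] ((psiM i j)^[m] σ) = σ := by
  induction m with
  | zero => intro σ _; rfl
  | succ m ih =>
    intro σ h
    rw [Function.iterate_succ' (phiM i j), Function.iterate_succ (psiM i j)]
    simp only [Function.comp_apply]
    rw [ih (det_psiM h), phiM_psiM hij h]

theorem InV.isRep {σ : Tup g r ℂ} (h : InV σ) : IsRep σ := by
  refine ⟨fun k => ?_, ?_⟩
  · have e : ∀ ρ : Tup g r ℂ, MvPolynomial.eval (coord ρ) ((gen k).det - 1) = (ρ k).det - 1 := by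
      intro ρ
      rw [map_sub, map_one, RingHom.map_det, gen_map]
    have := h ((gen k).det - 1) fun τ _ => by
      rw [e]
      simp only [castT, ← RingHom.map_det, (τ k).2, map_one, sub_self]
    rwa [e, sub_eq_zero] at this
  · have e : ∀ (ρ : Tup g r ℂ) a b, MvPolynomial.eval (coord ρ)
        (rel (adjugate : Matrix (Fin r) (Fin r) (MvPolynomial (Var g r) ℂ) → _) gen a b) =
          rel adjugate ρ a b := by
      intro ρ a b
      have := map_rel (M := Matrix (Fin r) (Fin r) (MvPolynomial (Var g r) ℂ))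
        adjugate adjugate (MvPolynomial.eval (coord ρ)).mapMatrix.toMonoidHom
        (fun x => RingHom.map_adjugate _ x) gen
      simp only [RingHom.toMonoidHom_eq_coe, MonoidHom.coe_coe, gen_map] at this
      exact congrFun (congrFun this a) b
    ext a b
    have := h (rel adjugate gen a b - MvPolynomial.C ((1 : Matrix (Fin r) (Fin r) ℂ) a b))
      fun τ hτ => by
        rw [map_sub, MvPolynomial.eval_C, e, castT_eq,
          ← map_rel (fun x : SpecialLinearGroup (Fin r) ℤ => x⁻¹) adjugate (toC r) toC_inv, hτ,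
          map_one, sub_self]
    rwa [map_sub, MvPolynomial.eval_C, e, sub_eq_zero] at this

/-- The tuple `(A, b = 1)`. -/
def lag {R : Type*} [CommRing R] (A : Fin g → Matrix (Fin r) (Fin r) R) : Tup g r R :=
  fun k => bif k.2 then 1 else A k.1

theorem lag_false {R : Type*} [CommRing R] (A : Fin g → Matrix (Fin r) (Fin r) R) (i : Fin g) :
    lag A (i, false) = A i := rfl

theorem lag_true {R : Type*} [CommRing R] (A : Fin g → Matrix (Fin r) (Fin r) R) (i : Fin g) :
    lag A (i, true) = 1 := rfl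

theorem rel_lag (B : Fin g → SpecialLinearGroup (Fin r) ℤ) :
    rel (fun x => x⁻¹) (fun k : Fin g × Bool => bif k.2 then 1 else B k.1) = 1 := by
  refine List.prod_eq_one fun x hx => ?_
  simp only [cmList, List.mem_ofFn] at hx
  obtain ⟨i, rfl⟩ := hx
  simp [cm]

end Vale.Agent.P002
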