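import Vale.Agent.P002.ChartV

/-!
# P002: every representation with scalar commutant is in the closure of the integral ones

The last handle can be moved freely once the other handles have scalar commutant, so the domain of
the chart is dense among the representations with scalar commutant.
-/

namespace Vale.Agent.P002

open Matrix Filter Topology
open scoped Matrix.Norms.Operator

set_option backward.isDefEq.respectTransparency false

variable {r g : ℕ}

theorem isClosed_inV : IsClosed {σ : Tup g r ℂ | InV σ} := by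
  simp only [InV, Set.setOf_forall]
  exact isClosed_iInter fun f => isClosed_iInter fun _ =>
    isClosed_eq (contDiff_eval f contDiff_id).continuous continuous_const

theorem inV_of_near {σ : Tup g r ℂ} (h : ∀ N ∈ 𝓝 σ, ∃ ρ ∈ N, InV ρ) : InV σ := by
  have : σ ∈ closure {σ : Tup g r ℂ | InV σ} := mem_closure_iff_nhds.2 fun N hN => by
    obtain ⟨ρ, hρ, hV⟩ := h N hN
    exact ⟨ρ, hρ, hV⟩
  rwa [isClosed_inV.closure_eq] at this

/-- The equations of the last handle: the determinants of the other handles, the last pair, and the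
relation with slack. -/
noncomputable def lastEq (L : Fin g) (p : Tup g r ℂ × ℂ) :
    ({k : Fin g × Bool // selRest L k = true} → ℂ) ×
      (Matrix (Fin r) (Fin r) ℂ × Matrix (Fin r) (Fin r) ℂ) × Matrix (Fin r) (Fin r) ℂ :=
  (fun k => (Seq p).1 k.1, (p.1 (L, false), p.1 (L, true)), (Seq p).2)

theorem contDiff_lastEq (L : Fin g) : ContDiff ℂ 1 (lastEq (r := r) L) :=
  ((contDiff_pi.2 fun k => contDiff_pi.1 (contDiff_Seq (r := r) (g := g)).fst k.1 :
    ContDiff ℂ 1 fun (p : Tup g r ℂ × ℂ) (k : {k : Fin g × Bool // selRest L k = true}) =>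
      (Seq p).1 k.1)).prodMk
    ((((contDiff_apply ℂ _ (L, false)).comp contDiff_fst).prodMk
      ((contDiff_apply ℂ _ (L, true)).comp contDiff_fst)).prodMk contDiff_Seq.snd)

theorem fderiv_lastEq (L : Fin g) {σ : Tup g r ℂ} (hσ : IsRep σ) (v : Tup g r ℂ) (s : ℂ) :
    fderiv ℂ (lastEq L) (σ, (0 : ℂ)) (v, s) =
      (fun k => trace (adjugate (σ k.1) * v k.1), (v (L, false), v (L, true)),
        (fderiv ℂ Requ σ v).2 + s • 1) := by
  have hS := ((contDiff_Seq (r := r) (g := g)).differentiable one_ne_zero (σ, (0 : ℂ))).hasFDerivAt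
  have hp : ∀ k, HasFDerivAt (fun p : Tup g r ℂ × ℂ => p.1 k)
      ((ContinuousLinearMap.proj k).comp (ContinuousLinearMap.fst ℂ _ _)) (σ, (0 : ℂ)) := fun k =>
    ((ContinuousLinearMap.proj k).comp (ContinuousLinearMap.fst ℂ (Tup g r ℂ) ℂ)).hasFDerivAt
  have hpi : HasFDerivAt (fun (p : Tup g r ℂ × ℂ) (k : {k : Fin g × Bool // selRest L k = true}) =>
      (Seq p).1 k.1) _ (σ, (0 : ℂ)) :=
    hasFDerivAt_pi.2 fun k => hasFDerivAt_pi'.1 hS.fst k.1
  rw [show fderiv ℂ (lastEq L) (σ, (0 : ℂ)) = _ from HasFDerivAt.fderiv (f := lastEq L)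
    (hpi.prodMk (((hp (L, false)).prodMk (hp (L, true))).prodMk hS.snd))]
  have e := fderiv_Seq hσ v s
  refine Prod.ext (funext fun k => ?_) (Prod.ext rfl ?_)
  · show (fderiv ℂ Seq (σ, (0 : ℂ)) (v, s)).1 k.1 = _
    rw [e, fderiv_Requ_fst hσ]
  · show (fderiv ℂ Seq (σ, (0 : ℂ)) (v, s)).2 = _
    rw [e]

theorem fderiv_lastEq_surjective (hr : r ≠ 0) {L : Fin g} (hL : L.1 + 1 = g) {σ : Tup g r ℂ}
    (hσ : IsRep σ) (hrest : Module.finrank ℂ (ComK (selRest L) σ) ≤ 1) :
    (fderiv ℂ (lastEq L) (σ, (0 : ℂ))).range = ⊤ := by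
  rw [LinearMap.range_eq_top]
  intro ⟨τ, ⟨U, V⟩, M⟩
  let v0 : Tup g r ℂ := fun k =>
    if h : selRest L k = true then (τ ⟨k, h⟩ / r) • σ k else bif k.2 then V else U
  let K : Submodule ℂ (Matrix (Fin r) (Fin r) ℂ) :=
    { carrier := {x | ∃ v, ∃ s : ℂ, (∀ k, trace (adjugate (σ k) * v k) = 0) ∧
        (∀ c, v (L, c) = 0) ∧ x = (fderiv ℂ Requ σ v).2 + s • 1}
      zero_mem' := ⟨0, 0, fun k => by simp, fun c => rfl, by simp⟩
      add_mem' := by
        rintro x y ⟨v, s, hv, hvL, rfl⟩ ⟨w, t, hw, hwL, rfl⟩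
        exact ⟨v + w, s + t, fun k => by simp [mul_add, hv, hw], fun c => by simp [hvL, hwL], by
          simp [map_add, add_smul]; abel⟩
      smul_mem' := by
        rintro z x ⟨v, s, hv, hvL, rfl⟩
        exact ⟨z • v, z * s, fun k => by simp [hv], fun c => by simp [hvL],
          by simp [map_smul, smul_add, smul_smul]⟩ }
  have hK : K = ⊤ := by
    have hcomm : ∀ u, (∀ i : Fin g, i.1 < L.1 → ∀ c, Commute u (σ (i, c))) →
        ∃ z : ℂ, u = z • (1 : Matrix (Fin r) (Fin r) ℂ) := fun u hu =>
      (ComK_le_one_iff hr).1 hrest u (mem_ComK.2 fun k hk => by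
        have hne : k.1 ≠ L := by simpa [selRest] using hk
        have : k.1.1 ≠ L.1 := fun e => hne (Fin.ext e)
        exact hu k.1 (by have := k.1.2; omega) k.2)
    rw [eq_top_iff, ← variations_top hr hσ.1 L.1 hcomm, Submodule.span_le]
    intro x hx
    rcases hx with rfl | ⟨i, hi, Ya, Yb, ha, hb, rfl⟩
    · exact ⟨0, 1, fun k => by simp, fun c => rfl, by simp⟩
    · have e1 : trace (adjugate (σ (i, false)) * (Ya * σ (i, false))) = 0 := by
        rw [← mul_assoc, (trace_conj (hσ.1 _) _).2, ha]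
      have e2 : trace (adjugate (σ (i, true)) * (Yb * σ (i, true))) = 0 := by
        rw [← mul_assoc, (trace_conj (hσ.1 _) _).2, hb]
      refine ⟨single1 i (Ya * σ (i, false)) (Yb * σ (i, true)), 0, fun k => ?_, fun c => ?_, ?_⟩
      · by_cases hk : k.1 = i
        · obtain ⟨k1, c⟩ := k
          simp only at hk
          subst hk
          cases c
          · rw [single1_false]; exact e1
          · rw [single1_true]; exact e2
        · rw [single1_ne _ _ hk, mul_zero, trace_zero]
      · exact single1_ne _ _ (fun e => by subst e; exact lt_irrefl _ hi)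
      · rw [fderiv_Requ_single hσ i e1 e2, zero_smul, add_zero]
        simp only [mul_assoc, (mul_adj_cancel (hσ.1 _)).1, mul_one]
  obtain ⟨v, s, hv, hvL, hM⟩ : M - (fderiv ℂ Requ σ v0).2 ∈ K := by rw [hK]; trivial
  refine ⟨(v0 + v, s), ?_⟩
  show fderiv ℂ (lastEq L) (σ, (0 : ℂ)) (v0 + v, s) = _
  rw [fderiv_lastEq L hσ]
  have hL0 : ∀ c, selRest L (L, c) ≠ true := fun c => by simp [selRest]
  refine Prod.ext (funext fun k => ?_) (Prod.ext (Prod.ext ?_ ?_) ?_)
  · show trace (adjugate (σ k.1) * (v0 k.1 + v k.1)) = τ k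
    rw [mul_add, trace_add, hv, add_zero]
    simp only [v0, dif_pos k.2, Subtype.coe_eta]
    rw [Matrix.mul_smul, (mul_adj_cancel (hσ.1 _)).2, trace_smul, trace_one, Fintype.card_fin,
      smul_eq_mul, div_mul_cancel₀ _ (Nat.cast_ne_zero.2 hr)]
  · show v0 (L, false) + v (L, false) = U
    simp [v0, hL0, hvL]
  · show v0 (L, true) + v (L, true) = V
    simp [v0, hL0, hvL]
  · show (fderiv ℂ Requ σ (v0 + v)).2 + s • 1 = M
    rw [map_add, Prod.snd_add, add_assoc, ← hM]
    abel

/-- When the other handles have scalar commutant the last pair can be prescribed nearby. -/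
theorem exists_rep_last (hr : r ≠ 0) {L : Fin g} (hL : L.1 + 1 = g) {σ : Tup g r ℂ} (hσ : IsRep σ)
    (hrest : Module.finrank ℂ (ComK (selRest L) σ) ≤ 1) {N : Set (Tup g r ℂ)} (hN : N ∈ 𝓝 σ) :
    ∀ᶠ p in 𝓝 (σ (L, false), σ (L, true)), p.1.det = 1 → p.2.det = 1 →
      ∃ ρ ∈ N, IsRep ρ ∧ ρ (L, false) = p.1 ∧ ρ (L, true) = p.2 := by
  have hfs : HasStrictFDerivAt (lastEq L) (fderiv ℂ (lastEq L) (σ, (0 : ℂ))) (σ, (0 : ℂ)) :=
    (contDiff_lastEq L).contDiffAt.hasStrictFDerivAt one_ne_zero
  have hmap := hfs.map_nhds_eq_of_surj (fderiv_lastEq_surjective hr hL hσ hrest)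
  have himg : lastEq L '' (N ×ˢ {s : ℂ | (1 + s) ^ r = 1 → s = 0}) ∈ 𝓝 (lastEq L (σ, (0 : ℂ))) := by
    rw [← hmap]
    exact image_mem_map (prod_mem_nhds hN (eventually_slack_zero r hr))
  have h0 : lastEq L (σ, (0 : ℂ)) = (fun _ => 1, (σ (L, false), σ (L, true)), 1) := by
    simp [lastEq, Seq, requ_eq hσ]
  have hc : ContinuousAt (fun p : Matrix (Fin r) (Fin r) ℂ × Matrix (Fin r) (Fin r) ℂ =>
      (((fun _ => 1) : {k : Fin g × Bool // selRest L k = true} → ℂ), p,
        (1 : Matrix (Fin r) (Fin r) ℂ))) (σ (L, false), σ (L, true)) :=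
    (continuous_const.prodMk (continuous_id.prodMk continuous_const)).continuousAt
  rw [h0] at himg
  filter_upwards [hc.preimage_mem_nhds himg] with p hp h1 h2
  obtain ⟨⟨ρ, s⟩, ⟨hρN, hs⟩, he⟩ := hp
  simp only [lastEq, Prod.mk.injEq] at he
  obtain ⟨e1, e2, e3⟩ := he
  have e4 : ρ (L, false) = p.1 := congrArg Prod.fst e2
  have e5 : ρ (L, true) = p.2 := congrArg Prod.snd e2
  refine ⟨ρ, hρN, isRep_of_Seq (p := (ρ, s)) hr (Prod.ext (funext fun k => ?_) e3) hs, e4, e5⟩
  show (ρ k).det = 1
  obtain ⟨i, c⟩ := k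
  by_cases hi : i = L
  · subst hi; cases c
    · rw [e4]; exact h1
    · rw [e5]; exact h2
  · exact congrFun e1 ⟨(i, c), by simp [selRest, hi]⟩

/-- The non-vanishing condition of the chart as a function of the last pair. -/
noncomputable def goodFun (q : Fin r) (A B : Matrix (Fin r) (Fin r) ℂ) : ℂ :=
  (chartM q (adjugate (cm adjugate A B)) A).det * (kryl A 1).det

theorem pre_eq_adj {L : Fin g} (hL : L.1 + 1 = g) {σ : Tup g r ℂ} (hσ : IsRep σ) :
    pre L.1 σ = adjugate (cm adjugate (σ (L, false)) (σ (L, true))) := by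
  have hpost : post (L.1 + 1) σ = 1 := by
    unfold post
    rw [List.drop_of_length_le (by simp [cmList, hL]), List.prod_nil]
  have h := hσ.2
  rw [rel_split σ L, hpost, mul_one] at h
  calc pre L.1 σ = pre L.1 σ * (cm adjugate (σ (L, false)) (σ (L, true)) *
        adjugate (cm adjugate (σ (L, false)) (σ (L, true)))) := by
        rw [(mul_adj_cancel (det_cm (hσ.1 _) (hσ.1 _))).1, mul_one]
    _ = adjugate (cm adjugate (σ (L, false)) (σ (L, true))) := by rw [← mul_assoc, h, one_mul]

theorem goodPt_of_goodFun {L : Fin g} (hL : L.1 + 1 = g) {q : Fin r} {σ : Tup g r ℂ}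
    (hσ : IsRep σ) (h : goodFun q (σ (L, false)) (σ (L, true)) ≠ 0) : GoodPt L q σ := by
  rw [goodFun, ← pre_eq_adj hL hσ] at h
  exact mul_ne_zero_iff.1 h

theorem sum_lam_eval (q : Fin r) (a : Matrix (Fin r) (Fin r) ℂ) (y : Fin r → ℂ) (x : ℂ) :
    (∑ m, Polynomial.C (y m) * lam q a m).eval x = ((scalar (Fin r) x - a).updateCol q y).det := by
  have hm : (Polynomial.evalRingHom x).mapMatrix (charmatrix (col0 q a)) =
      scalar (Fin r) x - col0 q a := by
    ext i j
    by_cases hij : i = j
    · subst hij; simp [charmatrix_apply]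
    · simp [charmatrix_apply, hij]
  have he : ∀ m, (lam q a m).eval x = adjugate (scalar (Fin r) x - col0 q a) q m := fun m => by
    rw [lam, ← hm, ← RingHom.map_adjugate]
    rfl
  rw [Polynomial.eval_finsetSum]
  simp only [Polynomial.eval_mul, Polynomial.eval_C, he]
  rw [show (scalar (Fin r) x - a).updateCol q y = (scalar (Fin r) x - col0 q a).updateCol q y by
    ext i j
    by_cases hj : j = q
    · subst hj; simp
    · simp [col0, Matrix.updateCol_apply, hj], det_updateCol_eq]
  exact Finset.sum_congr rfl fun m _ => mul_comm _ _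

/-- A pair in the domain of the chart. -/
theorem exists_good_pair (hr : 2 ≤ r) (q : Fin r) :
    ∃ A B : Matrix (Fin r) (Fin r) ℂ, A.det = 1 ∧ B.det = 1 ∧ goodFun q A B ≠ 0 := by
  classical
  have : Nontrivial (Fin r) := Fin.nontrivial_iff_two_le.2 hr
  obtain ⟨l, hl, hl1, hl0⟩ := exists_indep hr
  have hinj := hl.injective
  let e : Fin r → ℂ := Pi.single q 1
  let w : Fin r → ℂ := fun m => if m = q then 0 else 1
  let R : Matrix (Fin r) (Fin r) ℂ := Matrix.replicateCol Unit e * Matrix.replicateRow Unit w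
  have hRa : ∀ i m, R i m = if i = q ∧ m ≠ q then 1 else 0 := fun i m => by
    by_cases hi : i = q <;> by_cases hm : m = q <;>
      simp [R, Matrix.mul_apply, e, w, hi, hm, Pi.single_apply]
  set A : Matrix (Fin r) (Fin r) ℂ := diagonal l with hA
  set B : Matrix (Fin r) (Fin r) ℂ := 1 + R with hB
  have hAd : A.det = 1 := by rw [hA, det_diagonal, hl1]
  have hBd : B.det = 1 := by
    rw [hB, det_one_add_replicateCol_mul_replicateRow]
    simp [e, w]
  obtain ⟨a1, a2⟩ := mul_adj_cancel hAd
  obtain ⟨b1, b2⟩ := mul_adj_cancel hBd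
  refine ⟨A, B, hAd, hBd, mul_ne_zero ?_ ?_⟩
  · set W := adjugate (cm adjugate A B) with hW
    have hWd : W.det = 1 := by rw [hW, det_adjugate, det_cm hAd hBd, one_pow]
    have hWe : W = B * A * adjugate B * adjugate A := by
      have h1 : cm adjugate A B * (B * A * adjugate B * adjugate A) = 1 := by
        simp only [cm, mul_assoc]
        rw [← mul_assoc (adjugate B) B, b2, one_mul, ← mul_assoc (adjugate A) A, a2, one_mul,
          ← mul_assoc B (adjugate B), b1, one_mul, a1]
      calc W = W * (cm adjugate A B * (B * A * adjugate B * adjugate A)) := by rw [h1, mul_one]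
        _ = B * A * adjugate B * adjugate A := by
          rw [← mul_assoc, hW, (mul_adj_cancel (det_cm hAd hBd)).2, one_mul]
    intro hdet
    obtain ⟨v, hv0, hv⟩ := exists_mulVec_eq_zero_iff.2 hdet
    apply hv0
    set P : Fin r → ℂ → ℂ := fun m x => ∏ i ∈ Finset.univ.erase m, (x - l i)
    have hPne : ∀ m, P m (l m) ≠ 0 := fun m => Finset.prod_ne_zero_iff.2 fun i hi =>
      sub_ne_zero.2 fun h => (Finset.ne_of_mem_erase hi) (hinj h).symm
    have hc0 : col0 q A = diagonal (fun i => if i = q then 0 else l i) := by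
      ext i j
      by_cases hj : j = q
      · subst hj; by_cases hi : i = j <;> simp [col0, A, hi]
      · by_cases hi : i = j
        · subst hi; simp [col0, A, hj]
        · simp [col0, A, hj, hi]
    have hvq : v q = 0 := by
      have h := congrFun hv ⟨0, by omega⟩
      simp only [mulVec, dotProduct, chartM, of_apply, if_true, Pi.zero_apply, hc0,
        adjugate_diagonal] at h
      rw [Finset.sum_eq_single q (fun m _ hm => by rw [diagonal_apply_ne' _ hm, zero_mul])
        (fun h' => absurd (Finset.mem_univ q) h'), diagonal_apply_eq] at h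
      refine (mul_eq_zero.1 h).resolve_left (Finset.prod_ne_zero_iff.2 fun i hi => ?_)
      simp [Finset.ne_of_mem_erase hi, hl0]
    have hlamA : ∀ m, m ≠ q → lam q A m = 0 := by
      intro m hm
      have : charmatrix (col0 q A) =
          diagonal (fun i => Polynomial.X - Polynomial.C (if i = q then 0 else l i)) := by
        rw [hc0]
        ext i j
        by_cases hij : i = j
        · subst hij; simp [charmatrix_apply]
        · simp [charmatrix_apply, hij]
      rw [lam, this, adjugate_diagonal, diagonal_apply_ne' _ hm]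
    set S : Polynomial ℂ := ∑ m, Polynomial.C ((W *ᵥ v) m) * lam q (W * A) m with hS
    have hcoeff : ∀ k : ℕ, k ≠ 0 → k < r → S.coeff k = 0 := by
      intro k hk0 hkr
      have h := congrFun hv ⟨k, hkr⟩
      simp only [mulVec, dotProduct, chartM, of_apply, if_neg hk0, Pi.zero_apply, sub_mul,
        Finset.sum_sub_distrib] at h
      have h1 : ∑ m, (lam q A m).coeff k * v m = 0 := Finset.sum_eq_zero fun m _ => by
        by_cases hm : m = q
        · rw [hm, hvq, mul_zero]
        · rw [hlamA m hm, Polynomial.coeff_zero, zero_mul]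
      rw [h1, zero_sub, neg_eq_zero] at h
      rw [hS, Polynomial.finsetSum_coeff]
      simp only [Polynomial.coeff_C_mul, mulVec, dotProduct, Finset.sum_mul] at h ⊢
      rw [Finset.sum_comm] at h
      rw [← h]
      exact Finset.sum_congr rfl fun m _ => Finset.sum_congr rfl fun n _ => by ring
    have hdeg : ∀ k, r ≤ k → S.coeff k = 0 := by
      intro k hk
      have h1 := charpoly_updateCol q (W * A) (W *ᵥ v)
      rw [← hS] at h1
      have h2 : S = (col0 q (W * A)).charpoly - ((W * A).updateCol q (W *ᵥ v)).charpoly := by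
        rw [h1]; ring
      rw [h2, Polynomial.coeff_sub]
      rcases hk.lt_or_eq with hk | rfl
      · rw [Polynomial.coeff_eq_zero_of_natDegree_lt
            (by rwa [charpoly_natDegree_eq_dim, Fintype.card_fin]),
          Polynomial.coeff_eq_zero_of_natDegree_lt
            (by rwa [charpoly_natDegree_eq_dim, Fintype.card_fin]), sub_zero]
      · have e : ∀ M : Matrix (Fin r) (Fin r) ℂ, M.charpoly.coeff r = 1 := fun M => by
          have := (charpoly_monic M).coeff_natDegree
          rwa [charpoly_natDegree_eq_dim, Fintype.card_fin] at this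
        rw [e, e, sub_self]
    have hconst : ∀ x : ℂ, S.eval x = S.eval 0 := by
      intro x
      have : S = Polynomial.C (S.coeff 0) := by
        ext k
        rw [Polynomial.coeff_C]
        split_ifs with hk
        · rw [hk]
        · rcases lt_or_ge k r with h | h
          · exact hcoeff k hk h
          · exact hdeg k h
      rw [this, Polynomial.eval_C, Polynomial.eval_C]
    have hS0 : S.eval 0 = 0 := by
      rw [sum_lam_eval, map_zero, zero_sub,
        show (-(W * A)).updateCol q (W *ᵥ v) = W * (-A).updateCol q v by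
          rw [mul_updateCol, mul_neg], det_mul, hWd, one_mul, det_updateCol_eq]
      refine Finset.sum_eq_zero fun m _ => ?_
      by_cases hm : m = q
      · rw [hm, hvq, mul_zero]
      · rw [show -A = diagonal (fun i => -l i) from (diagonal_neg l).symm ▸ rfl, adjugate_diagonal,
          diagonal_apply_ne' _ hm, zero_mul]
    set z : Fin r → ℂ := (A * adjugate B * adjugate A) *ᵥ v
    have hz : ∀ x, ∑ m, P m x * z m = 0 := by
      intro x
      have h := (hconst x).trans hS0
      have e1 : scalar (Fin r) x - W * A = B * ((scalar (Fin r) x - A) * adjugate B) := by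
        rw [sub_mul, mul_sub, hWe, mul_assoc (B * A * adjugate B), a2, mul_one, ← mul_assoc B A,
          ← mul_assoc B (scalar (Fin r) x), ← (scalar_commute x (fun _ => Commute.all _ _) B).eq,
          mul_assoc (scalar (Fin r) x), b1, mul_one]
      have e2 : W *ᵥ v = B *ᵥ z := by rw [mulVec_mulVec, hWe, ← mul_assoc, ← mul_assoc]
      rw [hS, sum_lam_eval, e1, e2, ← mul_updateCol, det_mul, hBd, one_mul, det_updateCol_eq,
        adjugate_mul_distrib, adjugate_adjugate' ] at h
      · rw [← h]
        refine Finset.sum_congr rfl fun m _ => ?_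
        congr 1
        have e3 : scalar (Fin r) x - A = diagonal (fun i => x - l i) := by
          rw [hA, scalar_apply, diagonal_sub]
        rw [e3, adjugate_diagonal, mul_diagonal]
        simp only [hBd, one_pow, one_smul]
        rw [hB, Matrix.add_apply, hRa]
        by_cases hm : m = q
        · subst hm; simp [P, Matrix.one_apply]
        · simp [hm, Ne.symm hm, P, Matrix.one_apply]
    have hz0 : z = 0 := funext fun j => by
      have h := hz (l j)
      rw [Finset.sum_eq_single j (fun m _ hm => by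
        rw [show P m (l j) = 0 from
          Finset.prod_eq_zero (Finset.mem_erase.2 ⟨Ne.symm hm, Finset.mem_univ j⟩) (sub_self _),
          zero_mul]) (fun h' => absurd (Finset.mem_univ j) h')] at h
      exact (mul_eq_zero.1 h).resolve_left (hPne j)
    have hv' : v = ((A * B * adjugate A) * (A * adjugate B * adjugate A)) *ᵥ v := by
      rw [show (A * B * adjugate A) * (A * adjugate B * adjugate A) = 1 by
        simp only [mul_assoc]
        rw [← mul_assoc (adjugate A) A, a2, one_mul, ← mul_assoc B (adjugate B), b1, one_mul, a1],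
        one_mulVec]
    rw [hv', ← mulVec_mulVec, show (A * adjugate B * adjugate A) *ᵥ v = z from rfl, hz0, mulVec_zero]
  · have e : kryl A 1 = Matrix.vandermonde l := by
      ext i k
      simp [kryl, A, diagonal_pow, mulVec_diagonal, Matrix.vandermonde_apply]
    rw [e]
    exact Matrix.det_vandermonde_ne_zero_iff.2 hinj

/-- Near a representation with scalar commutant there is one in the domain of the chart. -/
theorem exists_goodPt_near (hg : 2 ≤ g) (hr : 2 ≤ r) {L : Fin g} (hL : L.1 + 1 = g) (q : Fin r)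
    {σ : Tup g r ℂ} (hσ : IsRep σ) (hS : IsSchur σ) {N : Set (Tup g r ℂ)} (hN : N ∈ 𝓝 σ) :
    ∃ ρ ∈ N, IsRep ρ ∧ GoodPt L q ρ := by
  obtain ⟨N', hN'N, hN'o, hσN'⟩ := mem_nhds_iff.1 hN
  obtain ⟨ρ₁, hρ₁N, hρ₁, -, hrest⟩ :=
    exists_rest_schur hg (by omega) L hσ hS (hN'o.mem_nhds hσN')
  have hev := exists_rep_last (by omega) hL hρ₁ hrest (hN'o.mem_nhds hρ₁N)
  obtain ⟨A, B, hA, hB, hgood⟩ := exists_good_pair hr q
  obtain ⟨γ, hγ, hγ0, hγ1, hγd⟩ := exists_sl_path hr (hρ₁.1 (L, false)) hA
  obtain ⟨δ, hδ, hδ0, hδ1, hδd⟩ := exists_sl_path hr (hρ₁.1 (L, true)) hB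
  let G : ℂ → ℂ := fun s => goodFun q (γ s) (δ s)
  have hG : ContDiff ℂ 1 G :=
    (contDiff_det.comp (contDiff_chartM q (contDiff_adjugate.comp
      (((hγ.mul hδ).mul (contDiff_adjugate.comp hγ)).mul (contDiff_adjugate.comp hδ))) hγ)).mul
      (contDiff_det.comp (contDiff_kryl hγ contDiff_const))
  have hfreq : ∃ᶠ s in 𝓝 (0 : ℂ), G s ≠ 0 := by
    intro h
    simp only [not_not] at h
    have han : AnalyticOnNhd ℂ G Set.univ :=
      (hG.differentiable one_ne_zero).differentiableOn.analyticOnNhd isOpen_univ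
    have := han.eqOn_zero_of_preconnected_of_eventuallyEq_zero isPreconnected_univ
      (Set.mem_univ 0) h (Set.mem_univ 1)
    exact hgood (by simpa [G, hγ1, hδ1] using this)
  have ht : Tendsto (fun s => (γ s, δ s)) (𝓝 0) (𝓝 (ρ₁ (L, false), ρ₁ (L, true))) := by
    rw [← hγ0, ← hδ0]
    exact (hγ.continuous.prodMk hδ.continuous).tendsto 0
  obtain ⟨s, hs, hsev⟩ := (hfreq.and_eventually (ht.eventually hev)).exists
  obtain ⟨ρ, hρN, hρ, e1, e2⟩ := hsev (hγd s) (hδd s)
  exact ⟨ρ, hN'N hρN, hρ, goodPt_of_goodFun hL hρ (by rw [e1, e2]; exact hs)⟩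

/-- Every representation with scalar commutant is in the closure of the integral representations. -/
theorem inV_of_schur (hg : 2 ≤ g) (hr : 2 ≤ r) {σ : Tup g r ℂ} (hσ : IsRep σ) (hS : IsSchur σ) :
    InV σ := by
  obtain ⟨A, l, e, L', S, S', T, T', hP⟩ := exists_pos hg hr
  choose W W' hW using hP.spec
  have h : Frame A W W' l := ⟨hP.indep, hP.prod_one, hP.ne_zero, hr, hW⟩
  let L : Fin g := ⟨g - 1, by omega⟩
  have hL : L.1 + 1 = g := by show g - 1 + 1 = g; omega
  let q : Fin r := ⟨0, by omega⟩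
  have hS0 : IsSchur (lag A) := by
    intro c hc
    refine eq_zero_of_trace_mul fun Y hY => ?_
    have hcom : ∀ M ∈ Algebra.adjoin ℂ (Set.range (lag A)), c * M = M * c := by
      intro M hM
      induction hM using Algebra.adjoin_induction with
      | mem M hM => obtain ⟨k, rfl⟩ := hM; exact hc k
      | algebraMap z => exact (Algebra.commutes z c).symm
      | add M N _ _ h1 h2 => rw [mul_add, add_mul, h1, h2]
      | mul M N _ _ h1 h2 => rw [← mul_assoc, h1, mul_assoc, h2, mul_assoc]
    have hall : ∀ M, c * M = M * c := fun M =>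
      hcom M (by rw [adjoin_lag_eq_top hP]; exact Algebra.mem_top)
    -- a central matrix is scalar
    obtain ⟨z, hz⟩ := Matrix.mem_range_scalar_iff_commute_single.2 fun i j _ =>
      (show Commute (Matrix.single i j 1) c from (hall _).symm)
    rw [← hz, scalar_apply, ← smul_one_eq_diagonal, Matrix.smul_mul, one_mul, trace_smul, hY,
      smul_zero]
  have hσ0 : IsRep (lag A) := (inV_lag hr A h.det).isRep
  have hacc : ∀ N ∈ 𝓝 (lag A), ∃ σ₁ ∈ N, IsRep σ₁ ∧ GoodPt L q σ₁ := fun N hN =>
    exists_goodPt_near hg hr hL q hσ0 hS0 hN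
  refine inV_of_near fun N hN => ?_
  obtain ⟨ρ, hρN, hρ, hgood⟩ := exists_goodPt_near hg hr hL q hσ hS hN
  exact ⟨ρ, hρN, inV_of_good hr hL q (σ₀ := lag A) (l := l) (h.spec L) h.indep (local_main h hP)
    hacc hρ hgood⟩

end Vale.Agent.P002
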