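import Vale.Agent.P002.Calc

/-!
# P002: the closure of the integral representations is invariant under twist flows
-/

namespace Vale.Agent.P002

open Matrix Filter Topology NormedSpace
open scoped Matrix.Norms.Operator

variable {r g : ℕ}

theorem exp_mul_exp_neg_self (X : Matrix (Fin r) (Fin r) ℂ) :
    NormedSpace.exp X * NormedSpace.exp (-X) = 1 := by
  rw [← Matrix.exp_add_of_commute X (-X) (Commute.refl X).neg_right, add_neg_cancel,
    NormedSpace.exp_zero]

theorem det_exp_conj (X M : Matrix (Fin r) (Fin r) ℂ) :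
    (NormedSpace.exp X * M * NormedSpace.exp (-X)).det = M.det := by
  rw [det_mul_right_comm, exp_mul_exp_neg_self, one_mul]

theorem exp_diag_conj {P P' : Matrix (Fin r) (Fin r) ℂ} (h : P * P' = 1) (v : Fin r → ℂ) :
    NormedSpace.exp (P * diagonal v * P') = P * diagonal (fun a => Complex.exp (v a)) * P' := by
  have hu : IsUnit P := ⟨⟨P, P', h, mul_eq_one_comm.1 h⟩, rfl⟩
  have hi : P⁻¹ = P' := inv_eq_right_inv h
  rw [← hi, Matrix.exp_conj P _ hu, Matrix.exp_diagonal]
  congr 3
  funext a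
  rw [Pi.exp_def, Complex.exp_eq_exp_ℂ]

theorem totalDegree_bind_le {σ τ : Type*} (φ : σ → MvPolynomial τ ℂ)
    (hφ : ∀ v, (φ v).totalDegree ≤ 1) (f : MvPolynomial σ ℂ) :
    (MvPolynomial.bind₁ φ f).totalDegree ≤ f.totalDegree := by
  conv_lhs => rw [f.as_sum, map_sum]
  refine (MvPolynomial.totalDegree_finsetSum _ _).trans (Finset.sup_le fun m hm => ?_)
  rw [MvPolynomial.bind₁_monomial]
  refine (MvPolynomial.totalDegree_mul _ _).trans ?_
  rw [MvPolynomial.totalDegree_C, zero_add]
  refine (MvPolynomial.totalDegree_finsetProd _ _).trans ?_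
  refine le_trans (Finset.sum_le_sum fun v _ => ?_) (MvPolynomial.le_totalDegree hm)
  refine (MvPolynomial.totalDegree_pow _ _).trans ?_
  calc m v * (φ v).totalDegree ≤ m v * 1 := Nat.mul_le_mul_left _ (hφ v)
    _ = m v := mul_one _

/-- The twist flow at handle `i` in the direction of the traceless part of `a_i ^ k`. -/
noncomputable def tau (i : Fin g) (k : ℕ) (s : ℂ) (ρ : Tup g r ℂ) : Tup g r ℂ :=
  Function.update ρ (i, true) (ρ (i, true) * NormedSpace.exp (s • tl (ρ (i, false) ^ k)))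

/-- The diagonalisable matrices near one with simple spectrum. -/
noncomputable def diagParam (S S' : Matrix (Fin r) (Fin r) ℂ)
    (p : Matrix (Fin r) (Fin r) ℂ × (Fin r → ℂ)) : Matrix (Fin r) (Fin r) ℂ :=
  NormedSpace.exp p.1 * (S * diagonal p.2 * S') * NormedSpace.exp (-p.1)

/-- The linear map `w ↦ S (diag w) S'`. -/
noncomputable def diagLin (S S' : Matrix (Fin r) (Fin r) ℂ) :
    (Fin r → ℂ) →L[ℂ] Matrix (Fin r) (Fin r) ℂ :=
  LinearMap.toContinuousLinearMap
    ((LinearMap.mulRight ℂ S').comp ((LinearMap.mulLeft ℂ S).comp (Matrix.diagonalLinearMap _ ℂ ℂ)))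

theorem diagLin_apply (S S' : Matrix (Fin r) (Fin r) ℂ) (w : Fin r → ℂ) :
    diagLin S S' w = S * diagonal w * S' := rfl

theorem nhds_diagParam {S S' : Matrix (Fin r) (Fin r) ℂ} (hS : S * S' = 1) {l : Fin r → ℂ}
    (hl : Function.Injective l) :
    Filter.map (diagParam S S') (𝓝 (0, l)) = 𝓝 (S * diagonal l * S') := by
  have he : HasStrictFDerivAt (NormedSpace.exp : Matrix (Fin r) (Fin r) ℂ → _)
      (1 : Matrix (Fin r) (Fin r) ℂ →L[ℂ] Matrix (Fin r) (Fin r) ℂ) 0 := hasStrictFDerivAt_exp_zero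
  have h1 : HasStrictFDerivAt
      (fun p : Matrix (Fin r) (Fin r) ℂ × (Fin r → ℂ) => NormedSpace.exp p.1) _
      (0, l) := he.comp (0, l) hasStrictFDerivAt_fst
  have h2 : HasStrictFDerivAt
      (fun p : Matrix (Fin r) (Fin r) ℂ × (Fin r → ℂ) => NormedSpace.exp (-p.1)) _
      (0, l) := HasStrictFDerivAt.comp (0, l) (by rw [neg_zero]; exact he) hasStrictFDerivAt_fst.neg
  have h3 : HasStrictFDerivAt (fun p : Matrix (Fin r) (Fin r) ℂ × (Fin r → ℂ) =>
      diagLin S S' p.2) _ (0, l) :=
    ((diagLin S S').hasStrictFDerivAt).comp (0, l) hasStrictFDerivAt_snd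
  have h4 := (h1.mul' h3).mul' h2
  have hval : diagParam S S' (0, l) = S * diagonal l * S' := by simp [diagParam]
  rw [← hval]
  refine HasStrictFDerivAt.map_nhds_eq_of_surj h4 ?_
  rw [LinearMap.range_eq_top]
  intro δ
  let E := S' * δ * S
  let X : Matrix (Fin r) (Fin r) ℂ := Matrix.of fun a b =>
    if a = b then 0 else E a b / (l b - l a)
  refine ⟨(S * X * S', fun a => E a a), ?_⟩
  have hX : X * diagonal l - diagonal l * X + diagonal (fun a => E a a) = E := by
    ext a b
    rw [Matrix.add_apply, Matrix.sub_apply, mul_diagonal, diagonal_mul]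
    by_cases hab : a = b
    · subst hab; simp [X]
    · have hne : l b - l a ≠ 0 := sub_ne_zero.2 fun h => hab (hl h).symm
      simp only [X, of_apply, hab, if_false, diagonal_apply_ne _ hab, add_zero]
      linear_combination div_mul_cancel₀ (E a b) hne
  have hd : δ = S * E * S' := by
    simp only [E, mul_assoc, hS, mul_one]
    rw [← mul_assoc, hS, one_mul]
  have hsum : S * X * S' * (S * diagonal l * S') + S * diagonal (fun a => E a a) * S' -
      S * diagonal l * S' * (S * X * S') = δ := by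
    rw [hd]
    conv_rhs => rw [← hX]
    rw [conj_mul hS, conj_mul hS, mul_add, add_mul, mul_sub, sub_mul]
    abel
  simp [diagLin_apply, mul_neg, neg_zero, ContinuousLinearMap.one_def]
  show S * diagonal l * S' * (-(S * X * S')) +
    (S * diagonal (fun a => E a a) * S' + S * X * S' * (S * diagonal l * S')) = δ
  rw [← hsum, mul_neg]
  abel

theorem mapMatrix_adjoin_C {σ : Type*} (x : σ → ℂ) (M : Matrix (Fin r) (Fin r) ℂ) :
    (MvPolynomial.eval x).mapMatrix ((MvPolynomial.C : ℂ →+* _).mapMatrix M) = M := by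
  ext a b; simp

/-- Near `ρ₀`, a polynomial vanishing on the twist powers of a tuple vanishes on its torus. -/
theorem flow_torus_of {i : Fin g} {ρ₀ : Tup g r ℂ} {l : Fin r → ℂ}
    {S S' : Matrix (Fin r) (Fin r) ℂ} (hspec : Spec (ρ₀ (i, false)) l S S') (hl : Indep l)
    (f : MvPolynomial (Var g r) ℂ) :
    ∀ᶠ ρ in 𝓝 ρ₀, (∀ n : ℕ, MvPolynomial.eval (coord (twist i n ρ)) f = 0) → ∃ (P P' : Matrix (Fin r) (Fin r) ℂ) (w : Fin r → ℂ),
      P * P' = 1 ∧ ρ (i, false) = P * diagonal w * P' ∧ ∀ y : Fin r → ℂ, ∏ a, y a = 1 →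
        MvPolynomial.eval
          (coord (Function.update ρ (i, true) (ρ (i, true) * (P * diagonal y * P')))) f = 0 := by
  let W : Set (Fin r → ℂ) := {w | ∀ m m' : Fin r → Fin (f.totalDegree + 1),
    ¬ DiffConst (fun a => (m a).1) (fun a => (m' a).1) →
      ∏ a, w a ^ (m a).1 ≠ ∏ a, w a ^ (m' a).1}
  have hW : W ∈ 𝓝 l := by
    show ∀ᶠ w in 𝓝 l, w ∈ W
    simp only [W, Set.mem_setOf_eq, Filter.eventually_all]
    intro m m' hm
    have hc : ∀ e : Fin r → ℕ, Continuous fun w : Fin r → ℂ => ∏ a, w a ^ e a :=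
      fun e => continuous_finsetProd _ fun a _ => (continuous_apply a).pow _
    exact ((hc fun a => (m a).1).sub (hc fun a => (m' a).1)).continuousAt.eventually_ne
      (sub_ne_zero.2 fun h => hm (hl _ _ h)) |>.mono fun w hw e => hw (sub_eq_zero.2 e)
  have hN : ∀ᶠ a in 𝓝 (ρ₀ (i, false)), ∃ X, ∃ w ∈ W, a = diagParam S S' (X, w) := by
    rw [hspec.2, ← nhds_diagParam hspec.1 hl.injective, Filter.eventually_map, nhds_prod_eq]
    exact (Filter.Eventually.prod_inr hW _).mono fun p hp => ⟨p.1, p.2, hp, rfl⟩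
  have hcont : Tendsto (fun ρ : Tup g r ℂ => ρ (i, false)) (𝓝 ρ₀) (𝓝 (ρ₀ (i, false))) :=
    (continuous_apply (i, false)).tendsto ρ₀
  filter_upwards [hcont.eventually hN] with ρ ⟨X, w, hw, ha⟩ hV
  set P := NormedSpace.exp X * S
  set P' := S' * NormedSpace.exp (-X)
  have hP : P * P' = 1 := by
    simp only [P, P', mul_assoc]
    rw [← mul_assoc S, hspec.1, one_mul, exp_mul_exp_neg_self]
  have haP : ρ (i, false) = P * diagonal w * P' := by
    rw [ha]; simp only [diagParam, P, P', mul_assoc]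
  let C' : Matrix (Fin r) (Fin r) ℂ →+* Matrix (Fin r) (Fin r) (MvPolynomial (Fin r) ℂ) :=
    (MvPolynomial.C : ℂ →+* MvPolynomial (Fin r) ℂ).mapMatrix
  let T : Tup g r (MvPolynomial (Fin r) ℂ) := fun c => if c = (i, true) then
      C' (ρ (i, true) * P) * diagonal MvPolynomial.X * C' P' else C' (ρ c)
  have hT : ∀ (y : Fin r → ℂ) c, (MvPolynomial.eval y).mapMatrix (T c) =
      Function.update ρ (i, true) (ρ (i, true) * (P * diagonal y * P')) c := by
    intro y c
    have hD : (MvPolynomial.eval y).mapMatrix (diagonal MvPolynomial.X) = diagonal y := by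
      ext a b; by_cases hab : a = b
      · subst hab; simp
      · simp [hab]
    by_cases hc : c = (i, true)
    · subst hc
      simp only [T, if_true, Function.update_self, map_mul, C', mapMatrix_adjoin_C, hD, mul_assoc]
    · simp only [T, if_neg hc, Function.update_of_ne hc, C', mapMatrix_adjoin_C]
  let q : MvPolynomial (Fin r) ℂ := MvPolynomial.bind₁ (coord T) f
  have hq : ∀ y, MvPolynomial.eval y q = MvPolynomial.eval
      (coord (Function.update ρ (i, true) (ρ (i, true) * (P * diagonal y * P')))) f := by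
    intro y
    change MvPolynomial.eval₂Hom (RingHom.id ℂ) y _ = MvPolynomial.eval₂Hom _ _ f
    rw [MvPolynomial.eval₂Hom_bind₁]
    congr 2
    funext v
    simp only [coord, ← hT y v.1]
    rfl
  have hdeg : q.totalDegree ≤ f.totalDegree := by
    refine totalDegree_bind_le _ (fun v => ?_) f
    simp only [coord, T]
    split_ifs
    · rw [Matrix.mul_apply]
      refine (MvPolynomial.totalDegree_finsetSum _ _).trans (Finset.sup_le fun c _ => ?_)
      rw [mul_diagonal]
      simp only [C', RingHom.mapMatrix_apply, Matrix.map_apply]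
      refine (MvPolynomial.totalDegree_mul _ _).trans ?_
      refine le_trans (Nat.add_le_add_right (MvPolynomial.totalDegree_mul _ _) _) ?_
      simp [MvPolynomial.totalDegree_C, MvPolynomial.totalDegree_X]
    · simp [C', MvPolynomial.totalDegree_C]
  have hpow : ∀ n : ℕ, MvPolynomial.eval (fun a => w a ^ n) q = 0 := by
    intro n
    rw [hq]
    have := hV n
    convert this using 4
    simp only [twist, haP, conj_pow hP, diagonal_pow]
    rfl
  have hrel : ∀ m ∈ q.support, ∀ m' ∈ q.support,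
      ∏ a, w a ^ m a = ∏ a, w a ^ m' a → DiffConst m m' := by
    intro m hm m' hm' he
    have hb : ∀ (e : Fin r →₀ ℕ), e ∈ q.support → ∀ a, e a < f.totalDegree + 1 := by
      intro e he a
      have h2 : e a ≤ e.sum fun _ x => x := by
        by_cases h : a ∈ e.support
        · exact Finset.single_le_sum (f := fun x => e x) (fun x _ => Nat.zero_le _) h
        · simp [Finsupp.notMem_support_iff.1 h]
      exact Nat.lt_succ_of_le (h2.trans ((MvPolynomial.le_totalDegree he).trans hdeg))
    by_contra hne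
    exact hw (fun a => ⟨m a, hb m hm a⟩) (fun a => ⟨m' a, hb m' hm' a⟩) hne he
  exact ⟨P, P', w, hP, haP, fun y hy => by rw [← hq]; exact eval_eq_zero_of_pow hpow hrel hy⟩

/-- Near `ρ₀`, polynomials vanishing on the integral representations are invariant under the torus of `a_i`. -/
theorem flow_torus {i : Fin g} {ρ₀ : Tup g r ℂ} {l : Fin r → ℂ}
    {S S' : Matrix (Fin r) (Fin r) ℂ} (hspec : Spec (ρ₀ (i, false)) l S S') (hl : Indep l)
    {f : MvPolynomial (Var g r) ℂ} (hf : VanI f) :
    ∀ᶠ ρ in 𝓝 ρ₀, InV ρ → ∃ (P P' : Matrix (Fin r) (Fin r) ℂ) (w : Fin r → ℂ),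
      P * P' = 1 ∧ ρ (i, false) = P * diagonal w * P' ∧ ∀ y : Fin r → ℂ, ∏ a, y a = 1 →
        MvPolynomial.eval
          (coord (Function.update ρ (i, true) (ρ (i, true) * (P * diagonal y * P')))) f = 0 :=
  (flow_torus_of hspec hl f).mono fun _ h hV => h fun n => (pull_twist i n).inV hV f hf

/-- The flow lemma for a polynomial vanishing on the twist powers. -/
theorem flow_lemma_of {i : Fin g} {ρ₀ : Tup g r ℂ} {l : Fin r → ℂ}
    {S S' : Matrix (Fin r) (Fin r) ℂ} (hspec : Spec (ρ₀ (i, false)) l S S') (hl : Indep l)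
    (f : MvPolynomial (Var g r) ℂ) (k : ℕ) :
    ∀ᶠ ρ in 𝓝 ρ₀, (∀ n : ℕ, MvPolynomial.eval (coord (twist i n ρ)) f = 0) →
      ∀ s, MvPolynomial.eval (coord (tau i k s ρ)) f = 0 := by
  filter_upwards [flow_torus_of hspec hl f] with ρ hρ hV s
  obtain ⟨P, P', w, hP, haP, hy⟩ := hρ hV
  set t := trace (ρ (i, false) ^ k) / (r : ℂ)
  have hX : s • tl (ρ (i, false) ^ k) = P * diagonal (fun a => s * (w a ^ k - t)) * P' := by
    have e1 : ρ (i, false) ^ k = P * diagonal (fun a => w a ^ k) * P' := by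
      rw [haP, conj_pow hP, diagonal_pow]; rfl
    have e2 : diagonal (fun a => s * (w a ^ k - t)) =
        s • (diagonal (fun a => w a ^ k) - t • (1 : Matrix (Fin r) (Fin r) ℂ)) := by
      ext a b; by_cases hab : a = b
      · subst hab; simp
      · simp [hab]
    rw [e2, tl, Matrix.mul_smul, Matrix.smul_mul, mul_sub, sub_mul, ← e1, Matrix.mul_smul,
      Matrix.smul_mul, mul_one, hP]
  show MvPolynomial.eval (coord (Function.update ρ (i, true)
    (ρ (i, true) * NormedSpace.exp (s • tl (ρ (i, false) ^ k))))) f = 0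
  rw [hX, exp_diag_conj hP]
  refine hy _ ?_
  rw [← Complex.exp_sum, ← Finset.mul_sum, Finset.sum_sub_distrib, Finset.sum_const,
    Finset.card_univ, Fintype.card_fin, nsmul_eq_mul]
  have htr : trace (ρ (i, false) ^ k) = ∑ a, w a ^ k := by
    rw [haP, conj_pow hP, trace_mul_comm, ← mul_assoc, mul_eq_one_comm.1 hP, one_mul,
      diagonal_pow, trace_diagonal]
    rfl
  rcases Nat.eq_zero_or_pos r with hr | hr
  · subst hr; simp
  · simp only [t, htr]
    rw [mul_div_cancel₀ _ (Nat.cast_ne_zero.2 hr.ne'), sub_self, mul_zero, Complex.exp_zero]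

/-- The flow lemma. -/
theorem flow_lemma {i : Fin g} {ρ₀ : Tup g r ℂ} {l : Fin r → ℂ}
    {S S' : Matrix (Fin r) (Fin r) ℂ} (hspec : Spec (ρ₀ (i, false)) l S S') (hl : Indep l)
    {f : MvPolynomial (Var g r) ℂ} (hf : VanI f) (k : ℕ) :
    ∀ᶠ ρ in 𝓝 ρ₀, InV ρ → ∀ s, MvPolynomial.eval (coord (tau i k s ρ)) f = 0 :=
  (flow_lemma_of hspec hl f k).mono fun _ h hV => h fun n => (pull_twist i n).inV hV f hf

end Vale.Agent.P002
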