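import Mathlib

/-!
# P002: multiplicatively independent spectra
-/

namespace Vale.Agent.P002

variable {r : ℕ}

/-- Two exponent vectors differ by a constant vector. -/
def DiffConst (m m' : Fin r → ℕ) : Prop := ∀ a b, m a + m' b = m' a + m b

/-- The only multiplicative relations among the `l a` are the powers of their product. -/
def Indep (l : Fin r → ℂ) : Prop :=
  ∀ m m' : Fin r → ℕ, ∏ a, l a ^ m a = ∏ a, l a ^ m' a → DiffConst m m'

theorem Indep.injective {l : Fin r → ℂ} (h : Indep l) : Function.Injective l := by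
  intro a b hab
  by_contra hne
  have hk : ∀ c : Fin r, ∏ x, l x ^ (if x = c then 1 else 0 : ℕ) = l c := fun c => by
    simp [pow_ite]
  have := h (fun x => if x = a then 1 else 0) (fun x => if x = b then 1 else 0)
    (by rw [hk, hk, hab]) a b
  simp [hne, Ne.symm hne] at this

theorem monomial_eq_of_diffConst {y : Fin r → ℂ} (hy : ∏ a, y a = 1) {m m' : Fin r → ℕ}
    (h : DiffConst m m') : ∏ a, y a ^ m a = ∏ a, y a ^ m' a := by
  rcases isEmpty_or_nonempty (Fin r) with he | ⟨⟨b⟩⟩
  · simp
  have e1 : ∏ a, y a ^ (m a + m' b) = ∏ a, y a ^ m a := by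
    simp only [pow_add, Finset.prod_mul_distrib, Finset.prod_pow, hy, one_pow, mul_one]
  have e2 : ∏ a, y a ^ (m' a + m b) = ∏ a, y a ^ m' a := by
    simp only [pow_add, Finset.prod_mul_distrib, Finset.prod_pow, hy, one_pow, mul_one]
  rw [← e1, ← e2]
  exact Finset.prod_congr rfl fun a _ => by rw [h a b]

/-- A polynomial vanishing at all powers of a point with no relations among its monomials vanishes
on the torus `∏ y = 1`. -/
theorem eval_eq_zero_of_pow {p : MvPolynomial (Fin r) ℂ} {w : Fin r → ℂ}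
    (hw : ∀ n : ℕ, MvPolynomial.eval (fun a => w a ^ n) p = 0)
    (hrel : ∀ m ∈ p.support, ∀ m' ∈ p.support,
      ∏ a, w a ^ m a = ∏ a, w a ^ m' a → DiffConst m m')
    {y : Fin r → ℂ} (hy : ∏ a, y a = 1) : MvPolynomial.eval y p = 0 := by
  classical
  let v : (Fin r →₀ ℕ) → ℂ := fun m => ∏ a, w a ^ m a
  let s := p.support.image v
  let c : ℂ → ℂ := fun z => ∑ m ∈ p.support with v m = z, p.coeff m
  have hc : ∀ n : ℕ, ∑ z ∈ s, c z * z ^ n = 0 := by
    intro n
    rw [← hw n, MvPolynomial.eval_eq', ← Finset.sum_fiberwise_of_maps_to (g := v) (t := s)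
      (fun m hm => Finset.mem_image_of_mem v hm)]
    refine Finset.sum_congr rfl fun z _ => ?_
    simp only [c, Finset.sum_mul]
    refine Finset.sum_congr rfl fun m hm => ?_
    rw [← (Finset.mem_filter.1 hm).2, ← Finset.prod_pow]
    simp only [← pow_mul, mul_comm]
  have hzero : ∀ z ∈ s, c z = 0 := by
    let e := s.equivFin
    have h0 := Matrix.eq_zero_of_forall_pow_sum_mul_pow_eq_zero
      (f := fun j => ((e.symm j : s) : ℂ)) (v := fun j => c (e.symm j : s))
      (fun a b hab => e.symm.injective (Subtype.ext hab)) (fun i => by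
        rw [Equiv.sum_comp e.symm (fun z : s => c z * (z : ℂ) ^ (i : ℕ)),
          Finset.sum_coe_sort s (fun z => c z * z ^ (i : ℕ))]
        exact hc i)
    intro z hz
    simpa using congrFun h0 (e ⟨z, hz⟩)
  rw [MvPolynomial.eval_eq', ← Finset.sum_fiberwise_of_maps_to (g := v) (t := s)
      (fun m hm => Finset.mem_image_of_mem v hm)]
  refine Finset.sum_eq_zero fun z hz => ?_
  obtain ⟨m₀, hm₀, rfl⟩ := Finset.mem_image.1 hz
  calc _ = (∑ m ∈ p.support with v m = v m₀, p.coeff m) * ∏ a, y a ^ m₀ a := by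
        rw [Finset.sum_mul]
        refine Finset.sum_congr rfl fun m hm => ?_
        rw [monomial_eq_of_diffConst hy
          (hrel m (Finset.mem_filter.1 hm).1 m₀ hm₀ (Finset.mem_filter.1 hm).2)]
    _ = 0 := by
        have := hzero _ hz
        simp only [c] at this
        rw [this, zero_mul]

theorem prime_prod_inj {n : ℕ} {e e' : Fin n → ℕ}
    (h : ∏ a : Fin n, Nat.nth Nat.Prime a ^ e a = ∏ a : Fin n, Nat.nth Nat.Prime a ^ e' a) : e = e' := by
  funext b
  have key : ∀ f : Fin n → ℕ,
      (∏ a : Fin n, Nat.nth Nat.Prime a ^ f a).factorization (Nat.nth Nat.Prime b) = f b := by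
    intro f
    rw [Nat.factorization_prod (fun (a : Fin n) _ => pow_ne_zero _ (Nat.prime_nth_prime (a : ℕ)).ne_zero)]
    simp only [(Nat.prime_nth_prime _).factorization_pow, Finsupp.finsetSum_apply]
    rw [Finset.sum_eq_single b]
    · simp
    · intro a _ hab
      rw [Finsupp.single_eq_of_ne]
      exact fun he => hab (Fin.ext (Nat.nth_injective Nat.infinite_setOf_prime he).symm)
    · simp
  rw [← key e, ← key e', h]

theorem exists_indep (hr : 2 ≤ r) :
    ∃ l : Fin r → ℂ, Indep l ∧ ∏ a, l a = 1 ∧ ∀ a, l a ≠ 0 := by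
  obtain ⟨n, rfl⟩ : ∃ n, r = n + 1 := ⟨r - 1, by omega⟩
  let q : Fin n → ℂ := fun a => (Nat.nth Nat.Prime a : ℂ)
  have hq : ∀ a, q a ≠ 0 := fun a => Nat.cast_ne_zero.2 (Nat.prime_nth_prime a).ne_zero
  have hQ : (∏ a, q a) ≠ 0 := Finset.prod_ne_zero_iff.2 fun a _ => hq a
  refine ⟨Fin.snoc q (∏ a, q a)⁻¹, ?_, ?_, ?_⟩
  · intro m m' h
    rw [Fin.prod_univ_castSucc, Fin.prod_univ_castSucc] at h
    simp only [Fin.snoc_castSucc, Fin.snoc_last] at h
    have h2 : ∏ a, q a ^ (m a.castSucc + m' (Fin.last n)) =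
        ∏ a, q a ^ (m' a.castSucc + m (Fin.last n)) := by
      simp only [pow_add, Finset.prod_mul_distrib, Finset.prod_pow]
      have e1 : ∀ k : ℕ, (∏ a, q a) ^ k * ((∏ a, q a)⁻¹) ^ k = 1 := fun k => by
        rw [← mul_pow, mul_inv_cancel₀ hQ, one_pow]
      linear_combination ((∏ a, q a) ^ m (Fin.last n) * (∏ a, q a) ^ m' (Fin.last n)) * h -
        ((∏ a, q a ^ m a.castSucc) * (∏ a, q a) ^ m' (Fin.last n)) * e1 (m (Fin.last n)) +
        ((∏ a, q a ^ m' a.castSucc) * (∏ a, q a) ^ m (Fin.last n)) * e1 (m' (Fin.last n))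
    simp only [q] at h2
    norm_cast at h2
    have h3 := fun a => congrFun (prime_prod_inj h2) a
    intro a b
    induction a using Fin.lastCases with
    | last =>
      induction b using Fin.lastCases with
      | last => omega
      | cast b => have := h3 b; omega
    | cast a =>
      induction b using Fin.lastCases with
      | last => have := h3 a; omega
      | cast b => have := h3 a; have := h3 b; omega
  · rw [Fin.prod_univ_castSucc]
    simp only [Fin.snoc_castSucc, Fin.snoc_last]
    exact mul_inv_cancel₀ hQ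
  · intro a
    induction a using Fin.lastCases with
    | last => simpa only [Fin.snoc_last] using inv_ne_zero hQ
    | cast a => simpa only [Fin.snoc_castSucc] using hq a

end Vale.Agent.P002
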