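import Vale.Agent.P002.Defs

/-!
# P002: the tuples `(A, b = 1)` lie in the closure of the integral representations
-/

namespace Vale.Agent.P002

open Matrix

variable {g r : ℕ}

/-- A complex tuple `A` as the tuple `(A, 1)`. -/
def lagC (A : Fin g → SpecialLinearGroup (Fin r) ℂ) : Tup g r ℂ :=
  lag fun i => (A i : Matrix (Fin r) (Fin r) ℂ)

/-- `f` vanishes at all `(B, 1)` with `B` integral. -/
def VanL (f : MvPolynomial (Var g r) ℂ) : Prop :=
  ∀ B : Fin g → SpecialLinearGroup (Fin r) ℤ,
    MvPolynomial.eval (coord (castT fun k : Fin g × Bool => bif k.2 then 1 else B k.1)) f = 0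

/-- `A` is in the Zariski closure of the integer tuples. -/
def InL (A : Fin g → SpecialLinearGroup (Fin r) ℂ) : Prop :=
  ∀ f, VanL f → MvPolynomial.eval (coord (lagC A)) f = 0

theorem vanL_of_vanI {f : MvPolynomial (Var g r) ℂ} (hf : VanI f) : VanL f :=
  fun B => hf _ (rel_lag B)

theorem inL_one : InL (1 : Fin g → SpecialLinearGroup (Fin r) ℂ) := by
  intro f hf
  have h1 : lagC (1 : Fin g → SpecialLinearGroup (Fin r) ℂ) =
      castT fun k : Fin g × Bool => bif k.2 then 1 else (1 : Fin g → SpecialLinearGroup (Fin r) ℤ) k.1 := by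
    funext ⟨i, c⟩
    cases c <;> simp [lagC, lag, castT, Matrix.map_one]
  rw [h1]; exact hf 1

theorem mapMatrix_transvection {R S : Type*} [CommRing R] [CommRing S] (φ : R →+* S)
    (a b : Fin r) (c : R) : φ.mapMatrix (transvection a b c) = transvection a b (φ c) := by
  ext x y
  simp [transvection, Matrix.single_apply, Matrix.one_apply, apply_ite φ]

theorem inL_transvection {A : Fin g → SpecialLinearGroup (Fin r) ℂ} (hA : InL A) (i : Fin g)
    {a b : Fin r} (hab : a ≠ b) (c : ℂ) :
    InL (Function.update A i (A i * SpecialLinearGroup.transvection hab c)) := by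
  intro f hf
  let T : Tup g r (Polynomial ℂ) := fun k => if k = (i, false) then
      (Polynomial.C : ℂ →+* Polynomial ℂ).mapMatrix (lagC A k) * transvection a b Polynomial.X
    else (Polynomial.C : ℂ →+* Polynomial ℂ).mapMatrix (lagC A k)
  have hT : ∀ (z : ℂ) k, (Polynomial.evalRingHom z).mapMatrix (T k) =
      lagC (Function.update A i (A i * SpecialLinearGroup.transvection hab z)) k := by
    intro z ⟨k, s⟩
    have hC : ∀ M : Matrix (Fin r) (Fin r) ℂ, (Polynomial.evalRingHom z).mapMatrix
        ((Polynomial.C : ℂ →+* Polynomial ℂ).mapMatrix M) = M := by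
      intro M; ext x y; simp
    simp only [T]
    by_cases hk : (k, s) = (i, false)
    · rw [if_pos hk, map_mul, hC, mapMatrix_transvection]
      simp only [Prod.mk.injEq] at hk
      obtain ⟨rfl, rfl⟩ := hk
      simp [lagC, lag, SpecialLinearGroup.transvection_coe, transvection]
    · rw [if_neg hk, hC]
      cases s
      · have : k ≠ i := fun e => hk (by rw [e])
        simp [lagC, lag, this]
      · simp [lagC, lag]
  set q : Polynomial ℂ := MvPolynomial.eval₂ Polynomial.C (coord T) f with hq
  have hqe : ∀ z, q.eval z = MvPolynomial.eval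
      (coord (lagC (Function.update A i (A i * SpecialLinearGroup.transvection hab z)))) f := by
    intro z
    rw [hq, ← Polynomial.coe_evalRingHom, MvPolynomial.eval₂_comp_left,
      show (Polynomial.evalRingHom z).comp Polynomial.C = RingHom.id ℂ from
        RingHom.ext fun x => Polynomial.eval_C]
    congr 1
    funext v
    simp only [Function.comp_apply, coord, ← hT z v.1]
    rfl
  suffices q = 0 by rw [← hqe, this, Polynomial.eval_zero]
  refine Polynomial.eq_zero_of_infinite_isRoot q ?_
  refine Set.Infinite.mono ?_ (Set.infinite_range_of_injective (Int.cast_injective (α := ℂ)))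
  rintro _ ⟨n, rfl⟩
  show q.eval (n : ℂ) = 0
  let TP : Tup g r (MvPolynomial (Var g r) ℂ) := fun k => if k = (i, false) then
      gen k * transvection a b (MvPolynomial.C (n : ℂ)) else gen k
  have hP : ∀ σ k, (MvPolynomial.eval (coord σ)).mapMatrix (TP k) =
      if k = (i, false) then σ k * transvection a b (n : ℂ) else σ k := by
    intro σ k
    simp only [TP]
    split_ifs
    · rw [map_mul, gen_map, mapMatrix_transvection, MvPolynomial.eval_C]
    · rw [gen_map]
  rw [hqe, ← eval_subst (T := TP) (σ := lagC A)]
  · refine hA _ fun B => ?_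
    rw [eval_subst (hP _) f]
    refine Eq.trans (congrArg (fun σ => MvPolynomial.eval (coord σ) f) ?_)
      (hf (Function.update B i (B i * SpecialLinearGroup.transvection hab n)))
    funext ⟨k, s⟩
    by_cases hk : (k, s) = (i, false)
    · rw [if_pos hk]
      simp only [Prod.mk.injEq] at hk
      obtain ⟨rfl, rfl⟩ := hk
      simp only [castT, cond_false, Function.update_self]
      show _ = (Int.castRingHom ℂ).mapMatrix
        ((B k : Matrix (Fin r) (Fin r) ℤ) * transvection a b (n : ℤ))
      rw [map_mul, mapMatrix_transvection]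
      simp
    · rw [if_neg hk]
      cases s
      · have : k ≠ i := fun e => hk (by rw [e])
        simp [castT, this]
      · simp [castT]
  · intro k
    rw [hP]
    obtain ⟨k, s⟩ := k
    by_cases hk : (k, s) = (i, false)
    · rw [if_pos hk]
      simp only [Prod.mk.injEq] at hk
      obtain ⟨rfl, rfl⟩ := hk
      simp [lagC, lag, SpecialLinearGroup.transvection_coe, transvection]
    · rw [if_neg hk]
      cases s
      · have : k ≠ i := fun e => hk (by rw [e])
        simp [lagC, lag, this]
      · simp [lagC, lag]

/-- A diagonal element as a product of six transvections. -/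
theorem diag2n_decompose {i j : Fin r} (hij : i ≠ j) {c : ℂ} (hc : c ≠ 0) :
    SpecialLinearGroup.diag2n hij c hc = SpecialLinearGroup.transvection hij c *
      SpecialLinearGroup.transvection hij.symm (-c⁻¹) *
      SpecialLinearGroup.transvection hij c * SpecialLinearGroup.transvection hij (-1) *
      SpecialLinearGroup.transvection hij.symm 1 *
      SpecialLinearGroup.transvection hij (-1) := by
  apply SpecialLinearGroup.coeMonoidHom_injective
  have hji : j ≠ i := hij.symm
  simp only [map_mul, SpecialLinearGroup.coeMonoidHom_apply, SpecialLinearGroup.transvection_coe,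
    SpecialLinearGroup.diag2n_coe]
  simp only [mul_add, add_mul, mul_one, one_mul, Matrix.single_mul_single_same,
    Matrix.single_mul_single_of_ne _ _ _ _ hij, Matrix.single_mul_single_of_ne _ _ _ _ hji,
    zero_mul, mul_zero, add_zero, zero_add]
  ext x y
  simp only [Matrix.add_apply, Matrix.single_apply, Matrix.one_apply, Matrix.diagonal_apply]
  have hx : x = i ∨ x = j ∨ (x ≠ i ∧ x ≠ j) := by tauto
  have hy : y = i ∨ y = j ∨ (y ≠ i ∧ y ≠ j) := by tauto
  rcases hx with h | h | ⟨h, h'⟩ <;> rcases hy with k | k | ⟨k, k'⟩
  · simp [h, k, hij, hji] <;> field_simp <;> ring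
  · simp [h, k, hij, hji] <;> field_simp <;> ring
  · simp [h, hij, hji, k.symm, k'.symm] <;> field_simp <;> ring
  · simp [h, k, hij, hji] <;> field_simp <;> ring
  · simp [h, k, hij, hji] <;> field_simp <;> ring
  · simp [h, hij, hji, k.symm, k'.symm] <;> field_simp <;> ring
  · simp [h, k, hij, hji, h.symm, h'.symm] <;> field_simp <;> ring
  · simp [h', k, hij, hji, h.symm, h'.symm] <;> field_simp <;> ring
  · simp [h, h', h.symm, h'.symm, k.symm, k'.symm]

theorem inL_mul (hr : 2 ≤ r) (M : SpecialLinearGroup (Fin r) ℂ) :
    ∀ (A : Fin g → SpecialLinearGroup (Fin r) ℂ), InL A → ∀ i,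
      InL (Function.update A i (A i * M)) := by
  have : Nontrivial (Fin r) := Fin.nontrivial_iff_two_le.2 hr
  have hm : ∀ M N : SpecialLinearGroup (Fin r) ℂ,
      (∀ (A : Fin g → SpecialLinearGroup (Fin r) ℂ), InL A → ∀ i,
        InL (Function.update A i (A i * M))) →
      (∀ (A : Fin g → SpecialLinearGroup (Fin r) ℂ), InL A → ∀ i,
        InL (Function.update A i (A i * N))) →
      (∀ (A : Fin g → SpecialLinearGroup (Fin r) ℂ), InL A → ∀ i,
        InL (Function.update A i (A i * (M * N)))) := by
    intro M N hM hN A hA i
    have := hN _ (hM A hA i) i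
    rwa [Function.update_self, Function.update_idem, mul_assoc] at this
  induction M using SpecialLinearGroup.diagonal_transvection_induction' with
  | htransvec a b hab c => exact fun A hA i => inL_transvection hA i hab c
  | hmul M N hM hN => exact hm M N hM hN
  | hdiag a b hab hc =>
    rw [diag2n_decompose hab hc]
    refine hm _ _ (hm _ _ (hm _ _ (hm _ _ (hm _ _ ?_ ?_) ?_) ?_) ?_) ?_
    all_goals exact fun A hA i => inL_transvection hA i _ _

theorem inL_all (hr : 2 ≤ r) (A : Fin g → SpecialLinearGroup (Fin r) ℂ) : InL A := by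
  classical
  suffices ∀ s : Finset (Fin g), InL (fun i => if i ∈ s then A i else 1) by
    simpa using this Finset.univ
  intro s
  induction s using Finset.induction with
  | empty => simp only [Finset.notMem_empty, if_false]; exact inL_one
  | @insert i s hi ih =>
    have := inL_mul hr (A i) _ ih i
    convert this using 1
    funext k
    by_cases hk : k = i
    · subst hk; simp [hi]
    · simp [hk]

/-- Every tuple `(A, 1)` lies in the Zariski closure of the integral representations. -/
theorem inV_lag (hr : 2 ≤ r) (A : Fin g → Matrix (Fin r) (Fin r) ℂ) (hA : ∀ i, (A i).det = 1) :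
    InV (lag A) :=
  fun f hf => inL_all hr (fun i => ⟨A i, hA i⟩) f (vanL_of_vanI hf)

end Vale.Agent.P002
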