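import Vale.Agent.P002.Chain

/-!
# P002: an open piece of the representation variety inside the closure of the integral points
-/

namespace Vale.Agent.P002

open Matrix Filter Topology
open scoped Matrix.Norms.Operator

variable {r g : ℕ}

/-- The equations of the representation variety. -/
noncomputable def Requ (σ : Tup g r ℂ) :
    (Fin g × Bool → ℂ) × Matrix (Fin r) (Fin r) ℂ :=
  (fun c => (σ c).det, rel adjugate σ)

theorem contDiff_Requ : ContDiff ℂ 1 (Requ (r := r) (g := g)) :=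
  (contDiff_pi.2 fun c => contDiff_det.comp (contDiff_apply ℂ _ c)).prodMk
    (contDiff_rel contDiff_id)

theorem requ_eq {σ : Tup g r ℂ} (h : IsRep σ) : Requ σ = (fun _ => 1, 1) :=
  Prod.ext (funext h.1) h.2

theorem fderiv_Requ_ker {A : Fin g → Matrix (Fin r) (Fin r) ℂ} (hA : ∀ c, (A c).det = 1)
    {v : Tup g r ℂ} (hv : fderiv ℂ Requ (lag A) v = 0) :
    (∀ c, trace (adjugate (A c) * v (c, false)) = 0) ∧ (∀ c, trace (v (c, true)) = 0) ∧
      ∑ i, (A i * v (i, true) * adjugate (A i) - v (i, true)) = 0 := by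
  have hline : HasDerivAt (fun s : ℂ => lag A + s • v) v 0 :=
    (((hasDerivAt_id (0 : ℂ)).smul_const v).const_add (lag A)).congr_deriv (one_smul _ _)
  have h0 : lag A = (fun s : ℂ => lag A + s • v) 0 := by
    show lag A = lag A + (0 : ℂ) • v
    rw [zero_smul, add_zero]
  have hR := ((contDiff_Requ (r := r) (g := g)).differentiable one_ne_zero
    (lag A)).hasFDerivAt.comp_hasDerivAt_of_eq (0 : ℂ) hline h0
  replace hR := hR.congr_deriv hv
  have hR1 : ∀ c, HasDerivAt (fun s : ℂ => (lag A c + s • v c).det) 0 0 := fun c =>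
    hasDerivAt_pi.1 hR.fst c
  have hcomp : ∀ c, HasDerivAt (fun s : ℂ => lag A c + s • v c) (v c) 0 := fun c =>
    (((hasDerivAt_id (0 : ℂ)).smul_const (v c)).const_add (lag A c)).congr_deriv (one_smul _ _)
  have hdl : ∀ c : Fin g × Bool, (lag A c).det = 1 := by
    rintro ⟨c, b⟩; cases b
    · exact hA c
    · exact det_one
  have htr : ∀ c, trace (adjugate (lag A c) * v c) = 0 := fun c =>
    (hasDerivAt_det (by simp) (hdl c) (hcomp c)).unique (hR1 c)
  have h1 : ∀ c, trace (adjugate (A c) * v (c, false)) = 0 := fun c => htr (c, false)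
  have h2 : ∀ c, trace (v (c, true)) = 0 := fun c => by
    simpa [lag_true, adjugate_one] using htr (c, true)
  refine ⟨h1, h2, ?_⟩
  have hT : DifT (fun s => lag A + s • v) A (fun c => v (c, true)) := by
    intro c
    refine ⟨⟨v (c, false) * adjugate (A c), ⟨?_, hA c, ?_, ?_⟩⟩, ⟨?_, det_one, h2 c, ?_⟩⟩
    · simp [lag]
    · rw [trace_mul_comm]; exact h1 c
    · exact (hcomp (c, false)).congr_deriv (by rw [mul_assoc, (mul_adj_cancel (hA c)).2, mul_one])
    · simp [lag]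
    · exact (hcomp (c, true)).congr_deriv (mul_one _).symm
  exact (mul_one _).symm.trans (hT.rel.der.unique hR.snd)

theorem exists_finset_span_eq {V : Type*} [AddCommGroup V] [Module ℂ V] [FiniteDimensional ℂ V]
    (S : Set V) : ∃ T : Finset V, ↑T ⊆ S ∧ Submodule.span ℂ (T : Set V) = Submodule.span ℂ S := by
  obtain ⟨b, hb, hsp, hli⟩ := exists_linearIndependent ℂ S
  have hfin : b.Finite := hli.setFinite
  exact ⟨hfin.toFinset, by simpa using hb, by simpa using hsp⟩

theorem local_main {A W W' : Fin g → Matrix (Fin r) (Fin r) ℂ} {l : Fin r → ℂ} {e L : Fin g}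
    {S S' T T' : Matrix (Fin r) (Fin r) ℂ} (h : Frame A W W' l) (hP : Pos A l e L S S' T T') :
    ∀ᶠ σ in 𝓝 (lag A), IsRep σ → InV σ := by
  classical
  have hr : r ≠ 0 := by have := h.two_le; omega
  obtain ⟨Ts, hTs, hspan⟩ := exists_finset_span_eq
    {v : Fin g → Matrix (Fin r) (Fin r) ℂ | ∃ i j m k, (i < j ∨ m = 0) ∧ v = Yvec A i j m k}
  choose ii jj mm kk hij hvY using fun (v : Ts) => hTs v.2
  obtain ⟨n, F, hF, hsteps⟩ := exists_fam h
    (Ts.attach.toList.map fun v => (ii v, jj v, mm v, kk v))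
    (fun t ht => by
      obtain ⟨v, -, rfl⟩ := List.mem_map.1 ht
      exact hij v)
  have hFd : DifferentiableAt ℂ F 0 := hF.smooth.differentiable one_ne_zero 0
  set DF := fderiv ℂ F 0 with hDF
  have hbase : F 0 = lag A := hF.base h
  have hconst : ∀ p, Requ (F p) = (fun _ => 1, 1) := fun p => requ_eq (hF.inV p).isRep
  set DR := fderiv ℂ Requ (lag A) with hDR
  have hRd := (contDiff_Requ (r := r) (g := g)).differentiable one_ne_zero (lag A)
  have hDRF : ∀ d, DR (DF d) = 0 := by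
    intro d
    have h1 : HasFDerivAt (fun p => Requ (F p)) (DR.comp DF) 0 :=
      (show HasFDerivAt Requ DR (F 0) by rw [hbase]; exact hRd.hasFDerivAt).comp 0 hFd.hasFDerivAt
    have h2 : HasFDerivAt (fun p => Requ (F p)) (0 : _ →L[ℂ] _) 0 := by
      simp only [hconst]; exact hasFDerivAt_const _ _
    simpa using DFunLike.congr_fun (h1.unique h2) d
  have hrange : ∀ v, DR v = 0 → v ∈ DF.range := by
    intro v hv
    obtain ⟨hva, hvb, hsum⟩ := fderiv_Requ_ker h.det hv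
    have hY := span_Yvec hr hP hvb hsum
    rw [← hspan] at hY
    let proj : Tup g r ℂ →ₗ[ℂ] (Fin g → Matrix (Fin r) (Fin r) ℂ) :=
      LinearMap.pi fun c => LinearMap.proj (c, true)
    let Tan : Submodule ℂ (Tup g r ℂ) :=
      ⨅ c, LinearMap.ker ((Matrix.traceLinearMap (Fin r) ℂ ℂ).comp
        ((LinearMap.mulLeft ℂ (adjugate (A c))).comp (LinearMap.proj (c, false))))
    have hTan : ∀ w, w ∈ Tan ↔ ∀ c, trace (adjugate (A c) * w (c, false)) = 0 := fun w => by
      simp [Tan, Submodule.mem_iInf]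
    have hle : Submodule.span ℂ (Ts : Set (Fin g → Matrix (Fin r) (Fin r) ℂ)) ≤
        Submodule.map proj (LinearMap.range DF.toLinearMap ⊓ Tan) := by
      rw [Submodule.span_le]
      intro Y hY
      obtain ⟨d, hd⟩ := hsteps (ii ⟨Y, hY⟩, jj ⟨Y, hY⟩, mm ⟨Y, hY⟩, kk ⟨Y, hY⟩)
        (List.mem_map.2 ⟨⟨Y, hY⟩, by simp, rfl⟩)
      obtain ⟨hb, ha⟩ := vstep_spec h (hij ⟨Y, hY⟩) (kk ⟨Y, hY⟩)
      refine ⟨vstep A (ii ⟨Y, hY⟩) (jj ⟨Y, hY⟩) (mm ⟨Y, hY⟩) (kk ⟨Y, hY⟩),
        ⟨⟨d, hd⟩, (hTan _).2 ha⟩, ?_⟩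
      have hY' : Y = Yvec A (ii ⟨Y, hY⟩) (jj ⟨Y, hY⟩) (mm ⟨Y, hY⟩) (kk ⟨Y, hY⟩) := hvY ⟨Y, hY⟩
      exact (funext hb).trans hY'.symm
    obtain ⟨w, ⟨⟨d, hd⟩, hwT⟩, hw⟩ := hle hY
    obtain ⟨d', hd'⟩ := Lmat_tangent h hF (v := v - w)
      (fun c => by
        have : w (c, true) = v (c, true) := congrFun hw c
        simp [this])
      (fun c => by rw [Pi.sub_apply, mul_sub, trace_sub, hva c, (hTan w).1 hwT c, sub_zero])
    refine ⟨d + d', ?_⟩
    show DF (d + d') = v
    rw [map_add, show DF d = w from hd, show DF d' = v - w from hd']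
    abel
  obtain ⟨C, hC⟩ := Submodule.exists_isCompl (LinearMap.range DF.toLinearMap)
  have hFs : HasStrictFDerivAt F DF 0 := hF.smooth.contDiffAt.hasStrictFDerivAt one_ne_zero
  have hPs : HasStrictFDerivAt
      (fun x : ((Fin g → Matrix (Fin r) (Fin r) ℂ × (Fin r → ℂ)) × (Fin n → ℂ)) × C =>
        F x.1 + C.subtypeL x.2) (DF.coprod C.subtypeL) 0 := by
    have h1 : HasStrictFDerivAt
        (fun x : ((Fin g → Matrix (Fin r) (Fin r) ℂ × (Fin r → ℂ)) × (Fin n → ℂ)) × C => F x.1)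
        (DF.comp (ContinuousLinearMap.fst ℂ _ _)) 0 := HasStrictFDerivAt.comp 0 hFs hasStrictFDerivAt_fst
    have h2 : HasStrictFDerivAt
        (fun x : ((Fin g → Matrix (Fin r) (Fin r) ℂ × (Fin r → ℂ)) × (Fin n → ℂ)) × C =>
          C.subtypeL x.2) (C.subtypeL.comp (ContinuousLinearMap.snd ℂ _ _)) 0 :=
      HasStrictFDerivAt.comp 0 C.subtypeL.hasStrictFDerivAt hasStrictFDerivAt_snd
    exact h1.add h2
  have hsurj : (DF.coprod C.subtypeL).range = ⊤ := by
    rw [LinearMap.range_eq_top]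
    intro v
    have hm : v ∈ LinearMap.range DF.toLinearMap ⊔ C := by rw [hC.sup_eq_top]; trivial
    obtain ⟨a, ⟨d, rfl⟩, c, hc, rfl⟩ := Submodule.mem_sup.1 hm
    exact ⟨(d, ⟨c, hc⟩), rfl⟩
  have hmap := hPs.map_nhds_eq_of_surj hsurj
  have h00 : (fun x : ((Fin g → Matrix (Fin r) (Fin r) ℂ × (Fin r → ℂ)) × (Fin n → ℂ)) × C =>
        F x.1 + C.subtypeL x.2) 0 = lag A := by simp [hbase]
  simp only [Prod.fst_zero, Prod.snd_zero, map_zero, add_zero, hbase] at hmap
  suffices H : ∀ᶠ x in 𝓝 (0 : ((Fin g → Matrix (Fin r) (Fin r) ℂ × (Fin r → ℂ)) ×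
      (Fin n → ℂ)) × C), IsRep (F x.1 + C.subtypeL x.2) → InV (F x.1 + C.subtypeL x.2) by
    exact Eventually.filter_mono hmap.ge (Filter.eventually_map.2 H)
  have hRs : HasStrictFDerivAt Requ DR
      ((fun x : ((Fin g → Matrix (Fin r) (Fin r) ℂ × (Fin r → ℂ)) × (Fin n → ℂ)) × C =>
        F x.1 + C.subtypeL x.2) 0) := by
    rw [h00]; exact contDiff_Requ.contDiffAt.hasStrictFDerivAt one_ne_zero
  have hΦ := hRs.comp 0 hPs
  have hinjC : Function.Injective (DR.toLinearMap.comp C.subtype) := by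
    rw [← LinearMap.ker_eq_bot, LinearMap.ker_eq_bot']
    intro c hc
    have h1 : (c : Tup g r ℂ) ∈ LinearMap.range DF.toLinearMap ⊓ C :=
      ⟨hrange _ hc, c.2⟩
    rw [hC.inf_eq_bot] at h1
    exact Subtype.ext h1
  obtain ⟨K, -, hK⟩ :=
    (DR.toLinearMap.comp C.subtype).exists_antilipschitzWith (LinearMap.ker_eq_bot.2 hinjC)
  have hlit := hΦ.isLittleO.def (show (0 : ℝ) < 1 / (2 * (K : ℝ) + 1) by positivity)
  have htend : Tendsto
      (fun x : ((Fin g → Matrix (Fin r) (Fin r) ℂ × (Fin r → ℂ)) × (Fin n → ℂ)) × C =>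
        (x, (x.1, (0 : C)))) (𝓝 0) (𝓝 (0, 0)) :=
    (continuous_id.prodMk (continuous_fst.prodMk continuous_const)).tendsto 0
  filter_upwards [htend.eventually hlit] with x hx hrep
  have hx2 : x.2 = 0 := by
    have e1 : Requ (F x.1 + C.subtypeL x.2) = (fun _ => 1, 1) := requ_eq hrep
    have e2 : Requ (F x.1 + C.subtypeL (0 : C)) = (fun _ => 1, 1) := by
      rw [map_zero, add_zero]; exact hconst x.1
    have e3 : (DR.comp (DF.coprod C.subtypeL)) (x - (x.1, (0 : C))) = DR (x.2 : Tup g r ℂ) := by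
      rw [show x - (x.1, (0 : C)) = (0, x.2) from Prod.ext (sub_self _) (sub_zero _)]
      show DR (DF 0 + C.subtypeL x.2) = _
      rw [map_zero, zero_add]
      rfl
    have e4 : ‖x - (x.1, (0 : C))‖ = ‖x.2‖ := by
      rw [show x - (x.1, (0 : C)) = (0, x.2) from Prod.ext (sub_self _) (sub_zero _)]
      simp [Prod.norm_def]
    replace hx : ‖Requ (F x.1 + C.subtypeL x.2) - Requ (F x.1 + C.subtypeL (0 : C)) -
      (DR.comp (DF.coprod C.subtypeL)) (x - (x.1, (0 : C)))‖ ≤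
        1 / (2 * (K : ℝ) + 1) * ‖x - (x.1, (0 : C))‖ := hx
    rw [e1, e2, sub_self, e3, zero_sub, norm_neg, e4] at hx
    have h5 : ‖x.2‖ ≤ K * ‖DR (x.2 : Tup g r ℂ)‖ := by
      simpa [dist_zero_right] using hK.le_mul_dist x.2 0
    have hK0 : (0 : ℝ) ≤ K := K.2
    have hd : (1 / (2 * (K : ℝ) + 1)) * ‖x.2‖ * K ≤ ‖x.2‖ / 2 := by
      rw [div_mul_eq_mul_div, one_mul, div_mul_eq_mul_div, div_le_div_iff₀ (by positivity) two_pos]
      nlinarith [norm_nonneg x.2]
    have h6 : ‖x.2‖ ≤ ‖x.2‖ / 2 :=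
      h5.trans (le_trans (le_of_le_of_eq (mul_le_mul_of_nonneg_left hx hK0) (by ring)) hd)
    exact norm_eq_zero.1 (le_antisymm (by linarith [norm_nonneg x.2]) (norm_nonneg _))
  show InV (F x.1 + C.subtypeL x.2)
  rw [hx2, map_zero, add_zero]
  exact hF.inV x.1

theorem adjoin_lag_eq_top {A : Fin g → Matrix (Fin r) (Fin r) ℂ} {l : Fin r → ℂ} {e L : Fin g}
    {S S' T T' : Matrix (Fin r) (Fin r) ℂ} (hP : Pos A l e L S S' T T') :
    Algebra.adjoin ℂ (Set.range (lag A)) = ⊤ := by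
  set K := Algebra.adjoin ℂ (Set.range (lag A))
  have hD : diagonal l ∈ K := Algebra.subset_adjoin ⟨(L, false), hP.specL⟩
  have hN : A e ∈ K := Algebra.subset_adjoin ⟨(e, false), rfl⟩
  have hE : ∀ a, (Matrix.single a a 1 : Matrix (Fin r) (Fin r) ℂ) ∈ K := by
    intro a
    let p : Polynomial ℂ := ∏ b ∈ Finset.univ.erase a,
      (Polynomial.C (l a - l b)⁻¹ * (Polynomial.X - Polynomial.C (l b)))
    have hp : Polynomial.aeval (diagonal l) p = Matrix.single a a (1 : ℂ) := by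
      show Polynomial.aeval (Matrix.diagonalAlgHom ℂ l) p = _
      rw [Polynomial.aeval_algHom_apply]
      show diagonal (Polynomial.aeval l p) = _
      rw [← Matrix.diagonal_single]
      congr 1
      funext c
      rw [Polynomial.aeval_fn_apply, Polynomial.coe_aeval_eq_eval]
      simp only [p, Polynomial.eval_prod, Polynomial.eval_mul, Polynomial.eval_C,
        Polynomial.eval_sub, Polynomial.eval_X]
      by_cases hc : c = a
      · subst hc
        rw [Pi.single_eq_same]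
        exact Finset.prod_eq_one fun b hb => inv_mul_cancel₀
          (sub_ne_zero.2 fun e' => Finset.ne_of_mem_erase hb (hP.indep.injective e').symm)
      · rw [Pi.single_eq_of_ne hc]
        exact Finset.prod_eq_zero (Finset.mem_erase.2 ⟨hc, Finset.mem_univ c⟩) (by simp)
    rw [← hp]
    have hsub : ({diagonal l} : Set (Matrix (Fin r) (Fin r) ℂ)) ⊆ Set.range (lag A) :=
      Set.singleton_subset_iff.2 ⟨(L, false), hP.specL⟩
    exact Algebra.adjoin_mono hsub
      (Polynomial.aeval_mem_adjoin_singleton ℂ (diagonal l))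
  have hS : ∀ a b, (Matrix.single a b 1 : Matrix (Fin r) (Fin r) ℂ) ∈ K := by
    intro a b
    by_cases hab : a = b
    · subst hab; exact hE a
    · have h1 := mul_mem (mul_mem (hE a) hN) (hE b)
      rw [Matrix.single_mul_mul_single, one_mul, mul_one] at h1
      have h2 := K.smul_mem h1 (A e a b)⁻¹
      rwa [Matrix.smul_single, smul_eq_mul, inv_mul_cancel₀ (hP.goodE.1 a b hab)] at h2
  refine eq_top_iff.2 fun M _ => ?_
  rw [Matrix.matrix_eq_sum_single M]
  refine Subalgebra.sum_mem _ fun a _ => Subalgebra.sum_mem _ fun b _ => ?_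
  have := K.smul_mem (hS a b) (M a b)
  rwa [Matrix.smul_single, smul_eq_mul, mul_one] at this

theorem eventually_adjoin_top {σ₀ : Tup g r ℂ} (h0 : Algebra.adjoin ℂ (Set.range σ₀) = ⊤) :
    ∀ᶠ σ in 𝓝 σ₀, Algebra.adjoin ℂ (Set.range σ) = ⊤ := by
  let prj : Fin g × Bool → (Tup g r ℂ → Matrix (Fin r) (Fin r) ℂ) := fun c σ => σ c
  let K := Algebra.adjoin ℂ (Set.range prj)
  have hcont : ∀ F ∈ K, Continuous F := by
    intro F hF
    induction hF using Algebra.adjoin_induction with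
    | mem F hF => obtain ⟨c, rfl⟩ := hF; exact continuous_apply c
    | algebraMap z => exact continuous_const
    | add F G _ _ hF hG => exact hF.add hG
    | mul F G _ _ hF hG => exact hF.mul hG
  have hmap : ∀ σ, K.map (Pi.evalAlgHom ℂ (fun _ : Tup g r ℂ => Matrix (Fin r) (Fin r) ℂ) σ) =
      Algebra.adjoin ℂ (Set.range σ) := by
    intro σ
    rw [AlgHom.map_adjoin, ← Set.range_comp]
    rfl
  have hsel : ∀ q : Fin r × Fin r, ∃ F ∈ K, F σ₀ = Matrix.single q.1 q.2 1 := by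
    intro q
    have : (Matrix.single q.1 q.2 1 : Matrix (Fin r) (Fin r) ℂ) ∈
        K.map (Pi.evalAlgHom ℂ (fun _ : Tup g r ℂ => Matrix (Fin r) (Fin r) ℂ) σ₀) := by
      rw [hmap, h0]; exact Algebra.mem_top
    exact Subalgebra.mem_map.1 this
  choose F hFK hF0 using hsel
  let D : Tup g r ℂ → Matrix (Fin r × Fin r) (Fin r × Fin r) ℂ :=
    fun σ => Matrix.of fun p q => F p σ q.1 q.2
  have hD : Continuous fun σ => (D σ).det := Continuous.matrix_det <| continuous_pi fun p =>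
    continuous_pi fun q => (contDiff_entry q.1 q.2).continuous.comp (hcont _ (hFK p))
  have hD0 : (D σ₀).det ≠ 0 := by
    have : D σ₀ = 1 := by
      ext ⟨a, b⟩ ⟨c, d⟩
      simp [D, hF0, Matrix.single_apply, Matrix.one_apply, Prod.ext_iff]
    simp [this]
  filter_upwards [hD.continuousAt.eventually_ne hD0] with σ hσ
  refine eq_top_iff.2 fun M _ => ?_
  let c := Matrix.vecMul (fun q : Fin r × Fin r => M q.1 q.2) (D σ)⁻¹
  have hM : M = ∑ p, c p • F p σ := by
    have : Matrix.vecMul c (D σ) = fun q => M q.1 q.2 := by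
      rw [Matrix.vecMul_vecMul, Matrix.nonsing_inv_mul _ (isUnit_iff_ne_zero.2 hσ),
        Matrix.vecMul_one]
    ext a b
    rw [Matrix.sum_apply]
    exact (congrFun this (a, b)).symm.trans rfl
  rw [hM]
  refine Subalgebra.sum_mem _ fun p _ => Subalgebra.smul_mem _ ?_ _
  rw [← hmap]
  exact Subalgebra.mem_map.2 ⟨F p, hFK p, rfl⟩

/-- The main theorem in the working notation. -/
theorem exists_open_inV (hg : 2 ≤ g) (hr : 2 ≤ r) :
    ∃ U : Set (Tup g r ℂ), IsOpen U ∧ (∃ σ ∈ U, IsRep σ) ∧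
      ∀ σ ∈ U, IsRep σ → Algebra.adjoin ℂ (Set.range σ) = ⊤ ∧ InV σ := by
  obtain ⟨A, l, e, L, S, S', T, T', hP⟩ := exists_pos hg hr
  choose W W' hW using hP.spec
  have h : Frame A W W' l := ⟨hP.indep, hP.prod_one, hP.ne_zero, hr, hW⟩
  obtain ⟨U, hU, hUo, hmem⟩ := eventually_nhds_iff.1
    ((eventually_adjoin_top (adjoin_lag_eq_top hP)).and (local_main h hP))
  exact ⟨U, hUo, ⟨lag A, hmem, (inV_lag hr A h.det).isRep⟩,
    fun σ hσ hrep => ⟨(hU σ hσ).1, (hU σ hσ).2 hrep⟩⟩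

end Vale.Agent.P002
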