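import Mathlib

/-!
# P002: twists and handle slides on surface tuples

A tuple `σ : Fin g × Bool → M` lists the images of `a_i = (i,false)`, `b_i = (i,true)`.  Everything
is written for a monoid with a chosen inverse map `iv`, so that the same formulas serve for
`SpecialLinearGroup` (group inverse) and for all square matrices (adjugate).
-/

namespace Vale.Agent.P002

variable {g : ℕ} {M N : Type*} [Monoid M] [Monoid N] (iv : M → M) (iv' : N → N)

/-- Commutator with a chosen inverse. -/
def cm (a b : M) : M := a * b * iv a * iv b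

/-- The list of the `g` commutators. -/
def cmList (σ : Fin g × Bool → M) : List M :=
  List.ofFn fun i => cm iv (σ (i, false)) (σ (i, true))

/-- The surface relator. -/
def rel (σ : Fin g × Bool → M) : M := (cmList iv σ).prod

/-- The product of the commutators strictly between positions `i` and `j`. -/
def mid (i j : Fin g) (σ : Fin g × Bool → M) : M :=
  (((cmList iv σ).take j).drop (i.1 + 1)).prod

/-- The slide of a pair of handles, sending `a` to `a c` when `b = d = 1`. -/
def psiQ (q : M × M × M × M) : M × M × M × M :=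
  let a := q.1; let b := q.2.1; let c := q.2.2.1; let d := q.2.2.2
  (a * c, iv c * b * c, iv c * b * c * iv b * c, d * (iv c * iv b * c))

/-- The inverse of `psiQ`. -/
def phiQ (q : M × M × M × M) : M × M × M × M :=
  let a := q.1; let b := q.2.1; let c := q.2.2.1; let d := q.2.2.2
  (a * (iv b * iv c * b), iv b * c * b * iv c * b, iv b * c * b, d * b)

/-- The quadruple at handles `i < j`, the second handle carried next to the first. -/
def quadAt (i j : Fin g) (σ : Fin g × Bool → M) : M × M × M × M :=
  (σ (i, false), σ (i, true),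
    mid iv i j σ * σ (j, false) * iv (mid iv i j σ),
    mid iv i j σ * σ (j, true) * iv (mid iv i j σ))

/-- Apply a pair move at handles `i < j`. -/
def slide (F : M × M × M × M → M × M × M × M) (i j : Fin g) (σ : Fin g × Bool → M) :
    Fin g × Bool → M :=
  fun k =>
    if k.1 = i then bif k.2 then (F (quadAt iv i j σ)).2.1 else (F (quadAt iv i j σ)).1
    else if k.1 = j then
      iv (mid iv i j σ) *
        (bif k.2 then (F (quadAt iv i j σ)).2.2.2 else (F (quadAt iv i j σ)).2.2.1) * mid iv i j σ
    else σ k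

/-- The twist `b_i ↦ b_i a_i ^ n`. -/
def twist (i : Fin g) (n : ℕ) (σ : Fin g × Bool → M) : Fin g × Bool → M :=
  Function.update σ (i, true) (σ (i, true) * σ (i, false) ^ n)

section natural

variable (h : M →* N) (hiv : ∀ x, h (iv x) = iv' (h x))

include hiv

theorem map_cm (a b : M) : h (cm iv a b) = cm iv' (h a) (h b) := by simp [cm, hiv]

theorem map_cmList (σ : Fin g × Bool → M) :
    (cmList iv σ).map h = cmList iv' (fun k => h (σ k)) := by
  simp only [cmList, List.map_ofFn, Function.comp_def, map_cm iv iv' h hiv]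

theorem map_rel (σ : Fin g × Bool → M) : h (rel iv σ) = rel iv' (fun k => h (σ k)) := by
  rw [rel, map_list_prod, map_cmList iv iv' h hiv, rel]

theorem map_mid (i j : Fin g) (σ : Fin g × Bool → M) :
    h (mid iv i j σ) = mid iv' i j (fun k => h (σ k)) := by
  rw [mid, map_list_prod, List.map_drop, List.map_take, map_cmList iv iv' h hiv, mid]

theorem map_slide_psi (i j : Fin g) (σ : Fin g × Bool → M) :
    (fun k => h (slide iv (psiQ iv) i j σ k)) = slide iv' (psiQ iv') i j (fun k => h (σ k)) := by
  funext ⟨k, c⟩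
  simp only [slide]
  split_ifs <;> cases c <;> simp [psiQ, quadAt, hiv, map_mid iv iv' h hiv]

theorem map_slide_phi (i j : Fin g) (σ : Fin g × Bool → M) :
    (fun k => h (slide iv (phiQ iv) i j σ k)) = slide iv' (phiQ iv') i j (fun k => h (σ k)) := by
  funext ⟨k, c⟩
  simp only [slide]
  split_ifs <;> cases c <;> simp [phiQ, quadAt, hiv, map_mid iv iv' h hiv]

omit hiv in
theorem map_twist (i : Fin g) (n : ℕ) (σ : Fin g × Bool → M) :
    (fun k => h (twist i n σ k)) = twist i n (fun k => h (σ k)) := by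
  funext k
  simp only [twist, Function.update_apply]
  split_ifs <;> simp

end natural

section group

variable {G : Type*} [Group G]

theorem psiQ_comm (a b c d : G) :
    cm (fun x : G => x⁻¹) (psiQ (fun x : G => x⁻¹) (a, b, c, d)).1 (psiQ (fun x : G => x⁻¹) (a, b, c, d)).2.1 *
      cm (fun x : G => x⁻¹) (psiQ (fun x : G => x⁻¹) (a, b, c, d)).2.2.1 (psiQ (fun x : G => x⁻¹) (a, b, c, d)).2.2.2 =
    cm (fun x : G => x⁻¹) a b * cm (fun x : G => x⁻¹) c d := by
  simp only [cm, psiQ]; group

theorem phiQ_comm (a b c d : G) :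
    cm (fun x : G => x⁻¹) (phiQ (fun x : G => x⁻¹) (a, b, c, d)).1 (phiQ (fun x : G => x⁻¹) (a, b, c, d)).2.1 *
      cm (fun x : G => x⁻¹) (phiQ (fun x : G => x⁻¹) (a, b, c, d)).2.2.1 (phiQ (fun x : G => x⁻¹) (a, b, c, d)).2.2.2 =
    cm (fun x : G => x⁻¹) a b * cm (fun x : G => x⁻¹) c d := by
  simp only [cm, phiQ]; group

theorem phiQ_psiQ (q : G × G × G × G) : phiQ (fun x : G => x⁻¹) (psiQ (fun x : G => x⁻¹) q) = q := by
  obtain ⟨a, b, c, d⟩ := q
  simp only [phiQ, psiQ, Prod.mk.injEq]
  refine ⟨?_, ?_, ?_, ?_⟩ <;> group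

theorem cmList_split (i j : Fin g) (hij : i < j) (σ : Fin g × Bool → G) :
    rel (fun x : G => x⁻¹) σ = ((cmList (fun x : G => x⁻¹) σ).take i).prod *
      (cm (fun x : G => x⁻¹) (σ (i, false)) (σ (i, true)) * (mid (fun x : G => x⁻¹) i j σ *
        (cm (fun x : G => x⁻¹) (σ (j, false)) (σ (j, true)) * ((cmList (fun x : G => x⁻¹) σ).drop (j.1 + 1)).prod))) := by
  set L := cmList (fun x : G => x⁻¹) σ with hL
  have hlen : L.length = g := by simp [hL, cmList]
  have hi : (i.1) < (L.take j.1).length := by simp [hlen]; exact hij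
  have hj : (j.1) < L.length := by rw [hlen]; exact j.2
  have e1 : L = L.take j.1 ++ L[j.1] :: L.drop (j.1 + 1) := by
    rw [← List.drop_eq_getElem_cons hj, List.take_append_drop]
  have e2 : L.take j.1 =
      (L.take j.1).take i.1 ++ (L.take j.1)[i.1] :: (L.take j.1).drop (i.1 + 1) := by
    rw [← List.drop_eq_getElem_cons hi, List.take_append_drop]
  have e3 : (L.take j.1).take i.1 = L.take i.1 := by
    rw [List.take_take]; congr 1; exact min_eq_left (le_of_lt hij)
  show L.prod = _
  conv_lhs => rw [e1, List.prod_append, e2, e3, List.prod_append]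
  simp [hL, cmList, mid, mul_assoc]

theorem cmList_take_congr {σ τ : Fin g × Bool → G} (m : ℕ)
    (h : ∀ k : Fin g, k.1 < m → ∀ c, σ (k, c) = τ (k, c)) :
    (cmList (fun x : G => x⁻¹) σ).take m = (cmList (fun x : G => x⁻¹) τ).take m := by
  apply List.ext_getElem
  · simp [cmList]
  · intro n h1 h2
    simp only [List.length_take, cmList, List.length_ofFn] at h1
    simp only [List.getElem_take, cmList, List.getElem_ofFn]
    rw [h ⟨n, by omega⟩ (by simp; omega) false, h ⟨n, by omega⟩ (by simp; omega) true]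

theorem cmList_drop_congr {σ τ : Fin g × Bool → G} (m : ℕ)
    (h : ∀ k : Fin g, m ≤ k.1 → ∀ c, σ (k, c) = τ (k, c)) :
    (cmList (fun x : G => x⁻¹) σ).drop m = (cmList (fun x : G => x⁻¹) τ).drop m := by
  apply List.ext_getElem
  · simp [cmList]
  · intro n h1 h2
    simp only [List.length_drop, cmList, List.length_ofFn] at h1
    simp only [List.getElem_drop, cmList, List.getElem_ofFn]
    rw [h ⟨m + n, by omega⟩ (by simp) false, h ⟨m + n, by omega⟩ (by simp) true]

theorem mid_congr {σ τ : Fin g × Bool → G} (i j : Fin g)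
    (h : ∀ k : Fin g, i.1 < k.1 → k.1 < j.1 → ∀ c, σ (k, c) = τ (k, c)) :
    mid (fun x : G => x⁻¹) i j σ = mid (fun x : G => x⁻¹) i j τ := by
  unfold mid
  congr 1
  apply List.ext_getElem
  · simp [cmList]
  · intro n h1 h2
    simp only [List.length_drop, List.length_take, cmList, List.length_ofFn] at h1
    simp only [List.getElem_drop, List.getElem_take, cmList, List.getElem_ofFn]
    rw [h ⟨i.1 + 1 + n, by omega⟩ (by simp; omega) (by simp; omega) false,
      h ⟨i.1 + 1 + n, by omega⟩ (by simp; omega) (by simp; omega) true]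

theorem mid_slide (F : G × G × G × G → G × G × G × G) (i j : Fin g) (σ : Fin g × Bool → G) :
    mid (fun x : G => x⁻¹) i j (slide (fun x : G => x⁻¹) F i j σ) = mid (fun x : G => x⁻¹) i j σ := by
  refine mid_congr i j fun k h1 h2 c => ?_
  have hi : k ≠ i := fun e => by subst e; omega
  have hj : k ≠ j := fun e => by subst e; omega
  simp [slide, hi, hj]

theorem rel_slide (F : G × G × G × G → G × G × G × G)
    (hF : ∀ a b c d, cm (fun x : G => x⁻¹) (F (a, b, c, d)).1 (F (a, b, c, d)).2.1 *
      cm (fun x : G => x⁻¹) (F (a, b, c, d)).2.2.1 (F (a, b, c, d)).2.2.2 = cm (fun x : G => x⁻¹) a b * cm (fun x : G => x⁻¹) c d)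
    (i j : Fin g) (hij : i < j) (σ : Fin g × Bool → G) :
    rel (fun x : G => x⁻¹) (slide (fun x : G => x⁻¹) F i j σ) = rel (fun x : G => x⁻¹) σ := by
  have hne : j ≠ i := ne_of_gt hij
  rw [cmList_split i j hij, cmList_split i j hij, mid_slide,
    cmList_take_congr (τ := σ) i.1 (fun k hk c => ?_),
    cmList_drop_congr (τ := σ) (j.1 + 1) (fun k hk c => ?_)]
  · congr 1
    set m := mid (fun x : G => x⁻¹) i j σ
    obtain ⟨x, hx⟩ : ∃ x, F (quadAt (fun x : G => x⁻¹) i j σ) = x := ⟨_, rfl⟩
    have := hF (σ (i, false)) (σ (i, true)) (m * σ (j, false) * m⁻¹) (m * σ (j, true) * m⁻¹)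
    have hq : quadAt (fun x : G => x⁻¹) i j σ =
        (σ (i, false), σ (i, true), m * σ (j, false) * m⁻¹, m * σ (j, true) * m⁻¹) := rfl
    rw [← hq, hx] at this
    simp only [slide, hne, if_true, if_false, cond_false, cond_true, hx]
    rw [← mul_assoc, ← mul_assoc, ← mul_assoc (cm (fun x : G => x⁻¹) (σ (i, false)) (σ (i, true))),
      ← mul_assoc (cm (fun x : G => x⁻¹) (σ (i, false)) (σ (i, true)) * m)]
    congr 1
    have h2 : cm (fun x : G => x⁻¹) x.1 x.2.1 * m * cm (fun x : G => x⁻¹) (m⁻¹ * x.2.2.1 * m) (m⁻¹ * x.2.2.2 * m) =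
        cm (fun x : G => x⁻¹) x.1 x.2.1 * cm (fun x : G => x⁻¹) x.2.2.1 x.2.2.2 * m := by simp only [cm]; group
    rw [h2, this]
    simp only [cm]; group
  · have hi : k ≠ i := fun e => by subst e; omega
    have hj : k ≠ j := fun e => by subst e; omega
    simp [slide, hi, hj]
  · have hi : k ≠ i := fun e => by subst e; omega
    have hj : k ≠ j := fun e => by subst e; omega
    simp [slide, hi, hj]

theorem slide_phi_psi (i j : Fin g) (hij : i < j) (σ : Fin g × Bool → G) :
    slide (fun x : G => x⁻¹) (phiQ (fun x : G => x⁻¹)) i j (slide (fun x : G => x⁻¹) (psiQ (fun x : G => x⁻¹)) i j σ) = σ := by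
  have hne : j ≠ i := ne_of_gt hij
  have hq : quadAt (fun x : G => x⁻¹) i j (slide (fun x : G => x⁻¹) (psiQ (fun x : G => x⁻¹)) i j σ) = psiQ (fun x : G => x⁻¹) (quadAt (fun x : G => x⁻¹) i j σ) := by
    simp only [quadAt, mid_slide]
    simp only [slide, quadAt, hne, if_true, if_false, cond_false, cond_true]
    refine Prod.ext rfl (Prod.ext rfl (Prod.ext ?_ ?_)) <;> (simp only; group)
  funext ⟨k, c⟩
  show slide (fun x : G => x⁻¹) (phiQ (fun x : G => x⁻¹)) i j (slide (fun x : G => x⁻¹) (psiQ (fun x : G => x⁻¹)) i j σ) (k, c) = _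
  rw [slide]
  simp only [hq, phiQ_psiQ, mid_slide]
  split_ifs with h1 h2
  · subst h1; cases c <;> rfl
  · subst h2; cases c <;> simp only [quadAt, cond_false, cond_true] <;> group
  · simp [slide, h1, h2]

theorem rel_twist (i : Fin g) (n : ℕ) (σ : Fin g × Bool → G) :
    rel (fun x : G => x⁻¹) (twist i n σ) = rel (fun x : G => x⁻¹) σ := by
  unfold rel cmList
  congr 1
  refine congrArg List.ofFn (funext fun k => ?_)
  by_cases h : k = i
  · subst h; simp only [twist, cm, Function.update_apply]; simp; group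
  · simp [twist, Function.update_apply, h]

end group

end Vale.Agent.P002
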