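import Vale.Agent.P002.ProductDecomp
import Vale.Agent.P002.Torus

/-!
# P002: products of curves

Integral points are dense in the character varieties of finite products of surface groups and free
groups.
-/

namespace Vale.Agent.P002.Prod

open Matrix

/-- The ring `ℤ[√2, ζ]` with `ζ` a primitive root of unity of order `r!`. -/
noncomputable def Rr (r : ℕ) : Subring ℂ := Subring.closure
  {((Real.sqrt 2 : ℝ) : ℂ), Complex.exp (2 * Real.pi * Complex.I / (r.factorial : ℕ))}

theorem pi_induction {Q : Type*} [Fintype Q] [DecidableEq Q] {Y : Q → Type*}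
    (C D : ∀ q, Y q → Prop) (S : (∀ q, Y q) → Prop)
    (step : ∀ x q, (∀ y, D q y → S (Function.update x q y)) →
      ∀ y, C q y → S (Function.update x q y))
    (base : ∀ x, (∀ q, D q (x q)) → S x) {x : ∀ q, Y q} (hx : ∀ q, C q (x q)) : S x := by
  suffices H : ∀ (s : Finset Q) (x : ∀ q, Y q), (∀ q ∈ s, C q (x q)) → (∀ q ∉ s, D q (x q)) → S x
    from H Finset.univ x (fun q _ => hx q) (fun q hq => absurd (Finset.mem_univ q) hq)
  intro s
  induction s using Finset.induction_on with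
  | empty => exact fun x _ h => base x fun q => h q (Finset.notMem_empty q)
  | insert i s hi ih =>
    intro x hC hD
    rw [← Function.update_eq_self i x]
    refine step x i (fun y hy => ih _ (fun q hq => ?_) (fun q hq => ?_)) _
      (hC i (Finset.mem_insert_self i s))
    · rw [Function.update_of_ne (ne_of_mem_of_not_mem hq hi)]
      exact hC q (Finset.mem_insert_of_mem hq)
    · by_cases h : q = i
      · subst h; rw [Function.update_self]; exact hy
      · rw [Function.update_of_ne h]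
        exact hD q (by simp [h, hq])

/-- Polynomials vanishing at the unit points of a finite union of translated tori vanish on it. -/
theorem eval_torus_gen {N M : ℕ} (hM : 0 < M) {d : Fin N → ℕ} (hd : ∀ j, d j ∣ M) {ζ : ℂ}
    (hζ : IsPrimitiveRoot ζ M) {R : Subring ℂ} (hR : ZSqrtTwo ≤ R) (hζR : ζ ∈ R)
    {p : MvPolynomial (Fin N) ℂ}
    (h : ∀ w : Fin N → ℂ, (∀ j, w j ∈ R) → ∏ j, w j ^ d j = 1 → MvPolynomial.eval w p = 0)
    {y : Fin N → ℂ} (hy : ∏ j, y j ^ d j = 1) : MvPolynomial.eval y p = 0 := by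
  classical
  rcases N with _ | n
  · exact h y (fun j => j.elim0) hy
  choose c hc using hd
  choose ν hν using fun j => IsAlgClosed.exists_pow_nat_eq (y j ^ d j) hM
  have hν0 : ∀ j, ν j ≠ 0 := fun j h0 => by
    have := hν j
    rw [h0, zero_pow hM.ne'] at this
    exact Finset.prod_ne_zero_iff.1 (hy.trans_ne one_ne_zero) j (Finset.mem_univ j) this.symm
  set q : Fin (n + 1) → ℂ := Function.update ν 0 (∏ j ∈ Finset.univ \ {0}, ν j)⁻¹ with hq
  have hq1 : ∏ j, q j = 1 := by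
    rw [hq, Finset.prod_update_of_mem (Finset.mem_univ _),
      inv_mul_cancel₀ (Finset.prod_ne_zero_iff.2 fun j _ => hν0 j)]
  have hqM : ∀ j, q j ^ M = y j ^ d j := by
    intro j
    by_cases hj : j = 0
    · subst hj
      rw [hq, Function.update_self, inv_pow, ← Finset.prod_pow]
      simp only [hν]
      refine (eq_inv_of_mul_eq_one_left ?_).symm
      rw [← hy, ← Finset.erase_eq]
      exact Finset.mul_prod_erase Finset.univ (fun j => y j ^ d j) (Finset.mem_univ 0)
    · rw [hq, Function.update_of_ne hj, hν]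
  have hq0 : ∀ j, q j ≠ 0 := fun j =>
    Finset.prod_ne_zero_iff.1 (hq1.trans_ne one_ne_zero) j (Finset.mem_univ j)
  let ξ : Fin (n + 1) → ℂ := fun j => y j / q j ^ c j
  have hξd : ∀ j, ξ j ^ d j = 1 := fun j => by
    simp only [ξ, div_pow, ← pow_mul, mul_comm (c j), ← hc, hqM]
    exact div_self (Finset.prod_ne_zero_iff.1 (hy.trans_ne one_ne_zero) j (Finset.mem_univ j))
  have hξR : ∀ j, ξ j ∈ R := fun j => by
    have : NeZero M := ⟨hM.ne'⟩
    obtain ⟨i, -, hi⟩ := hζ.eq_pow_of_pow_eq_one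
      (by rw [hc j, pow_mul, hξd, one_pow] : ξ j ^ M = 1)
    rw [← hi]; exact pow_mem hζR i
  have he : ∀ z, MvPolynomial.eval z
      (MvPolynomial.bind₁ (fun j => MvPolynomial.C (ξ j) * MvPolynomial.X j ^ c j) p) =
      MvPolynomial.eval (fun j => ξ j * z j ^ c j) p := fun z => by
    change MvPolynomial.eval₂Hom (RingHom.id ℂ) z _ = MvPolynomial.eval₂Hom _ _ p
    rw [MvPolynomial.eval₂Hom_bind₁]
    congr 2
    funext j
    simp
  have h1 := eval_torus
    (p := MvPolynomial.bind₁ (fun j => MvPolynomial.C (ξ j) * MvPolynomial.X j ^ c j) p)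
    (fun w hw hw1 => by
      rw [he]
      refine h _ (fun j => mul_mem (hξR j) (pow_mem (hR (hw j)) _)) ?_
      simp only [mul_pow, ← pow_mul, mul_comm (c _), ← hc, hξd, one_mul]
      rw [Finset.prod_pow, hw1, one_pow]) hq1
  rw [he] at h1
  have : (fun j => ξ j * q j ^ c j) = y :=
    funext fun j => div_mul_cancel₀ _ (pow_ne_zero _ (hq0 j))
  rwa [this] at h1

theorem det_blockDiag {N : ℕ} {d : Fin N → ℕ} (B : ∀ j, Matrix (Fin (d j)) (Fin (d j)) ℂ) :
    (blockDiagonal' B).det = ∏ j, (B j).det := by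
  rw [(blockTriangular_blockDiagonal' B).det_fintype]
  refine Finset.prod_congr rfl fun j => ?_
  intro _
  let eq : Fin (d j) ≃ {x : Σ i, Fin (d i) // x.1 = j} :=
    (Equiv.sigmaSubtype (α := Fin N) (β := fun i => Fin (d i)) j).symm
  rw [← det_submatrix_equiv_self eq]
  congr 1
  ext a b
  exact blockDiagonal'_apply_eq B j a b

theorem exists_linear_poly {g k : ℕ} (Φ : Matrix (Fin k) (Fin k) ℂ →ₗ[ℂ] ℂ) (a : Fin g × Bool) :
    ∃ p : MvPolynomial (Var g k) ℂ, ∀ y : Tup g k ℂ,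
      MvPolynomial.eval (coord y) p = Φ (y a) := by
  refine ⟨∑ u, ∑ v, MvPolynomial.C (Φ (Matrix.single u v 1)) * MvPolynomial.X (a, u, v), fun y => ?_⟩
  conv_rhs => rw [Matrix.matrix_eq_sum_single (y a)]
  simp only [map_sum, map_mul, MvPolynomial.eval_C, MvPolynomial.eval_X]
  refine Finset.sum_congr rfl fun u _ => Finset.sum_congr rfl fun v _ => ?_
  have : (Matrix.single u v (y a u v) : Matrix (Fin k) (Fin k) ℂ) =
      y a u v • Matrix.single u v 1 := by
    rw [Matrix.smul_single, smul_eq_mul, mul_one]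
  rw [this, map_smul, smul_eq_mul, mul_comm]
  rfl

section model

variable {I : Type} {T : I → Type} {r N : ℕ} {d : Fin N → ℕ} (e : (Σ j, Fin (d j)) ≃ Fin r)
  (F : ∀ (j : Fin N) (i : I), Fac (T i) (d j))

/-- Block sums of scaled tensor products. -/
noncomputable def mdl (lam : Fin N → (Σ i, T i) → ℂ)
    (A : ∀ q : Fin N × I, T q.2 → Matrix (Fin (F q.1 q.2).k) (Fin (F q.1 q.2).k) ℂ) :
    (Σ i, T i) → Matrix (Fin r) (Fin r) ℂ :=
  fun x => reindex e e (blockDiagonal' fun j => lam j x • (F j x.1).L (A (j, x.1) x.2))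

theorem det_mdl (hF : ∀ j i, (F j i).Good) (lam A) (x : Σ i, T i) :
    (mdl e F lam A x).det =
      ∏ j, lam j x ^ d j * (A (j, x.1) x.2).det ^ (F j x.1).l := by
  simp only [mdl, det_reindex_self, det_blockDiag, det_smul, Fintype.card_fin, (hF _ _).det]

theorem comm_mdl (hFc : ∀ j i i', i ≠ i' → ∀ X Y,
      (F j i).L X * (F j i').L Y = (F j i').L Y * (F j i).L X)
    (lam A) {x y : Σ i, T i} (h : x.1 ≠ y.1) :
    mdl e F lam A x * mdl e F lam A y = mdl e F lam A y * mdl e F lam A x := by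
  simp only [mdl, reindex_apply, submatrix_mul_equiv, ← blockDiagonal'_mul, smul_mul_smul_comm,
    hFc _ _ _ h, mul_comm (lam _ x)]

theorem mem_mdl (hF : ∀ j i, (F j i).Good) {R : Subring ℂ} {lam A} {x : Σ i, T i}
    (hlam : ∀ j, lam j x ∈ R) (hA : ∀ j a b, A (j, x.1) x.2 a b ∈ R) (u v : Fin r) :
    mdl e F lam A x u v ∈ R := by
  simp only [mdl, reindex_apply, submatrix_apply]
  rcases e.symm u with ⟨ju, a⟩
  rcases e.symm v with ⟨jv, b⟩
  by_cases h : ju = jv
  · subst h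
    rw [blockDiagonal'_apply_eq]
    exact mul_mem (hlam _) ((hF _ _).mem R _ (hA _) a b)
  · rw [blockDiagonal'_apply_ne _ _ _ h]
    exact zero_mem _

end model

section surface

variable {I : Type} {g : I → ℕ} {r N : ℕ} {d : Fin N → ℕ} (e : (Σ j, Fin (d j)) ≃ Fin r)
  (F : ∀ (j : Fin N) (i : I), Fac (Fin (g i) × Bool) (d j))

theorem rel_mdl {lam : Fin N → (Σ i, Fin (g i) × Bool) → ℂ}
    {A : ∀ q : Fin N × I, Tup (g q.2) (F q.1 q.2).k ℂ} (hl : ∀ j x, lam j x ≠ 0)
    (hA : ∀ q a, (A q a).det = 1) (i : I) :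
    rel (fun M => M⁻¹) (fun k => mdl e F lam A ⟨i, k⟩) =
      reindex e e (blockDiagonal' fun j => (F j i).L (rel adjugate (A (j, i)))) := by
  let Φ : ((j : Fin N) → ℂˣ × Matrix.SpecialLinearGroup (Fin (F j i).k) ℂ) →*
      Matrix (Fin r) (Fin r) ℂ :=
    { toFun := fun u => reindex e e (blockDiagonal' fun j =>
        ((u j).1 : ℂ) • (F j i).L ((u j).2 : Matrix (Fin (F j i).k) (Fin (F j i).k) ℂ))
      map_one' := by simp [← Pi.one_def]
      map_mul' := fun u v => by
        simp only [Pi.mul_apply, Prod.fst_mul, Prod.snd_mul, Units.val_mul,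
          Matrix.SpecialLinearGroup.coe_mul, map_mul, reindex_apply, submatrix_mul_equiv,
          ← blockDiagonal'_mul, smul_mul_smul_comm] }
  let σ' : Fin (g i) × Bool → (j : Fin N) → ℂˣ × Matrix.SpecialLinearGroup (Fin (F j i).k) ℂ :=
    fun k j => (Units.mk0 _ (hl j ⟨i, k⟩), ⟨A (j, i) k, hA (j, i) k⟩)
  have hΦ : ∀ u, Φ u⁻¹ = (Φ u)⁻¹ := fun u =>
    (Matrix.inv_eq_left_inv (by rw [← map_mul, inv_mul_cancel, map_one])).symm
  show rel (fun M => M⁻¹) (fun k => Φ (σ' k)) = _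
  rw [← map_rel (fun u => u⁻¹) (fun M => M⁻¹) Φ hΦ]
  have h1 : ∀ j, (rel (fun u => u⁻¹) σ' j).1 = 1 := fun j => by
    have h := map_rel (fun u : (j : Fin N) → ℂˣ × Matrix.SpecialLinearGroup (Fin (F j i).k) ℂ => u⁻¹)
      (fun u : ℂˣ => u⁻¹)
      ((MonoidHom.fst _ _).comp
        (Pi.evalMonoidHom (fun j => ℂˣ × Matrix.SpecialLinearGroup (Fin (F j i).k) ℂ) j))
      (fun u => rfl) σ'
    refine h.trans (List.prod_eq_one fun z hz => ?_)
    simp only [cmList, List.mem_ofFn] at hz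
    obtain ⟨k, rfl⟩ := hz
    simp [cm, mul_comm, mul_left_comm]
  have h2 : ∀ j, ((rel (fun u => u⁻¹) σ' j).2 : Matrix (Fin (F j i).k) (Fin (F j i).k) ℂ) =
      rel adjugate (A (j, i)) := fun j => by
    exact map_rel (fun u : (j : Fin N) → ℂˣ × Matrix.SpecialLinearGroup (Fin (F j i).k) ℂ => u⁻¹)
      adjugate (Matrix.SpecialLinearGroup.coeMonoidHom.comp ((MonoidHom.snd _ _).comp
        (Pi.evalMonoidHom (fun j => ℂˣ × Matrix.SpecialLinearGroup (Fin (F j i).k) ℂ) j)))
      (fun u => rfl) σ'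
  show reindex e e (blockDiagonal' fun j => ((rel (fun u => u⁻¹) σ' j).1 : ℂ) •
    (F j i).L ((rel (fun u => u⁻¹) σ' j).2 : Matrix (Fin (F j i).k) (Fin (F j i).k) ℂ)) = _
  simp only [h1, h2, Units.val_one, one_smul]

/-- Irreducible special linear representations of every surface group are in the closure of the
integral ones. -/
theorem inV_irred {g k : ℕ} {σ : Tup g k ℂ} (hirr : Irred σ) (hdet : ∀ a, (σ a).det = 1)
    (hrel : rel adjugate σ = 1) : InV σ := by
  have hk1 : k = 1 → InV σ := by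
    intro hk f hf
    subst hk
    have hσ : σ = castT (fun _ => 1) := by
      funext a
      ext u v
      have h := hdet a
      rw [Matrix.det_fin_one] at h
      simp [castT, Subsingleton.elim u 0, Subsingleton.elim v 0, h]
    rw [hσ]
    refine hf _ (List.prod_eq_one fun z hz => ?_)
    simp only [cmList, List.mem_ofFn] at hz
    obtain ⟨i, rfl⟩ := hz
    simp [cm]
  rcases Nat.lt_or_ge g 2 with hg | hg
  · refine hk1 (hirr.eq_one_of_scalar fun a => hirr.schur fun b => ?_)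
    have hg1 : g = 1 := by have := a.1.isLt; omega
    subst hg1
    set x := σ (0, false) with hx
    set y := σ (0, true) with hy
    have h1 : x * y * adjugate x * adjugate y = 1 := by
      simpa [rel, cmList, cm] using hrel
    have ax : adjugate x * x = 1 := by rw [adjugate_mul, hdet, one_smul]
    have ay : adjugate y * y = 1 := by rw [adjugate_mul, hdet, one_smul]
    have hxy : x * y = y * x := by
      calc x * y = x * y * adjugate x * adjugate y * (y * x) := by
            rw [mul_assoc (x * y * adjugate x), ← mul_assoc (adjugate y), ay, one_mul,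
              mul_assoc (x * y), ax, mul_one]
        _ = y * x := by rw [h1, one_mul]
    obtain ⟨a, p⟩ := a
    obtain ⟨b, q⟩ := b
    rw [Subsingleton.elim a 0, Subsingleton.elim b 0]
    cases p <;> cases q <;> simp [← hx, ← hy, hxy]
  · rcases Nat.lt_or_ge k 2 with hk | hk
    · exact hk1 (by have := hirr.1; omega)
    · exact inV_of_schur hg hk ⟨hdet, hrel⟩ fun c hc => hirr.schur hc

variable [Fintype I] [DecidableEq I]

omit [Fintype I] in
theorem step_factor (lam : Fin N → (Σ i, Fin (g i) × Bool) → ℂ)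
    (f : MvPolynomial ((Σ i, Fin (g i) × Bool) × Fin r × Fin r) ℂ)
    (A : ∀ q : Fin N × I, Tup (g q.2) (F q.1 q.2).k ℂ) (q : Fin N × I)
    (h : ∀ τ : Fin (g q.2) × Bool → Matrix.SpecialLinearGroup (Fin (F q.1 q.2).k) ℤ,
      rel (fun x => x⁻¹) τ = 1 → MvPolynomial.eval
        (fun v => mdl e F lam (Function.update A q (castT τ)) v.1 v.2.1 v.2.2) f = 0)
    {y : Tup (g q.2) (F q.1 q.2).k ℂ} (hy : InV y) :
    MvPolynomial.eval (fun v => mdl e F lam (Function.update A q y) v.1 v.2.1 v.2.2) f = 0 := by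
  classical
  have hpoly : ∀ v : (Σ i, Fin (g i) × Bool) × Fin r × Fin r,
      ∃ p : MvPolynomial (Var (g q.2) (F q.1 q.2).k) ℂ, ∀ y, MvPolynomial.eval (coord y) p =
        mdl e F lam (Function.update A q y) v.1 v.2.1 v.2.2 := by
    rintro ⟨⟨i, a⟩, u, w⟩
    simp only [mdl, reindex_apply, submatrix_apply]
    rcases e.symm u with ⟨ju, su⟩
    rcases e.symm w with ⟨jw, sw⟩
    by_cases hj : ju = jw
    · subst hj
      simp only [blockDiagonal'_apply_eq]
      by_cases hq : (ju, i) = q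
      · subst hq
        simp only [Function.update_self]
        exact exists_linear_poly (lam ju ⟨i, a⟩ •
          (Matrix.entryLinearMap ℂ ℂ su sw).comp (F ju i).L.toLinearMap) a
      · simp only [Function.update_of_ne hq]
        exact ⟨MvPolynomial.C _, fun y => MvPolynomial.eval_C _⟩
    · exact ⟨0, fun y => by rw [map_zero, blockDiagonal'_apply_ne _ _ _ hj]⟩
  choose p hp using hpoly
  have he : ∀ y, MvPolynomial.eval (coord y) (MvPolynomial.bind₁ p f) =
      MvPolynomial.eval (fun v => mdl e F lam (Function.update A q y) v.1 v.2.1 v.2.2) f := by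
    intro y
    change MvPolynomial.eval₂Hom (RingHom.id ℂ) (coord y) _ = MvPolynomial.eval₂Hom _ _ f
    rw [MvPolynomial.eval₂Hom_bind₁]
    congr 2
    funext v
    exact hp v y
  rw [← he]
  exact hy _ fun τ hτ => by rw [he]; exact h τ hτ

omit [Fintype I] in
theorem step_scalar {M : ℕ} (hM : 0 < M) (hd : ∀ j, d j ∣ M) {ζ : ℂ}
    (hζ : IsPrimitiveRoot ζ M) {R : Subring ℂ} (hR : ZSqrtTwo ≤ R) (hζR : ζ ∈ R)
    (f : MvPolynomial ((Σ i, Fin (g i) × Bool) × Fin r × Fin r) ℂ)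
    (A : ∀ q : Fin N × I, Tup (g q.2) (F q.1 q.2).k ℂ)
    (c : (Σ i, Fin (g i) × Bool) → Fin N → ℂ) (x : Σ i, Fin (g i) × Bool)
    (h : ∀ w : Fin N → ℂ, (∀ j, w j ∈ R) → ∏ j, w j ^ d j = 1 → MvPolynomial.eval
      (fun v => mdl e F (fun j z => Function.update c x w z j) A v.1 v.2.1 v.2.2) f = 0)
    {y : Fin N → ℂ} (hy : ∏ j, y j ^ d j = 1) : MvPolynomial.eval
      (fun v => mdl e F (fun j z => Function.update c x y z j) A v.1 v.2.1 v.2.2) f = 0 := by
  classical
  have hpoly : ∀ v : (Σ i, Fin (g i) × Bool) × Fin r × Fin r,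
      ∃ p : MvPolynomial (Fin N) ℂ, ∀ y, MvPolynomial.eval y p =
        mdl e F (fun j z => Function.update c x y z j) A v.1 v.2.1 v.2.2 := by
    rintro ⟨z, u, w⟩
    simp only [mdl, reindex_apply, submatrix_apply]
    rcases e.symm u with ⟨ju, su⟩
    rcases e.symm w with ⟨jw, sw⟩
    by_cases hj : ju = jw
    · subst hj
      simp only [blockDiagonal'_apply_eq, Matrix.smul_apply, smul_eq_mul]
      by_cases hz : z = x
      · subst hz
        simp only [Function.update_self]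
        exact ⟨MvPolynomial.X ju * MvPolynomial.C _,
          fun y => by rw [map_mul, MvPolynomial.eval_X, MvPolynomial.eval_C]⟩
      · simp only [Function.update_of_ne hz]
        exact ⟨MvPolynomial.C _, fun y => MvPolynomial.eval_C _⟩
    · exact ⟨0, fun y => by rw [map_zero, blockDiagonal'_apply_ne _ _ _ hj]⟩
  choose p hp using hpoly
  have he : ∀ y, MvPolynomial.eval y (MvPolynomial.bind₁ p f) = MvPolynomial.eval
      (fun v => mdl e F (fun j z => Function.update c x y z j) A v.1 v.2.1 v.2.2) f := by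
    intro y
    change MvPolynomial.eval₂Hom (RingHom.id ℂ) y _ = MvPolynomial.eval₂Hom _ _ f
    rw [MvPolynomial.eval₂Hom_bind₁]
    congr 2
    funext v
    exact hp v y
  rw [← he]
  exact eval_torus_gen hM hd hζ hR hζR (fun w hw hw1 => by rw [he]; exact h w hw hw1) hy

end surface

/-- Products of surface groups of arbitrary genera. -/
theorem vanish_surfaces {I : Type} [Fintype I] [DecidableEq I] (g : I → ℕ) {r : ℕ}
    (σ : (Σ i, Fin (g i) × Bool) → Matrix (Fin r) (Fin r) ℂ) (hdet : ∀ x, (σ x).det = 1)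
    (hrel : ∀ i, rel (fun M => M⁻¹) (fun k => σ ⟨i, k⟩) = 1)
    (hcomm : ∀ x y, x.1 ≠ y.1 → σ x * σ y = σ y * σ x)
    (hs : ∀ U, Inv σ U → ∃ V, Inv σ V ∧ IsCompl U V)
    (f : MvPolynomial ((Σ i, Fin (g i) × Bool) × Fin r × Fin r) ℂ)
    (hinv : ∀ (P P' : Matrix (Fin r) (Fin r) ℂ)
      (ρ : (Σ i, Fin (g i) × Bool) → Matrix (Fin r) (Fin r) ℂ), P * P' = 1 →
      MvPolynomial.eval (fun v => (P * ρ v.1 * P') v.2.1 v.2.2) f =
        MvPolynomial.eval (fun v => ρ v.1 v.2.1 v.2.2) f)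
    (hf : ∀ ρ : (Σ i, Fin (g i) × Bool) → Matrix (Fin r) (Fin r) ℂ,
      (∀ x a b, ρ x a b ∈ Rr r) → (∀ x, (ρ x).det = 1) →
      (∀ i, rel (fun M => M⁻¹) (fun k => ρ ⟨i, k⟩) = 1) →
      (∀ x y, x.1 ≠ y.1 → ρ x * ρ y = ρ y * ρ x) →
      MvPolynomial.eval (fun v => ρ v.1 v.2.1 v.2.2) f = 0) :
    MvPolynomial.eval (fun v => σ v.1 v.2.1 v.2.2) f = 0 := by
  classical
  obtain ⟨N, d, e, B, P, P', h1, h2, hB, hσ⟩ := exists_blocks hs
  have hcB : ∀ j x y, x.1 ≠ y.1 → B j x * B j y = B j y * B j x := by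
    intro j x y hxy
    have h : P' * σ x * P * (P' * σ y * P) = P' * σ y * P * (P' * σ x * P) := by
      calc P' * σ x * P * (P' * σ y * P) = P' * σ x * (P * P') * σ y * P := by
            simp only [mul_assoc]
        _ = P' * (σ x * σ y) * P := by rw [h1, mul_one, mul_assoc P' (σ x)]
        _ = P' * σ y * (P * P') * σ x * P := by
            rw [hcomm x y hxy, h1, mul_one, mul_assoc P' (σ y)]
        _ = _ := by simp only [mul_assoc]
    simp only [hσ, reindex_apply, submatrix_mul_equiv, ← blockDiagonal'_mul] at h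
    have h' : blockDiagonal' (fun k => B k x * B k y) = blockDiagonal' fun k => B k y * B k x :=
      (reindex e e).injective h
    exact congrFun (blockDiagonal'_injective h') j
  choose F Q Q' q1 q2 hF hFc hFQ using fun j => exists_tens (T := fun i => Fin (g i) × Bool)
    Finset.univ (fun i a => B j ⟨i, a⟩) (hB j)
    (fun i i' hii' a b => hcB j ⟨i, a⟩ ⟨i', b⟩ hii') (fun i hi => absurd (Finset.mem_univ i) hi)
  have hBdet : ∀ j x, (B j x).det ≠ 0 := fun j x => by
    have h : (P' * σ x * P).det = 1 := by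
      rw [det_mul, det_mul, hdet, mul_one, ← det_mul, h2, det_one]
    rw [hσ, det_reindex_self, det_blockDiag] at h
    exact Finset.prod_ne_zero_iff.1 (h.trans_ne one_ne_zero) j (Finset.mem_univ j)
  have hAdet : ∀ j i a, ((F j i).A a).det ≠ 0 := fun j i a h => by
    have h3 : (Q' j * B j ⟨i, a⟩ * Q j).det = 0 := by
      rw [hFQ, (hF j i).det, h, zero_pow (hF j i).pos.ne']
    rw [det_mul, det_mul, mul_comm _ (B j _).det, mul_assoc, ← det_mul, q2, det_one, mul_one] at h3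
    exact hBdet j _ h3
  choose z hz using fun (j : Fin N) (x : Σ i, Fin (g i) × Bool) =>
    IsAlgClosed.exists_pow_nat_eq (((F j x.1).A x.2).det)
      (Nat.pos_of_ne_zero ((hF j x.1).irred.1))
  have hz0 : ∀ j x, z j x ≠ 0 := fun j x h => hAdet j x.1 x.2 (by
    rw [← hz, h, zero_pow ((hF j x.1).irred.1)])
  let A₀ : ∀ q : Fin N × I, Tup (g q.2) (F q.1 q.2).k ℂ :=
    fun q a => (z q.1 ⟨q.2, a⟩)⁻¹ • (F q.1 q.2).A a
  have hA₀det : ∀ q a, (A₀ q a).det = 1 := fun q a => by
    simp only [A₀, det_smul, Fintype.card_fin, inv_pow]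
    rw [hz q.1 ⟨q.2, a⟩, inv_mul_cancel₀ (hAdet q.1 q.2 a)]
  have hA₀irr : ∀ q, Irred (A₀ q) := fun q => by
    refine ⟨(hF q.1 q.2).irred.1, fun U hU => (hF q.1 q.2).irred.2 U fun a v hv => ?_⟩
    have h := U.smul_mem (z q.1 ⟨q.2, a⟩) (hU a v hv)
    simp only [A₀, smul_mulVec, smul_smul, mul_inv_cancel₀ (hz0 _ _), one_smul] at h
    exact h
  set P₂ := P * reindex e e (blockDiagonal' Q) with hP₂
  set P₂' := reindex e e (blockDiagonal' Q') * P' with hP₂'
  have hR12 : reindex e e (blockDiagonal' Q') * reindex e e (blockDiagonal' Q) = 1 := by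
    simp [reindex_apply, submatrix_mul_equiv, ← blockDiagonal'_mul, q2, ← Pi.one_def]
  have p1 : P₂' * P₂ = 1 := by
    rw [hP₂, hP₂', mul_assoc, ← mul_assoc P', h2, one_mul, hR12]
  have p2 : P₂ * P₂' = 1 := mul_eq_one_comm.1 p1
  have hmdl : ∀ x, P₂' * σ x * P₂ = mdl e F z A₀ x := by
    intro x
    rw [hP₂, hP₂', show reindex e e (blockDiagonal' Q') * P' * σ x *
        (P * reindex e e (blockDiagonal' Q)) = reindex e e (blockDiagonal' Q') * (P' * σ x * P) *
        reindex e e (blockDiagonal' Q) by simp only [mul_assoc], hσ]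
    simp only [reindex_apply, submatrix_mul_equiv, ← blockDiagonal'_mul, mdl, A₀, map_smul,
      smul_smul, mul_inv_cancel₀ (hz0 _ _), one_smul]
    congr 2
    funext j
    exact hFQ j x.1 x.2
  have hzd : ∀ x, ∏ j, z j x ^ d j = 1 := fun x => by
    have h := congrArg Matrix.det (hmdl x)
    rw [det_mul, det_mul, hdet, mul_one, ← det_mul, p1, det_one, det_mdl e F hF] at h
    simpa [hA₀det] using h.symm
  have hA₀ : ∀ q, InV (A₀ q) := by
    rintro ⟨j, i⟩
    refine inV_irred (hA₀irr _) (hA₀det _) ?_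
    let cj : Matrix (Fin r) (Fin r) ℂ →* Matrix (Fin r) (Fin r) ℂ :=
      { toFun := fun M => P₂' * M * P₂
        map_one' := by rw [mul_one, p1]
        map_mul' := fun M M' => by
          calc P₂' * (M * M') * P₂ = P₂' * M * (P₂ * P₂') * M' * P₂ := by
                rw [p2, mul_one, mul_assoc P₂' M]
            _ = _ := by simp only [mul_assoc] }
    have hcj : ∀ M, cj M⁻¹ = (cj M)⁻¹ := fun M => by
      show P₂' * M⁻¹ * P₂ = (P₂' * M * P₂)⁻¹
      rw [Matrix.mul_inv_rev (P₂' * M) P₂, Matrix.mul_inv_rev P₂' M, inv_eq_left_inv p1,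
        inv_eq_left_inv p2, mul_assoc]
    have h := map_rel (fun M => M⁻¹) (fun M => M⁻¹) cj hcj (fun k => σ ⟨i, k⟩)
    rw [hrel, map_one, show (fun k => cj (σ ⟨i, k⟩)) = fun k => mdl e F z A₀ ⟨i, k⟩ from
      funext fun k => hmdl ⟨i, k⟩, rel_mdl e F hz0 hA₀det i] at h
    have h' : blockDiagonal' (fun j => (F j i).L (rel adjugate (A₀ (j, i)))) =
        blockDiagonal' (fun _ => 1) := (reindex e e).injective (by
      rw [← h]; simp [← Pi.one_def])
    exact (hF j i).inj ((congrFun (blockDiagonal'_injective h') j).trans (map_one _).symm)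
  -- the polynomial vanishes at the model
  rw [← hinv P₂' P₂ σ p1]
  simp only [hmdl]
  have hr : ∀ j, d j ∣ r.factorial := fun j =>
    Nat.dvd_factorial (Nat.pos_of_ne_zero (hB j).1) (by
      have := Fintype.card_le_of_injective (fun s : Fin (d j) => e ⟨j, s⟩)
        (fun s s' h => by simpa using h)
      simpa using this)
  refine pi_induction (Y := fun q : Fin N × I => Tup (g q.2) (F q.1 q.2).k ℂ)
    (fun q => InV) (fun q y => ∃ τ : Fin (g q.2) × Bool → Matrix.SpecialLinearGroup (Fin (F q.1 q.2).k) ℤ,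
      rel (fun x => x⁻¹) τ = 1 ∧ y = castT τ)
    (fun A => MvPolynomial.eval (fun v => mdl e F z A v.1 v.2.1 v.2.2) f = 0)
    (fun A q h y hy => step_factor e F z f A q (fun τ hτ => h _ ⟨τ, hτ, rfl⟩) hy)
    (fun A hA => ?_) hA₀
  choose τ hτ hAτ using hA
  have hAdet1 : ∀ q a, (A q a).det = 1 := fun q a => by
    rw [hAτ q, castT, ← RingHom.map_det, (τ q a).2, map_one]
  refine pi_induction (Y := fun _ : Σ i, Fin (g i) × Bool => Fin N → ℂ)
    (fun _ y => ∏ j, y j ^ d j = 1) (fun _ y => (∀ j, y j ∈ Rr r) ∧ ∏ j, y j ^ d j = 1)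
    (fun c => MvPolynomial.eval (fun v => mdl e F (fun j x => c x j) A v.1 v.2.1 v.2.2) f = 0)
    (fun c x h y hy => step_scalar e F (R := Rr r) r.factorial_pos hr
      (Complex.isPrimitiveRoot_exp _ r.factorial_ne_zero)
      (Subring.closure_mono (Set.singleton_subset_iff.2 (Set.mem_insert _ _)))
      (Subring.subset_closure (Set.mem_insert_of_mem _ rfl)) f A c x
      (fun w hw hw1 => h w ⟨hw, hw1⟩) hy)
    (fun c hc => ?_) (x := fun x j => z j x) hzd
  have hc0 : ∀ j x, c x j ≠ 0 := fun j x h => by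
    have := Finset.prod_ne_zero_iff.1 ((hc x).2.trans_ne one_ne_zero) j (Finset.mem_univ j)
    exact this (by rw [h, zero_pow (hB j).1])
  refine hf _ (fun x => mem_mdl e F hF (fun j => (hc x).1 j) fun j a b => ?_) (fun x => ?_)
    (fun i => ?_) (fun x y hxy => comm_mdl e F hFc _ _ hxy)
  · rw [hAτ]
    exact intCast_mem _ _
  · rw [det_mdl e F hF]
    simpa [hAdet1] using (hc x).2
  · rw [rel_mdl e F hc0 hAdet1 i]
    have h : ∀ j, rel adjugate (A (j, i)) = 1 := fun j => by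
      rw [hAτ (j, i), castT_eq, ← map_rel (fun x : Matrix.SpecialLinearGroup _ ℤ => x⁻¹) adjugate
        (toC _) toC_inv, hτ (j, i), map_one]
    simp [h, ← Pi.one_def]

/-- Finite products of surface groups and free groups. -/
theorem vanish_curves {m m' : ℕ} (g : Fin m → ℕ) (n : Fin m' → ℕ) {r : ℕ}
    (σ : (Σ i, Fin (g i) × Bool) ⊕ (Σ j, Fin (n j)) → Matrix (Fin r) (Fin r) ℂ)
    (hdet : ∀ x, (σ x).det = 1)
    (hrel : ∀ i, rel (fun M => M⁻¹) (fun k => σ (Sum.inl ⟨i, k⟩)) = 1)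
    (hcomm : ∀ x y, Sum.map Sigma.fst Sigma.fst x ≠ Sum.map Sigma.fst Sigma.fst y →
      σ x * σ y = σ y * σ x)
    (hs : ∀ U, Inv σ U → ∃ V, Inv σ V ∧ IsCompl U V)
    (f : MvPolynomial (((Σ i, Fin (g i) × Bool) ⊕ (Σ j, Fin (n j))) × Fin r × Fin r) ℂ)
    (hinv : ∀ (P P' : Matrix (Fin r) (Fin r) ℂ)
      (ρ : (Σ i, Fin (g i) × Bool) ⊕ (Σ j, Fin (n j)) → Matrix (Fin r) (Fin r) ℂ), P * P' = 1 →
      MvPolynomial.eval (fun v => (P * ρ v.1 * P') v.2.1 v.2.2) f =
        MvPolynomial.eval (fun v => ρ v.1 v.2.1 v.2.2) f)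
    (hf : ∀ ρ : (Σ i, Fin (g i) × Bool) ⊕ (Σ j, Fin (n j)) → Matrix (Fin r) (Fin r) ℂ,
      (∀ x a b, ρ x a b ∈ Rr r) → (∀ x, (ρ x).det = 1) →
      (∀ i, rel (fun M => M⁻¹) (fun k => ρ (Sum.inl ⟨i, k⟩)) = 1) →
      (∀ x y, Sum.map Sigma.fst Sigma.fst x ≠ Sum.map Sigma.fst Sigma.fst y →
        ρ x * ρ y = ρ y * ρ x) →
      MvPolynomial.eval (fun v => ρ v.1 v.2.1 v.2.2) f = 0) :
    MvPolynomial.eval (fun v => σ v.1 v.2.1 v.2.2) f = 0 := by
  classical
  let G : Fin m ⊕ Fin m' → ℕ := Sum.elim g n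
  let Φ : (Σ i, Fin (g i) × Bool) ⊕ (Σ j, Fin (n j)) → Σ s, Fin (G s) × Bool :=
    Sum.elim (fun x => ⟨Sum.inl x.1, x.2⟩) (fun x => ⟨Sum.inr x.1, (x.2, false)⟩)
  let σ' : (Σ s, Fin (G s) × Bool) → Matrix (Fin r) (Fin r) ℂ := fun x =>
    match x with
    | ⟨Sum.inl i, k⟩ => σ (Sum.inl ⟨i, k⟩)
    | ⟨Sum.inr j, (k, b)⟩ => bif b then 1 else σ (Sum.inr ⟨j, k⟩)
  have hΦ : ∀ x, σ' (Φ x) = σ x := by rintro (⟨i, k⟩ | ⟨j, k⟩) <;> rfl
  have hΦ1 : ∀ x, (Φ x).1 = Sum.map Sigma.fst Sigma.fst x := by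
    rintro (⟨i, k⟩ | ⟨j, k⟩) <;> rfl
  have hcase : ∀ x, σ' x = 1 ∨ ∃ y, Φ y = x := by
    rintro ⟨i | j, k, b⟩
    · exact Or.inr ⟨Sum.inl ⟨i, k, b⟩, rfl⟩
    · cases b
      · exact Or.inr ⟨Sum.inr ⟨j, k⟩, rfl⟩
      · exact Or.inl rfl
  have he : ∀ ρ : (Σ s, Fin (G s) × Bool) → Matrix (Fin r) (Fin r) ℂ,
      MvPolynomial.eval (fun v => ρ v.1 v.2.1 v.2.2)
        (MvPolynomial.rename (fun v => (Φ v.1, v.2)) f) =
      MvPolynomial.eval (fun v => ρ (Φ v.1) v.2.1 v.2.2) f := fun ρ => by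
    rw [MvPolynomial.eval_rename]; rfl
  have key := vanish_surfaces G σ' ?_ ?_ ?_ ?_ (MvPolynomial.rename (fun v => (Φ v.1, v.2)) f)
    ?_ ?_
  · rw [he] at key
    simpa only [hΦ] using key
  · intro x
    rcases hcase x with h | ⟨y, rfl⟩
    · rw [h, det_one]
    · rw [hΦ]; exact hdet y
  · rintro (i | j)
    · exact hrel i
    · refine List.prod_eq_one fun z hz => ?_
      simp only [cmList, List.mem_ofFn] at hz
      obtain ⟨k, rfl⟩ := hz
      have hd : IsUnit (σ (Sum.inr ⟨j, k⟩)).det := by rw [hdet]; exact isUnit_one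
      simp [cm, σ', mul_nonsing_inv _ hd]
  · intro x y hxy
    rcases hcase x with h | ⟨x', rfl⟩
    · simp [h]
    rcases hcase y with h | ⟨y', rfl⟩
    · simp [h]
    rw [hΦ, hΦ]
    exact hcomm x' y' fun hh => hxy (by rw [hΦ1, hΦ1, hh])
  · intro U hU
    obtain ⟨V, hV, hc⟩ := hs U fun x v hv => hΦ x ▸ hU (Φ x) v hv
    refine ⟨V, fun x v hv => ?_, hc⟩
    rcases hcase x with h | ⟨y, rfl⟩
    · rwa [h, one_mulVec]
    · rw [hΦ]; exact hV y v hv
  · intro P P' ρ hP
    rw [he (fun x => P * ρ x * P'), he ρ]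
    exact hinv P P' (fun x => ρ (Φ x)) hP
  · intro ρ hmem hd hr hc
    rw [he ρ]
    exact hf (fun x => ρ (Φ x)) (fun x => hmem _) (fun x => hd _) (fun i => hr (Sum.inl i))
      fun x y hxy => hc _ _ (by rw [hΦ1, hΦ1]; exact hxy)

end Vale.Agent.P002.Prod
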