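import Vale.Agent.P002.Moves

/-!
# P002: linear algebra for products of groups

A semisimple family of matrices is conjugate to a block diagonal family with irreducible blocks; an
irreducible family which splits into mutually commuting subfamilies is conjugate to a tensor product
of irreducible families.
-/

namespace Vale.Agent.P002.Prod

open Matrix Kronecker

variable {r d : ℕ} {ι α β : Type*}

/-- The subspace is invariant under all members of the family. -/
def Inv (ρ : ι → Matrix (Fin r) (Fin r) ℂ) (U : Submodule ℂ (Fin r → ℂ)) : Prop :=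
  ∀ x, ∀ v ∈ U, ρ x *ᵥ v ∈ U

/-- Irreducible families. -/
def Irred (ρ : ι → Matrix (Fin r) (Fin r) ℂ) : Prop :=
  r ≠ 0 ∧ ∀ U, Inv ρ U → U = ⊥ ∨ U = ⊤

theorem Inv.inf {ρ : ι → Matrix (Fin r) (Fin r) ℂ} {U V : Submodule ℂ (Fin r → ℂ)}
    (hU : Inv ρ U) (hV : Inv ρ V) : Inv ρ (U ⊓ V) :=
  fun x v hv => ⟨hU x v hv.1, hV x v hv.2⟩

theorem exists_min {ρ : ι → Matrix (Fin r) (Fin r) ℂ} {U : Submodule ℂ (Fin r → ℂ)}
    (hU : Inv ρ U) (h0 : U ≠ ⊥) : ∃ W ≤ U, W ≠ ⊥ ∧ Inv ρ W ∧
      ∀ W' ≤ W, Inv ρ W' → W' = ⊥ ∨ W' = W := by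
  obtain ⟨W, ⟨hWU, hW0, hW⟩, hmin⟩ := exists_minimal_of_wellFoundedLT
    (fun W : Submodule ℂ (Fin r → ℂ) => W ≤ U ∧ W ≠ ⊥ ∧ Inv ρ W) ⟨U, le_rfl, h0, hU⟩
  refine ⟨W, hWU, hW0, hW, fun W' hle hW' => or_iff_not_imp_left.2 fun h => ?_⟩
  exact le_antisymm hle (hmin ⟨hle.trans hWU, h, hW'⟩ hle)

/-- Scalar commutant of an irreducible family. -/
theorem Irred.schur {ρ : ι → Matrix (Fin r) (Fin r) ℂ} (h : Irred ρ)
    {c : Matrix (Fin r) (Fin r) ℂ} (hc : ∀ x, c * ρ x = ρ x * c) :
    ∃ z : ℂ, c = z • (1 : Matrix (Fin r) (Fin r) ℂ) := by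
  have : Nonempty (Fin r) := ⟨⟨0, Nat.pos_of_ne_zero h.1⟩⟩
  obtain ⟨z, hz⟩ := Module.End.exists_eigenvalue (Matrix.toLin' c)
  have hinv : Inv ρ (Module.End.eigenspace (Matrix.toLin' c) z) := by
    intro x v hv
    rw [Module.End.mem_eigenspace_iff, Matrix.toLin'_apply] at hv ⊢
    rw [mulVec_mulVec, hc, ← mulVec_mulVec, hv, mulVec_smul]
  refine ⟨z, ?_⟩
  rcases h.2 _ hinv with hb | ht
  · exact absurd hb hz
  · apply Matrix.toLin'.injective
    refine LinearMap.ext fun v => ?_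
    have hv : v ∈ Module.End.eigenspace (Matrix.toLin' c) z := ht ▸ Submodule.mem_top
    rw [Module.End.mem_eigenspace_iff] at hv
    simpa [smul_mulVec] using hv

/-- All matrices scalar forces rank one. -/
theorem Irred.eq_one_of_scalar {ρ : ι → Matrix (Fin r) (Fin r) ℂ} (h : Irred ρ)
    (hs : ∀ x, ∃ z : ℂ, ρ x = z • (1 : Matrix (Fin r) (Fin r) ℂ)) : r = 1 := by
  have hr := Nat.pos_of_ne_zero h.1
  let v : Fin r → ℂ := Pi.single ⟨0, hr⟩ 1
  have hv : v ≠ 0 := by simp [v]
  have hinv : Inv ρ (Submodule.span ℂ {v}) := by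
    intro x w hw
    obtain ⟨z, hz⟩ := hs x
    rw [hz, smul_mulVec, one_mulVec]
    exact Submodule.smul_mem _ _ hw
  rcases h.2 _ hinv with hb | ht
  · exact absurd (Submodule.span_singleton_eq_bot.1 hb) hv
  · have h1 := finrank_span_singleton (K := ℂ) hv
    rwa [ht, finrank_top, Module.finrank_fintype_fun_eq_card, Fintype.card_fin] at h1

theorem irred_of_injective {k : ℕ} (hk : k ≠ 0) {ρ : ι → Matrix (Fin r) (Fin r) ℂ}
    {W : Submodule ℂ (Fin r → ℂ)} (hmin : ∀ W' ≤ W, Inv ρ W' → W' = ⊥ ∨ W' = W)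
    (φ : (Fin k → ℂ) →ₗ[ℂ] (Fin r → ℂ)) (hφ : Function.Injective φ)
    (hrange : LinearMap.range φ = W) {B : ι → Matrix (Fin k) (Fin k) ℂ}
    (hB : ∀ x w, ρ x *ᵥ φ w = φ (B x *ᵥ w)) : Irred B := by
  refine ⟨hk, fun U hU => ?_⟩
  have h1 : Inv ρ (U.map φ) := by
    rintro x _ ⟨w, hw, rfl⟩
    exact ⟨B x *ᵥ w, hU x w hw, (hB x w).symm⟩
  rcases hmin (U.map φ) (hrange ▸ LinearMap.map_le_range) h1 with h | h
  · refine Or.inl ((Submodule.map_injective_of_injective hφ) ?_)
    rw [h, Submodule.map_bot]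
  · refine Or.inr ((Submodule.map_injective_of_injective hφ) ?_)
    rw [h, Submodule.map_top, hrange]

theorem exists_irred_basis {ρ : ι → Matrix (Fin r) (Fin r) ℂ} {W : Submodule ℂ (Fin r → ℂ)}
    (h0 : W ≠ ⊥) (hW : Inv ρ W) (hmin : ∀ W' ≤ W, Inv ρ W' → W' = ⊥ ∨ W' = W) :
    ∃ (k : ℕ) (b : Module.Basis (Fin k) ℂ W) (B : ι → Matrix (Fin k) (Fin k) ℂ), Irred B ∧
      ∀ x s, ρ x *ᵥ (b s : Fin r → ℂ) = ∑ s', B x s' s • (b s' : Fin r → ℂ) := by
  have : Nontrivial W := Submodule.nontrivial_iff_ne_bot.2 h0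
  set b := Module.finBasis ℂ W with hb
  let B : ι → Matrix (Fin (Module.finrank ℂ W)) (Fin (Module.finrank ℂ W)) ℂ :=
    fun x => LinearMap.toMatrix b b ((Matrix.toLin' (ρ x)).restrict (hW x))
  have key : ∀ x (w : W), (ρ x *ᵥ (w : Fin r → ℂ)) =
      (b.equivFun.symm (B x *ᵥ b.equivFun w) : W) := by
    intro x w
    rw [show B x *ᵥ b.equivFun w = b.equivFun ((Matrix.toLin' (ρ x)).restrict (hW x) w) from
      LinearMap.toMatrix_mulVec_repr b b _ w, LinearEquiv.symm_apply_apply]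
    rfl
  refine ⟨_, b, B, irred_of_injective Module.finrank_pos.ne' hmin
    (W.subtype.comp b.equivFun.symm.toLinearMap)
    (W.injective_subtype.comp b.equivFun.symm.injective) ?_ fun x w => ?_, fun x s => ?_⟩
  · rw [LinearMap.range_comp, LinearEquiv.range, Submodule.map_top, Submodule.range_subtype]
  · have h1 := key x (b.equivFun.symm w)
    rw [LinearEquiv.apply_symm_apply] at h1
    exact h1
  · rw [key, Module.Basis.equivFun_symm_apply, Submodule.coe_sum]
    refine Finset.sum_congr rfl fun s' _ => ?_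
    rw [Submodule.coe_smul]
    congr 1
    simp [Matrix.mulVec, dotProduct]

/-- Conjugating an intertwined family to matrices in a given basis. -/
theorem exists_conj {κ : Type*} [Fintype κ] [DecidableEq κ] (e : κ ≃ Fin r)
    {ρ : ι → Matrix (Fin r) (Fin r) ℂ} (v : Module.Basis κ ℂ (Fin r → ℂ))
    {M : ι → Matrix κ κ ℂ} (h : ∀ x c, ρ x *ᵥ v c = ∑ c', M x c' c • v c') :
    ∃ P P' : Matrix (Fin r) (Fin r) ℂ, P * P' = 1 ∧ P' * P = 1 ∧
      ∀ x, P' * ρ x * P = reindex e e (M x) := by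
  set u := v.reindex e with hu
  set P := (Pi.basisFun ℂ (Fin r)).toMatrix u with hP
  set P' := u.toMatrix (Pi.basisFun ℂ (Fin r)) with hP'
  have h1 : P * P' = 1 := Module.Basis.toMatrix_mul_toMatrix_flip _ _
  have h2 : P' * P = 1 := Module.Basis.toMatrix_mul_toMatrix_flip _ _
  refine ⟨P, P', h1, h2, fun x => ?_⟩
  have hPe : ∀ a c, P a (e c) = v c a := fun a c => by
    simp [hP, hu, Module.Basis.toMatrix_apply]
  have hk : ρ x * P = P * reindex e e (M x) := by
    ext a j
    obtain ⟨c, rfl⟩ := e.surjective j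
    rw [Matrix.mul_apply, Matrix.mul_apply, ← e.sum_comp]
    conv_rhs => rw [← e.sum_comp]
    simp only [hPe, reindex_apply, submatrix_apply, Equiv.symm_apply_apply]
    have := congrFun (h x c) a
    simp only [mulVec, dotProduct, Finset.sum_apply, Pi.smul_apply, smul_eq_mul] at this
    rw [e.sum_comp (fun j => ρ x a j * v c j), this]
    exact Finset.sum_congr rfl fun c' _ => mul_comm _ _
  rw [mul_assoc, hk, ← mul_assoc, h2, one_mul]

/-- A semisimple family is conjugate to a block diagonal family with irreducible blocks. -/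
theorem exists_blocks {ρ : ι → Matrix (Fin r) (Fin r) ℂ}
    (hs : ∀ U, Inv ρ U → ∃ V, Inv ρ V ∧ IsCompl U V) :
    ∃ (N : ℕ) (d : Fin N → ℕ) (e : (Σ j, Fin (d j)) ≃ Fin r)
      (B : ∀ j, ι → Matrix (Fin (d j)) (Fin (d j)) ℂ) (P P' : Matrix (Fin r) (Fin r) ℂ),
      P * P' = 1 ∧ P' * P = 1 ∧ (∀ j, Irred (B j)) ∧
      ∀ x, P' * ρ x * P = reindex e e (blockDiagonal' fun j => B j x) := by
  classical
  let Good : Submodule ℂ (Fin r → ℂ) → Prop := fun W =>
    W ≠ ⊥ ∧ Inv ρ W ∧ ∀ W' ≤ W, Inv ρ W' → W' = ⊥ ∨ W' = W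
  let Q : ℕ → Prop := fun N =>
    ∃ W : Fin N → Submodule ℂ (Fin r → ℂ), (∀ j, Good (W j)) ∧ iSupIndep W
  have hQ0 : Q 0 := ⟨fun j => j.elim0, fun j => j.elim0, fun j => j.elim0⟩
  have hle : ∀ N, Q N → N ≤ r := by
    rintro N ⟨W, hW, hind⟩
    choose v hv hv0 using fun j => Submodule.exists_mem_ne_zero_of_ne_bot (hW j).1
    simpa using (hind.linearIndependent W hv hv0).fintype_card_le_finrank
  obtain ⟨N, ⟨W, hW, hind⟩, hmax⟩ : ∃ N, Q N ∧ ¬ Q (N + 1) := by
    by_contra hno
    push Not at hno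
    have hall : ∀ n, Q n := fun n => by
      induction n with
      | zero => exact hQ0
      | succ n ih => exact hno _ ih
    have := hle _ (hall (r + 1))
    omega
  have htop : iSup W = ⊤ := by
    by_contra hne
    have hS : Inv ρ (iSup W) := by
      intro x v hv
      refine Submodule.iSup_induction W (motive := fun v => ρ x *ᵥ v ∈ iSup W) hv
        (fun j w hw => Submodule.mem_iSup_of_mem j ((hW j).2.1 x w hw)) (by simp)
        (fun a b ha hb => by rw [mulVec_add]; exact add_mem ha hb)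
    obtain ⟨V, hV, hc⟩ := hs _ hS
    have hV0 : V ≠ ⊥ := fun h => hne (by
      have := hc.sup_eq_top
      rwa [h, sup_bot_eq] at this)
    obtain ⟨U, hUV, hU⟩ := exists_min hV hV0
    refine hmax ⟨Fin.snoc W U, fun j => ?_, ?_⟩
    · refine Fin.lastCases ?_ (fun i => ?_) j
      · rw [Fin.snoc_last]; exact hU
      · rw [Fin.snoc_castSucc]; exact hW i
    rw [iSupIndep_iff_finsetSum_eq_zero_imp_eq_zero]
    intro s v hv hsum j hj
    set v' : Fin (N + 1) → Fin r → ℂ := fun j => if j ∈ s then v j else 0 with hv'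
    have hmem : ∀ j, v' j ∈ (Fin.snoc W U : Fin (N + 1) → Submodule ℂ (Fin r → ℂ)) j := fun j => by
      simp only [hv']
      split_ifs with h
      exacts [hv j h, zero_mem _]
    have h0 : ∑ j, v' j = 0 := by
      simpa [hv', Finset.sum_ite_mem] using hsum
    rw [Fin.sum_univ_castSucc] at h0
    have hA : ∑ i : Fin N, v' i.castSucc ∈ iSup W := Submodule.sum_mem _ fun i _ =>
      Submodule.mem_iSup_of_mem i (by simpa using hmem i.castSucc)
    have hB : v' (Fin.last N) ∈ V := hUV (by simpa using hmem (Fin.last N))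
    have hBA : v' (Fin.last N) ∈ iSup W := by
      rw [eq_neg_of_add_eq_zero_right h0]; exact neg_mem hA
    have hlast : v' (Fin.last N) = 0 := Submodule.disjoint_def.1 hc.disjoint _ hBA hB
    rw [hlast, add_zero] at h0
    have hrest : ∀ i : Fin N, v' i.castSucc = 0 := fun i =>
      (iSupIndep_iff_finsetSum_eq_zero_imp_eq_zero W).1 hind Finset.univ (fun i => v' i.castSucc)
        (fun i _ => by simpa using hmem i.castSucc) h0 i (Finset.mem_univ i)
    have hall : ∀ j, v' j = 0 := fun j => Fin.lastCases hlast hrest j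
    simpa [hv', hj] using hall j
  choose d b B hB hb using fun j => exists_irred_basis (hW j).1 (hW j).2.1 (hW j).2.2
  have hint : DirectSum.IsInternal W :=
    DirectSum.isInternal_submodule_of_iSupIndep_of_iSup_eq_top hind htop
  let v := hint.collectedBasis b
  let e : (Σ j, Fin (d j)) ≃ Fin r := Fintype.equivFinOfCardEq
    (by rw [← Module.finrank_eq_card_basis v, Module.finrank_fintype_fun_eq_card, Fintype.card_fin])
  have hM : ∀ x c, ρ x *ᵥ v c = ∑ c', blockDiagonal' (fun j => B j x) c' c • v c' := by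
    rintro x ⟨j, s⟩
    simp only [v, DirectSum.IsInternal.collectedBasis_coe, hb, Fintype.sum_sigma]
    rw [Fintype.sum_eq_single j fun j' hj' => Finset.sum_eq_zero fun s' _ => by
      rw [blockDiagonal'_apply_ne _ _ _ hj', zero_smul]]
    simp only [blockDiagonal'_apply_eq]
  obtain ⟨P, P', h1, h2, h⟩ := exists_conj e v hM
  exact ⟨N, d, e, B, P, P', h1, h2, hB, h⟩

section kron

variable {k l : ℕ}

/-- The left tensor factor. -/
noncomputable def kl (e : Fin k × Fin l ≃ Fin d) :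
    Matrix (Fin k) (Fin k) ℂ →ₐ[ℂ] Matrix (Fin d) (Fin d) ℂ :=
  (reindexAlgEquiv ℂ ℂ e).toAlgHom.comp
    (AlgHom.ofLinearMap
      { toFun := fun X => X ⊗ₖ (1 : Matrix (Fin l) (Fin l) ℂ)
        map_add' := fun X Y => add_kronecker X Y _
        map_smul' := fun c X => smul_kronecker c X _ }
      (one_kronecker_one (α := ℂ)) (fun X Y => by
        simp only [LinearMap.coe_mk, AddHom.coe_mk]
        rw [← mul_kronecker_mul, one_mul]))

/-- The right tensor factor. -/
noncomputable def kr (e : Fin k × Fin l ≃ Fin d) :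
    Matrix (Fin l) (Fin l) ℂ →ₐ[ℂ] Matrix (Fin d) (Fin d) ℂ :=
  (reindexAlgEquiv ℂ ℂ e).toAlgHom.comp
    (AlgHom.ofLinearMap
      { toFun := fun X => (1 : Matrix (Fin k) (Fin k) ℂ) ⊗ₖ X
        map_add' := fun X Y => kronecker_add _ X Y
        map_smul' := fun c X => kronecker_smul c _ X }
      (one_kronecker_one (α := ℂ)) (fun X Y => by
        simp only [LinearMap.coe_mk, AddHom.coe_mk]
        rw [← mul_kronecker_mul, one_mul]))

theorem kl_apply (e : Fin k × Fin l ≃ Fin d) (X : Matrix (Fin k) (Fin k) ℂ) :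
    kl e X = reindex e e (X ⊗ₖ (1 : Matrix (Fin l) (Fin l) ℂ)) := rfl

theorem kr_apply (e : Fin k × Fin l ≃ Fin d) (X : Matrix (Fin l) (Fin l) ℂ) :
    kr e X = reindex e e ((1 : Matrix (Fin k) (Fin k) ℂ) ⊗ₖ X) := rfl

theorem kl_kr_comm (e : Fin k × Fin l ≃ Fin d) (X : Matrix (Fin k) (Fin k) ℂ)
    (Y : Matrix (Fin l) (Fin l) ℂ) : kl e X * kr e Y = kr e Y * kl e X := by
  simp only [kl_apply, kr_apply, reindex_apply, submatrix_mul_equiv, ← mul_kronecker_mul, one_mul,
    mul_one]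

theorem det_kl (e : Fin k × Fin l ≃ Fin d) (X : Matrix (Fin k) (Fin k) ℂ) :
    (kl e X).det = X.det ^ l := by
  simp [kl_apply, det_kronecker]

theorem det_kr (e : Fin k × Fin l ≃ Fin d) (X : Matrix (Fin l) (Fin l) ℂ) :
    (kr e X).det = X.det ^ k := by
  simp [kr_apply, det_kronecker]

theorem kl_injective (e : Fin k × Fin l ≃ Fin d) (hl : 0 < l) : Function.Injective (kl e) := by
  intro X Y h
  ext a b
  have := congrFun (congrFun h (e (a, ⟨0, hl⟩))) (e (b, ⟨0, hl⟩))
  simpa [kl_apply] using this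

theorem kr_injective (e : Fin k × Fin l ≃ Fin d) (hk : 0 < k) : Function.Injective (kr e) := by
  intro X Y h
  ext a b
  have := congrFun (congrFun h (e (⟨0, hk⟩, a))) (e (⟨0, hk⟩, b))
  simpa [kr_apply] using this

theorem kl_mem (e : Fin k × Fin l ≃ Fin d) (R : Subring ℂ) {X : Matrix (Fin k) (Fin k) ℂ}
    (hX : ∀ a b, X a b ∈ R) (a b : Fin d) : kl e X a b ∈ R := by
  simp only [kl_apply, reindex_apply, submatrix_apply, kroneckerMap_apply, one_apply]
  refine mul_mem (hX _ _) ?_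
  split_ifs
  exacts [one_mem _, zero_mem _]

theorem kr_mem (e : Fin k × Fin l ≃ Fin d) (R : Subring ℂ) {X : Matrix (Fin l) (Fin l) ℂ}
    (hX : ∀ a b, X a b ∈ R) (a b : Fin d) : kr e X a b ∈ R := by
  simp only [kr_apply, reindex_apply, submatrix_apply, kroneckerMap_apply, one_apply]
  refine mul_mem ?_ (hX _ _)
  split_ifs
  exacts [one_mem _, zero_mem _]

theorem exists_eq_kr (e : Fin k × Fin l ≃ Fin d) {A : α → Matrix (Fin k) (Fin k) ℂ} (hA : Irred A)
    {C : Matrix (Fin d) (Fin d) ℂ} (hC : ∀ a, C * kl e (A a) = kl e (A a) * C) :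
    ∃ τ, C = kr e τ := by
  let M : Fin l → Fin l → Matrix (Fin k) (Fin k) ℂ :=
    fun t t' => of fun s s' => C (e (s, t)) (e (s', t'))
  have hM : ∀ t t' a, M t t' * A a = A a * M t t' := by
    intro t t' a
    ext s s'
    have h := congrFun (congrFun (hC a) (e (s, t))) (e (s', t'))
    simp only [Matrix.mul_apply, kl_apply, reindex_apply, submatrix_apply, ← e.sum_comp,
      Equiv.symm_apply_apply, Fintype.sum_prod_type, kroneckerMap_apply, one_apply, mul_ite, ite_mul,
      mul_one, mul_zero, zero_mul] at h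
    simp only [Matrix.mul_apply, M, of_apply]
    simpa [Finset.sum_ite_eq, Finset.sum_ite_eq'] using h
  choose z hz using fun t t' => hA.schur (hM t t')
  refine ⟨of z, ?_⟩
  ext i j
  obtain ⟨⟨s, t⟩, rfl⟩ := e.surjective i
  obtain ⟨⟨s', t'⟩, rfl⟩ := e.surjective j
  have h := congrFun (congrFun (hz t t') s) s'
  simp only [M, of_apply, Matrix.smul_apply, one_apply, smul_eq_mul] at h
  simp [kr_apply, h, one_apply, mul_comm]

end kron

/-- Two commuting families generating an irreducible family form a tensor product. -/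
theorem exists_split {ρA : α → Matrix (Fin d) (Fin d) ℂ} {ρB : β → Matrix (Fin d) (Fin d) ℂ}
    (hcomm : ∀ a b, ρA a * ρB b = ρB b * ρA a) (hirr : Irred (Sum.elim ρA ρB)) :
    ∃ (k l : ℕ) (e : Fin k × Fin l ≃ Fin d) (A : α → Matrix (Fin k) (Fin k) ℂ)
      (τ : β → Matrix (Fin l) (Fin l) ℂ) (P P' : Matrix (Fin d) (Fin d) ℂ),
      P * P' = 1 ∧ P' * P = 1 ∧ Irred A ∧ Irred τ ∧
      (∀ a, P' * ρA a * P = kl e (A a)) ∧ ∀ b, P' * ρB b * P = kr e (τ b) := by
  classical
  have htop0 : (⊤ : Submodule ℂ (Fin d → ℂ)) ≠ ⊥ := by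
    have : Nonempty (Fin d) := ⟨⟨0, Nat.pos_of_ne_zero hirr.1⟩⟩
    exact top_ne_bot
  obtain ⟨U, -, hU0, hU, hmin⟩ := exists_min (ρ := ρA) (fun a v _ => Submodule.mem_top) htop0
  obtain ⟨k, u, A, hA, hu⟩ := exists_irred_basis hU0 hU hmin
  let S : Submonoid (Matrix (Fin d) (Fin d) ℂ) := Submonoid.closure (Set.range ρB)
  have hScomm : ∀ a, ∀ m ∈ S, ρA a * m = m * ρA a := by
    intro a m hm
    induction hm using Submonoid.closure_induction with
    | mem m hm => obtain ⟨b, rfl⟩ := hm; exact hcomm a b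
    | one => simp
    | mul m m' _ _ h1 h2 => rw [← mul_assoc, h1, mul_assoc, h2, mul_assoc]
  have hspan : ∀ (Z : Submodule ℂ (Fin d → ℂ)), (∀ m ∈ S, ∀ w ∈ U, m *ᵥ w ∈ Z) → Z = ⊤ := by
    intro Z hZ
    let Z' := Submodule.span ℂ {x | ∃ m ∈ S, ∃ w ∈ U, m *ᵥ w = x}
    have hle : Z' ≤ Z := Submodule.span_le.2 fun x ⟨m, hm, w, hw, hx⟩ => hx ▸ hZ m hm w hw
    have hinv : Inv (Sum.elim ρA ρB) Z' := by
      intro y v hv
      have : Z' ≤ Z'.comap (Matrix.toLin' (Sum.elim ρA ρB y)) := by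
        refine Submodule.span_le.2 ?_
        rintro x ⟨m, hm, w, hw, rfl⟩
        refine Submodule.subset_span ?_
        rw [Matrix.toLin'_apply, mulVec_mulVec]
        cases y with
        | inl a => exact ⟨m, hm, _, hU a w hw, by rw [mulVec_mulVec, Sum.elim_inl, hScomm a m hm]⟩
        | inr b => exact ⟨_, mul_mem (Submonoid.subset_closure ⟨b, rfl⟩) hm, w, hw, rfl⟩
      simpa using this hv
    rcases hirr.2 _ hinv with h | h
    · exfalso
      obtain ⟨w, hw, hw0⟩ := Submodule.exists_mem_ne_zero_of_ne_bot hU0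
      have : (1 : Matrix (Fin d) (Fin d) ℂ) *ᵥ w ∈ Z' :=
        Submodule.subset_span ⟨1, one_mem _, w, hw, rfl⟩
      rw [h, one_mulVec] at this
      exact hw0 (by simpa using this)
    · exact top_le_iff.1 (h ▸ hle)
  let lift : ∀ {n : ℕ}, (Fin n → Matrix (Fin d) (Fin d) ℂ) →
      (Fin n → U) →ₗ[ℂ] (Fin d → ℂ) := fun {n} m =>
    ∑ t, (Matrix.toLin' (m t)).comp (U.subtype.comp (LinearMap.proj t))
  have hlift : ∀ {n : ℕ} (m : Fin n → Matrix (Fin d) (Fin d) ℂ) (w : Fin n → U),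
      lift m w = ∑ t, m t *ᵥ (w t : Fin d → ℂ) := fun m w => by
    simp [lift, LinearMap.sum_apply]
  let Q : ℕ → Prop := fun n => ∃ m : Fin n → Matrix (Fin d) (Fin d) ℂ,
    (∀ t, m t ∈ S) ∧ Function.Injective (lift m)
  have hQ0 : Q 0 := ⟨fun t => t.elim0, fun t => t.elim0, fun w w' _ => Subsingleton.elim w w'⟩
  have hle : ∀ n, Q n → n ≤ d := by
    rintro n ⟨m, -, hm⟩
    have h1 := LinearMap.finrank_le_finrank_of_injective hm
    rw [Module.finrank_pi_fintype, Finset.sum_const, Finset.card_univ, Fintype.card_fin,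
      Module.finrank_fintype_fun_eq_card, Fintype.card_fin, smul_eq_mul] at h1
    have h2 : 0 < Module.finrank ℂ U := by
      have : Nontrivial U := Submodule.nontrivial_iff_ne_bot.2 hU0
      exact Module.finrank_pos
    nlinarith
  obtain ⟨l, ⟨m, hmS, hinj⟩, hmax⟩ : ∃ n, Q n ∧ ¬ Q (n + 1) := by
    by_contra hno
    push Not at hno
    have hall : ∀ n, Q n := fun n => by
      induction n with
      | zero => exact hQ0
      | succ n ih => exact hno _ ih
    have := hle _ (hall (d + 1))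
    omega
  have hinvR : Inv ρA (LinearMap.range (lift m)) := by
    rintro a _ ⟨w, rfl⟩
    refine ⟨fun t => ⟨ρA a *ᵥ (w t : Fin d → ℂ), hU a _ (w t).2⟩, ?_⟩
    simp only [hlift, mulVec_sum, mulVec_mulVec, hScomm a _ (hmS _)]
  have hsurj : LinearMap.range (lift m) = ⊤ := by
    refine hspan _ fun b hb w hw => ?_
    by_contra hnot
    let K : Submodule ℂ (Fin d → ℂ) := U ⊓ (LinearMap.range (lift m)).comap (Matrix.toLin' b)
    have hK : Inv ρA K := by
      rintro a v ⟨hv1, hv2⟩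
      refine ⟨hU a v hv1, ?_⟩
      simp only [SetLike.mem_coe, Submodule.mem_comap, Matrix.toLin'_apply] at hv2 ⊢
      rw [mulVec_mulVec, ← hScomm a b hb, ← mulVec_mulVec]
      exact hinvR a _ hv2
    have hKbot : K = ⊥ := (hmin K inf_le_left hK).resolve_right fun h => hnot (by
      have : w ∈ K := h.symm ▸ hw
      exact this.2)
    refine hmax ⟨Fin.snoc m b, fun t => ?_, (injective_iff_map_eq_zero _).2 fun v hv => ?_⟩
    · refine Fin.lastCases ?_ (fun i => ?_) t
      · simpa using hb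
      · simpa using hmS i
    rw [hlift, Fin.sum_univ_castSucc] at hv
    simp only [Fin.snoc_castSucc, Fin.snoc_last] at hv
    have hlast : (v (Fin.last l) : Fin d → ℂ) ∈ K := by
      refine ⟨(v _).2, ?_⟩
      simp only [SetLike.mem_coe, Submodule.mem_comap, Matrix.toLin'_apply]
      rw [eq_neg_of_add_eq_zero_right hv]
      exact neg_mem ⟨fun t => v t.castSucc, hlift _ _⟩
    rw [hKbot, Submodule.mem_bot] at hlast
    rw [hlast, mulVec_zero, add_zero, ← hlift m (fun t => v t.castSucc)] at hv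
    have hrest := hinj (hv.trans (map_zero _).symm)
    funext t
    refine Fin.lastCases ?_ (fun i => ?_) t
    · exact Subtype.ext hlast
    · exact congrFun hrest i
  let E : (Fin l → U) ≃ₗ[ℂ] (Fin d → ℂ) :=
    LinearEquiv.ofBijective (lift m) ⟨hinj, LinearMap.range_eq_top.1 hsurj⟩
  let v : Module.Basis (Fin k × Fin l) ℂ (Fin d → ℂ) :=
    ((Pi.basis fun _ : Fin l => u).reindex
      ((Equiv.sigmaEquivProd (Fin l) (Fin k)).trans (Equiv.prodComm _ _))).map E
  have hv : ∀ s t, v (s, t) = m t *ᵥ (u s : Fin d → ℂ) := by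
    intro s t
    simp only [v, Module.Basis.map_apply, Module.Basis.reindex_apply]
    show lift m _ = _
    rw [hlift, Fintype.sum_eq_single t fun t' ht' => by simp [Pi.basis_apply, ht']]
    simp [Pi.basis_apply]
  let e : Fin k × Fin l ≃ Fin d := Fintype.equivFinOfCardEq
    (by rw [← Module.finrank_eq_card_basis v, Module.finrank_fintype_fun_eq_card, Fintype.card_fin])
  have hM : ∀ a c, ρA a *ᵥ v c =
      ∑ c', (A a ⊗ₖ (1 : Matrix (Fin l) (Fin l) ℂ)) c' c • v c' := by
    rintro a ⟨s, t⟩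
    rw [hv, mulVec_mulVec, hScomm a _ (hmS t), ← mulVec_mulVec, hu, mulVec_sum,
      Fintype.sum_prod_type]
    refine Finset.sum_congr rfl fun s' _ => ?_
    rw [Fintype.sum_eq_single t fun t' ht' => by simp [one_apply, ht']]
    simp [mulVec_smul, hv]
  obtain ⟨P, P', h1, h2, hP⟩ := exists_conj e v hM
  choose τ hτ using fun b => exists_eq_kr e hA (C := P' * ρB b * P) fun a => by
    have hP' : kl e (A a) = P' * ρA a * P := (hP a).symm
    rw [hP']
    calc P' * ρB b * P * (P' * ρA a * P) = P' * ρB b * (P * P') * ρA a * P := by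
          simp only [mul_assoc]
      _ = P' * (ρA a * ρB b) * P := by rw [h1, mul_one, mul_assoc P' (ρB b), hcomm]
      _ = P' * ρA a * (P * P') * ρB b * P := by rw [h1, mul_one, mul_assoc P' (ρA a)]
      _ = P' * ρA a * P * (P' * ρB b * P) := by simp only [mul_assoc]
  have hl : 0 < l := Nat.pos_of_ne_zero fun hl => by
    have hc := Fintype.card_congr e
    simp [hl] at hc
    exact hirr.1 hc.symm
  refine ⟨k, l, e, A, τ, P, P', h1, h2, hA, ⟨hl.ne', fun W hW => ?_⟩, hP, hτ⟩
  -- the tensor product of `W` with the whole left factor is invariant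
  let sl : Fin k → (Fin d → ℂ) →ₗ[ℂ] (Fin l → ℂ) := fun s =>
    LinearMap.pi fun t => LinearMap.proj (e (s, t))
  let Z : Submodule ℂ (Fin d → ℂ) := ⨅ s, W.comap (sl s ∘ₗ Matrix.toLin' P')
  have hmemZ : ∀ x, x ∈ Z ↔ ∀ s, (fun t => (P' *ᵥ x) (e (s, t))) ∈ W := fun x => by
    simp only [Z, Submodule.mem_iInf, Submodule.mem_comap]
    rfl
  have hconj : ∀ (M : Matrix (Fin d) (Fin d) ℂ) x,
      P' *ᵥ (M *ᵥ x) = (P' * M * P) *ᵥ (P' *ᵥ x) := fun M x => by
    rw [mulVec_mulVec, mulVec_mulVec]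
    simp only [mul_assoc]
    rw [h1, mul_one]
  have hZ : Inv (Sum.elim ρA ρB) Z := by
    intro y x hx
    rw [hmemZ] at hx ⊢
    intro s
    rw [hconj]
    generalize hy : P' *ᵥ x = z at hx
    cases y with
    | inl a =>
      rw [Sum.elim_inl, show P' * ρA a * P = kl e (A a) from hP a]
      have : (fun t => (kl e (A a) *ᵥ z) (e (s, t))) = ∑ s', A a s s' • fun t => z (e (s', t)) := by
        funext t
        simp [mulVec, dotProduct, kl_apply, ← e.sum_comp, Fintype.sum_prod_type, one_apply,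
          Finset.sum_apply]
      rw [this]
      exact W.sum_mem fun s' _ => W.smul_mem _ (hx s')
    | inr b =>
      rw [Sum.elim_inr, hτ]
      have : (fun t => (kr e (τ b) *ᵥ z) (e (s, t))) = τ b *ᵥ fun t => z (e (s, t)) := by
        funext t
        simp [mulVec, dotProduct, kr_apply, ← e.sum_comp, Fintype.sum_prod_type, one_apply]
      rw [this]
      exact hW b _ (hx s)
  have hk : 0 < k := Nat.pos_of_ne_zero hA.1
  have hget : ∀ w : Fin l → ℂ, P' *ᵥ (P *ᵥ fun i => w (e.symm i).2) = fun i => w (e.symm i).2 :=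
    fun w => by rw [mulVec_mulVec, h2, one_mulVec]
  rcases hirr.2 Z hZ with hb | ht
  · refine Or.inl ((Submodule.eq_bot_iff W).2 fun w hw => ?_)
    have : (P *ᵥ fun i => w (e.symm i).2) ∈ Z := (hmemZ _).2 fun s => by
      rw [hget]; simpa using hw
    rw [hb, Submodule.mem_bot] at this
    funext t
    have h := congrFun ((hget w).symm.trans (by rw [this, mulVec_zero])) (e (⟨0, hk⟩, t))
    simpa using h
  · refine Or.inr (eq_top_iff.2 fun w _ => ?_)
    have h := (hmemZ (P *ᵥ fun i => w (e.symm i).2)).1 (ht ▸ Submodule.mem_top) ⟨0, hk⟩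
    rw [hget] at h
    simpa using h

section tens

variable {I : Type*} {T : I → Type*}

/-- Data of one tensor factor inside `M_d`. -/
structure Fac (α : Type*) (d : ℕ) where
  k : ℕ
  l : ℕ
  A : α → Matrix (Fin k) (Fin k) ℂ
  L : Matrix (Fin k) (Fin k) ℂ →ₐ[ℂ] Matrix (Fin d) (Fin d) ℂ

/-- The properties of a tensor factor. -/
structure Fac.Good (F : Fac α d) : Prop where
  irred : Irred F.A
  pos : 0 < F.l
  inj : Function.Injective F.L
  det : ∀ X, (F.L X).det = X.det ^ F.l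
  mem : ∀ (R : Subring ℂ) X, (∀ a b, X a b ∈ R) → ∀ a b, F.L X a b ∈ R

theorem exists_tens [DecidableEq I] (s : Finset I) : ∀ {d : ℕ}
    (ρ : (i : I) → T i → Matrix (Fin d) (Fin d) ℂ),
    Irred (fun x : Σ i, T i => ρ x.1 x.2) →
    (∀ i i', i ≠ i' → ∀ a b, ρ i a * ρ i' b = ρ i' b * ρ i a) →
    (∀ i ∉ s, ∀ a, ρ i a = 1) →
    ∃ (F : ∀ i, Fac (T i) d) (P P' : Matrix (Fin d) (Fin d) ℂ), P * P' = 1 ∧ P' * P = 1 ∧
      (∀ i, (F i).Good) ∧ (∀ i i', i ≠ i' → ∀ X Y, (F i).L X * (F i').L Y = (F i').L Y * (F i).L X) ∧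
      ∀ i a, P' * ρ i a * P = (F i).L ((F i).A a) := by
  induction s using Finset.induction_on with
  | empty =>
    intro d ρ hirr _ hone
    have h1 : d = 1 :=
      hirr.eq_one_of_scalar fun x => ⟨1, by rw [hone x.1 (Finset.notMem_empty _), one_smul]⟩
    subst h1
    refine ⟨fun i => ⟨1, 1, fun _ => 1, AlgHom.id ℂ _⟩, 1, 1, one_mul 1, one_mul 1, fun i =>
      ⟨⟨one_ne_zero, fun U _ => ?_⟩, Nat.one_pos, fun X Y h => h, fun X => (pow_one _).symm,
        fun R X hX => hX⟩, fun i i' _ X Y => ?_, fun i a => ?_⟩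
    · have hU := Submodule.finrank_le U
      rw [Module.finrank_fintype_fun_eq_card, Fintype.card_fin] at hU
      rcases Nat.le_one_iff_eq_zero_or_eq_one.1 hU with h | h
      · exact Or.inl (Submodule.finrank_eq_zero.1 h)
      · exact Or.inr (Submodule.eq_top_of_finrank_eq (h.trans (by simp)))
    · ext a b
      simp [Matrix.mul_apply, Subsingleton.elim a 0, Subsingleton.elim b 0,
        mul_comm]
    · simp [hone i (Finset.notMem_empty _) a]
  | insert i₀ s hi₀ ih =>
    intro d ρ hirr hcomm hone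
    let ρB : (Σ i, T i) → Matrix (Fin d) (Fin d) ℂ := fun x => if x.1 = i₀ then 1 else ρ x.1 x.2
    obtain ⟨k, l, e, A, τ, P, P', h1, h2, hA, hτirr, hPA, hPB⟩ :=
      exists_split (ρA := ρ i₀) (ρB := ρB) (fun a x => by
        simp only [ρB]
        split_ifs with h
        · simp
        · exact hcomm i₀ x.1 (Ne.symm h) a x.2) (by
        refine ⟨hirr.1, fun U hU => hirr.2 U fun x v hv => ?_⟩
        obtain ⟨i, a⟩ := x
        by_cases h : i = i₀
        · subst h; exact hU (Sum.inl a) v hv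
        · simpa [ρB, h] using hU (Sum.inr ⟨i, a⟩) v hv)
    have hk : 0 < k := Nat.pos_of_ne_zero hA.1
    have hl : 0 < l := Nat.pos_of_ne_zero hτirr.1
    have hτone : ∀ i, (i = i₀ ∨ i ∉ s) → ∀ a, τ ⟨i, a⟩ = 1 := by
      intro i hi a
      refine kr_injective e hk ?_
      rw [← hPB, map_one]
      have : ρB ⟨i, a⟩ = 1 := by
        simp only [ρB]
        split_ifs with h
        · rfl
        · exact hone i (by simp [h, hi.resolve_left h]) a
      rw [this, mul_one, h2]
    obtain ⟨F, Q, Q', q1, q2, hF, hFc, hFQ⟩ := ih (fun i a => τ ⟨i, a⟩) hτirr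
      (fun i i' hii' a b => by
        refine kr_injective e hk ?_
        rw [map_mul, map_mul, ← hPB, ← hPB]
        calc P' * ρB ⟨i, a⟩ * P * (P' * ρB ⟨i', b⟩ * P)
            = P' * ρB ⟨i, a⟩ * (P * P') * ρB ⟨i', b⟩ * P := by simp only [mul_assoc]
          _ = P' * (ρB ⟨i, a⟩ * ρB ⟨i', b⟩) * P := by
              rw [h1, mul_one, mul_assoc P' (ρB ⟨i, a⟩)]
          _ = P' * (ρB ⟨i', b⟩ * ρB ⟨i, a⟩) * P := by
              congr 2
              simp only [ρB]
              split_ifs <;> first | simp | exact hcomm i i' hii' a b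
          _ = P' * ρB ⟨i', b⟩ * (P * P') * ρB ⟨i, a⟩ * P := by
              rw [h1, mul_one, mul_assoc P' (ρB ⟨i', b⟩)]
          _ = P' * ρB ⟨i', b⟩ * P * (P' * ρB ⟨i, a⟩ * P) := by simp only [mul_assoc])
      (fun i hi a => hτone i (Or.inr hi) a)
    let G : ∀ i, Fac (T i) d := Function.update
      (fun i => ⟨(F i).k, (F i).l * k, (F i).A, (kr e).comp (F i).L⟩) i₀ ⟨k, l, A, kl e⟩
    have hG0 : G i₀ = ⟨k, l, A, kl e⟩ := Function.update_self ..
    have hG : ∀ i, i ≠ i₀ → G i = ⟨(F i).k, (F i).l * k, (F i).A, (kr e).comp (F i).L⟩ :=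
      fun i h => Function.update_of_ne h ..
    refine ⟨G, P * kr e Q, kr e Q' * P', ?_, ?_, fun i => ?_, fun i i' hii' => ?_, fun i a => ?_⟩
    · rw [mul_assoc P, ← mul_assoc (kr e Q), ← map_mul, q1, map_one, one_mul, h1]
    · rw [mul_assoc (kr e Q'), ← mul_assoc P', h2, one_mul, ← map_mul, q2, map_one]
    · by_cases h : i = i₀
      · subst h
        rw [hG0]
        exact ⟨hA, hl, kl_injective e hl, det_kl e, fun R X hX => kl_mem e R hX⟩
      · rw [hG i h]
        exact ⟨(hF i).irred, Nat.mul_pos (hF i).pos hk, (kr_injective e hk).comp (hF i).inj,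
          fun X => by rw [AlgHom.comp_apply, det_kr, (hF i).det, pow_mul],
          fun R X hX => kr_mem e R ((hF i).mem R X hX)⟩
    · by_cases h : i = i₀
      · subst h
        rw [hG0, hG i' (Ne.symm hii')]
        exact fun X Y => kl_kr_comm e X _
      · by_cases h' : i' = i₀
        · subst h'
          rw [hG0, hG i hii']
          exact fun X Y => (kl_kr_comm e Y _).symm
        · rw [hG i h, hG i' h']
          intro X Y
          simp only [AlgHom.comp_apply, ← map_mul, hFc i i' hii' X Y]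
    · have hstep : kr e Q' * P' * ρ i a * (P * kr e Q) = kr e Q' * (P' * ρ i a * P) * kr e Q := by
        simp only [mul_assoc]
      rw [hstep]
      by_cases h : i = i₀
      · subst h
        rw [hG0, hPA, ← kl_kr_comm, mul_assoc, ← map_mul, q2, map_one, mul_one]
      · rw [hG i h]
        simp only [AlgHom.comp_apply]
        have hb : P' * ρ i a * P = kr e (τ ⟨i, a⟩) := by
          rw [← hPB]; simp [ρB, h]
        rw [hb, ← map_mul, ← map_mul, hFQ]

end tens

end Vale.Agent.P002.Prod
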